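import Vale.Agent.P146.H706G.LawK
import Vale.Agent.P146.H797.H706_LawT

/-!
P146, plan B, [B8]: the law change for position systems `S : CS n k q.x` under the law
`densG q G F` with a general base density (the results of `H706.LawT`).
-/

set_option linter.all false

open MeasureTheory ProbabilityTheory Finset

namespace Vale.Agent.P146.R1S

open Vale.Agent.P157.Lv Vale.Agent.P146.H425 Vale.Agent.P146.H325 Vale.Agent.P146.H332
  Vale.Agent.P146.H712 Vale.Agent.P146.R1 Vale.Agent.P146.R1C Vale.Agent.P146.H706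

variable {n : ℕ} {k : ℝ} {q : Par} {G : GD (Pair n)}

/-- the row gradients of `G`, pointwise -/
def GRow (k : ℝ) (q : Par) (G : GD (Pair n)) : Prop :=
  ∀ b b' : Fin n, G.Row (row b ∪ row b') (q.x ^ 2 * (2 * k ^ 2 * n))

/-- the density with the rows of `b`, `b'` averaged out -/
noncomputable def phG (q : Par) (G : GD (Pair n)) (F : (Pair n → ℝ) → ℝ) (b b' : Fin n) :
    (K4 (Pair n) → ℝ) → ℝ := Av (lf (row b ∪ row b')) (densG q G F)

variable (S : CS n k q.x)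

lemma lf_psi_SG (hq : q.OkS) (hG : G.Ok) (hr : GRow k q G) (b b' : Fin n) :
    LF (lf (row b ∪ row b')) (psiG q G S.F) (psiG' q G S.F S.D)
      (√(18 * q.x ^ 2 * k ^ 2 * n)) := by
  have hn : 0 ≤ 18 * q.x ^ 2 * k ^ 2 * n := by positivity
  have e : √(18 * q.x ^ 2 * k ^ 2 * n) ^ 2 = 18 * q.x ^ 2 * k ^ 2 * n := Real.sq_sqrt hn
  exact lf_psiG (Bd := 2 * k ^ 2 * n) S.c11 hq hG (fun z => grF_rows_le S q.s2 b b' z)
    (hr b b') (Real.sqrt_nonneg _) (by rw [e]; linarith)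

/-- the transfer `E → E~` -/
theorem law_up_SG (hq : q.OkS) (hG : G.Ok) (hr : GRow k q G) (b b' : Fin n) (p : ℕ)
    (hp : ((p : ℝ) + 1) ^ 2 * (18 * q.x ^ 2 * k ^ 2 * n) ≤ 1)
    {f : (K4 (Pair n) → ℝ) → ℝ} (hf : EG f) {K : ℝ} (h0 : ∀ w, 0 ≤ f w) (hK : ∀ w, f w ≤ K) :
    EwG q G S.F f ≤ 2 * EwG q G S.F (Av (lf (row b ∪ row b')) f) +
      3 * K / 2 ^ p * EwG q G S.F (fun _ => 1) := by
  have hn : 0 ≤ 18 * q.x ^ 2 * k ^ 2 * n := by positivity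
  have e : √(18 * q.x ^ 2 * k ^ 2 * n) ^ 2 = 18 * q.x ^ 2 * k ^ 2 * n := Real.sq_sqrt hn
  exact law_up_g (lf_psi_SG S hq hG hr b b') p (by rw [e]; exact hp) hf h0 hK

/-- the transfer `E~ → E` -/
theorem law_low_SG (hq : q.OkS) (hG : G.Ok) (hr : GRow k q G) (b b' : Fin n) (p : ℕ)
    (hp : ((p : ℝ) + 1) ^ 2 * (18 * q.x ^ 2 * k ^ 2 * n) ≤ 1)
    {f : (K4 (Pair n) → ℝ) → ℝ} (hf : EG f) {K : ℝ} (h0 : ∀ w, 0 ≤ f w) (hK : ∀ w, f w ≤ K) :
    EwG q G S.F (Av (lf (row b ∪ row b')) f) ≤ 2 * EwG q G S.F f +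
      3 * K / 2 ^ p * EwG q G S.F (fun _ => 1) := by
  have hn : 0 ≤ 18 * q.x ^ 2 * k ^ 2 * n := by positivity
  have e : √(18 * q.x ^ 2 * k ^ 2 * n) ^ 2 = 18 * q.x ^ 2 * k ^ 2 * n := Real.sq_sqrt hn
  exact law_low_g (lf_psi_SG S hq hG hr b b') p (by rw [e]; exact hp) hf h0 hK

lemma Ew1_pos_SG (hq : q.OkS) (hG : G.Ok) : 0 < EwG q G S.F (fun _ => 1) :=
  EwG_one_pos S.c11 hq.x0 hG

lemma eg_ph_SG (hq : q.OkS) (hG : G.Ok) (b b' : Fin n) : EG (phG q G S.F b b') :=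
  eg_Av _ (eg_densG S.c11 hq.x0 hG)

lemma phG_nonneg (G : GD (Pair n)) (F : (Pair n → ℝ) → ℝ) (b b' : Fin n) (w : K4 (Pair n) → ℝ) :
    0 ≤ phG q G F b b' w :=
  integral_nonneg fun w => (Real.exp_pos _).le

/-- fourth moments of the columns at the time `s2`, and of the row gradients of `G` -/
def H4G (G : GD (Pair n)) (m4 : ℝ) : Prop :=
  ∀ b b' : Fin n, b' ≠ b →
    (∀ c, c = b ∨ c = b' →
      ∫ w, phG q G S.F b b' w * vn (H816.col (S.A q.s2 (P3 q w)) c) ^ 2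
        ∂(gI (K4 (Pair n))) ≤ EwG q G S.F (fun _ => 1) * m4) ∧
    ∫ w, phG q G S.F b b' w * gr1 q G (row b ∪ row b') w ^ 2 ∂(gI (K4 (Pair n))) ≤
      4 * q.x ^ 4 * k ^ 4 * (EwG q G S.F (fun _ => 1) * m4) ∧
    ∫ w, phG q G S.F b b' w * gr0 q G (row b ∪ row b') w ^ 2 ∂(gI (K4 (Pair n))) ≤
      4 * q.x ^ 4 * k ^ 4 * (EwG q G S.F (fun _ => 1) * m4)

/-- eighth moments of the columns -/
def H8G (G : GD (Pair n)) (m8 : ℝ) : Prop :=
  ∀ b b' : Fin n, b' ≠ b → ∀ c, c = b ∨ c = b' →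
    ∫ w, phG q G S.F b b' w * vn (H816.col (S.A q.s1 (P2 q w)) c) ^ 4
      ∂(gI (K4 (Pair n))) ≤ EwG q G S.F (fun _ => 1) * m8 ∧
    ∫ w, phG q G S.F b b' w * vn (H816.col (S.A q.s2 (P3 q w)) c) ^ 4
      ∂(gI (K4 (Pair n))) ≤ EwG q G S.F (fun _ => 1) * m8

/-- the fourth moment of the row gradient -/
theorem psi_four_SG (hq : q.OkS) (hG : G.Ok) {b b' : Fin n} (hb : b' ≠ b) {m4 : ℝ}
    (h4 : H4G S G m4) :
    ∫ w, phG q G S.F b b' w * (∑ j ∈ lf (row b ∪ row b'), psiG' q G S.F S.D j w ^ 2) ^ 2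
      ∂(gI (K4 (Pair n))) ≤ 324 * q.x ^ 4 * k ^ 4 * (EwG q G S.F (fun _ => 1) * m4) := by
  set Z := EwG q G S.F (fun _ => 1) with hZ
  set φ := phG q G S.F b b' with hφd
  have hφ : EG φ := eg_ph_SG S hq hG b b'
  have hφ0 : ∀ w, 0 ≤ φ w := phG_nonneg G S.F b b'
  have key := psiG_four_le (R := row b ∪ row b') S.c11 hq hG hφ hφ0
  obtain ⟨hm, hg1, hg0⟩ := h4 b b' hb
  have k3 : ∫ w, φ w * grF q.x q.s2 S.F S.D (row b ∪ row b') (P3 q w) ^ 2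
      ∂(gI (K4 (Pair n))) ≤ 4 * k ^ 4 * (Z * m4) := by
    have ev : ∀ c, EG fun w => vn (H816.col (S.A q.s2 (P3 q w)) c) :=
      fun c => eg_P3 (eg_vn_col_S S q.s2 c)
    have i1 : Integrable (fun w => φ w * vn (H816.col (S.A q.s2 (P3 q w)) b) ^ 2)
      (gI (K4 (Pair n))) := (hφ.mul ((ev b).pow 2)).integrable
    have i2 : Integrable (fun w => φ w * vn (H816.col (S.A q.s2 (P3 q w)) b') ^ 2)
      (gI (K4 (Pair n))) := (hφ.mul ((ev b').pow 2)).integrable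
    have h1 : ∫ w, φ w * grF q.x q.s2 S.F S.D (row b ∪ row b') (P3 q w) ^ 2
        ∂(gI (K4 (Pair n))) ≤ ∫ w, 2 * k ^ 4 * (φ w * vn (H816.col (S.A q.s2 (P3 q w)) b) ^ 2 +
          φ w * vn (H816.col (S.A q.s2 (P3 q w)) b') ^ 2) ∂(gI (K4 (Pair n))) := by
      refine integral_mono (hφ.mul ((eg_P3 (eg_grF S.c11 hq.x0 q.s2)).pow 2)).integrable
        ((i1.add i2).const_mul _) fun w => ?_
      show φ w * grF q.x q.s2 S.F S.D (row b ∪ row b') (P3 q w) ^ 2 ≤ 2 * k ^ 4 *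
        (φ w * vn (H816.col (S.A q.s2 (P3 q w)) b) ^ 2 +
          φ w * vn (H816.col (S.A q.s2 (P3 q w)) b') ^ 2)
      have h2 := grF_rows S q.s2 b b' (P3 q w)
      have h3 := grF_nonneg (F := S.F) (D := S.D) (R := row b ∪ row b') q.x q.s2 (P3 q w)
      have h4 := pow_le_pow_left₀ h3 h2 2
      set a := vn (H816.col (S.A q.s2 (P3 q w)) b)
      set c := vn (H816.col (S.A q.s2 (P3 q w)) b')
      have h5 : (k ^ 2 * (a + c)) ^ 2 ≤ 2 * k ^ 4 * (a ^ 2 + c ^ 2) := by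
        have h6 : 0 ≤ k ^ 4 := by positivity
        nlinarith [mul_nonneg h6 (sq_nonneg (a - c))]
      have := mul_le_mul_of_nonneg_left (h4.trans h5) (hφ0 w)
      linarith
    refine h1.trans ?_
    rw [integral_const_mul, integral_add i1 i2]
    have h2 := hm b (Or.inl rfl)
    have h3 := hm b' (Or.inr rfl)
    have h6 : 0 ≤ k ^ 4 := by positivity
    nlinarith
  refine key.trans ?_
  have hx : 0 ≤ q.x ^ 4 := by positivity
  have l3 := mul_le_mul_of_nonneg_left k3 hx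
  refine (mul_le_mul_of_nonneg_left (add_le_add l3 (add_le_add hg1 hg0))
    (by norm_num : (0 : ℝ) ≤ 27)).trans (le_of_eq ?_)
  ring

/-- **the law change of a general functional** -/
theorem lam_gen_SG (hq : q.OkS) (hG : G.Ok) (hr : GRow k q G)
    (hl : 288 * q.x ^ 2 * k ^ 2 * n ≤ 1) {m4 m : ℝ}
    (hm4 : 0 ≤ m4) (h4 : H4G S G m4) {b b' : Fin n} (hb : b' ≠ b)
    {f : (K4 (Pair n) → ℝ) → ℝ} (hf : EG f)
    (hM : ∫ w, phG q G S.F b b' w * f w ^ 2 ∂(gI (K4 (Pair n))) ≤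
      EwG q G S.F (fun _ => 1) * m) :
    |∫ w, densG q G S.F w * f w ∂(gI (K4 (Pair n))) -
      ∫ w, phG q G S.F b b' w * f w ∂(gI (K4 (Pair n)))| ≤
      EwG q G S.F (fun _ => 1) * (6 * q.x * k * √(√m4) * √m) := by
  have hn : 0 ≤ 18 * q.x ^ 2 * k ^ 2 * n := by positivity
  have e : √(18 * q.x ^ 2 * k ^ 2 * n) ^ 2 = 18 * q.x ^ 2 * k ^ 2 * n := Real.sq_sqrt hn
  have h1 := (lf_psi_SG S hq hG hr b b').lc2 (by rw [e]; linarith) hf
  have h3 : EwG q G S.F (fun _ => 1) = ∫ w, Real.exp (psiG q G S.F w) ∂(gI (K4 (Pair n))) := by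
    unfold EwG; simp only [mul_one, densG_eq]
  rw [← sqrt_num (Ew1_pos_SG S hq hG).le hq.x0.le S.k0.le hm4]
  refine h1.trans (mul_le_mul (Real.sqrt_le_sqrt ?_) (Real.sqrt_le_sqrt hM) (Real.sqrt_nonneg _)
    (Real.sqrt_nonneg _))
  refine mul_le_mul_of_nonneg_left (Real.sqrt_le_sqrt ?_) (by norm_num)
  rw [← h3]
  exact mul_le_mul_of_nonneg_left (psi_four_SG S hq hG hb h4) (Ew1_pos_SG S hq hG).le

/-- **the law change of the quartic functionals** -/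
theorem lam_SG (hq : q.OkS) (hG : G.Ok) (hr : GRow k q G)
    (hl : 288 * q.x ^ 2 * k ^ 2 * n ≤ 1) {m4 m8 : ℝ}
    (hm4 : 0 ≤ m4) (h4 : H4G S G m4) (h8 : H8G S G m8) {b b' : Fin n} (hb : b' ≠ b)
    {U V X Y : (K4 (Pair n) → ℝ) → Fin n → ℝ}
    (hU : U = (fun w => H816.col (S.A q.s1 (P2 q w)) b) ∨
      U = (fun w => H816.col (S.A q.s2 (P3 q w)) b))
    (hV : V = (fun w => H816.col (S.A q.s1 (P2 q w)) b') ∨
      V = (fun w => H816.col (S.A q.s2 (P3 q w)) b'))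
    (hX : X = (fun w => H816.col (S.A q.s1 (P2 q w)) b) ∨
      X = (fun w => H816.col (S.A q.s2 (P3 q w)) b))
    (hY : Y = (fun w => H816.col (S.A q.s1 (P2 q w)) b') ∨
      Y = (fun w => H816.col (S.A q.s2 (P3 q w)) b')) :
    |∫ w, densG q G S.F w * (dp (U w) (V w) * dp (X w) (Y w)) ∂(gI (K4 (Pair n))) -
      ∫ w, phG q G S.F b b' w * (dp (U w) (V w) * dp (X w) (Y w)) ∂(gI (K4 (Pair n)))| ≤
      EwG q G S.F (fun _ => 1) * (6 * q.x * k * √(√m4) * √m8) := by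
  have g1 : ∀ c : Fin n, ∀ i, EG fun w => H816.col (S.A q.s1 (P2 q w)) c i := fun c i =>
    eg_P2 (lw_eg S q.s1 i c)
  have g2 : ∀ c : Fin n, ∀ i, EG fun w => H816.col (S.A q.s2 (P3 q w)) c i := fun c i =>
    eg_P3 (lw_eg S q.s2 i c)
  have key : ∀ {W : (K4 (Pair n) → ℝ) → Fin n → ℝ} {c : Fin n}, (c = b ∨ c = b') →
      (W = (fun w => H816.col (S.A q.s1 (P2 q w)) c) ∨
        W = (fun w => H816.col (S.A q.s2 (P3 q w)) c)) →
      (∀ i, EG fun w => W w i) ∧ ∫ w, phG q G S.F b b' w *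
        vs (W w) ^ 4 ∂(gI (K4 (Pair n))) ≤ EwG q G S.F (fun _ => 1) * m8 := by
    intro W c hc hW
    rcases hW with rfl | rfl
    · exact ⟨g1 c, (h8 b b' hb c hc).1⟩
    · exact ⟨g2 c, (h8 b b' hb c hc).2⟩
  obtain ⟨eU, mU⟩ := key (Or.inl rfl) hU
  obtain ⟨eV, mV⟩ := key (Or.inr rfl) hV
  obtain ⟨eX, mX⟩ := key (Or.inl rfl) hX
  obtain ⟨eY, mY⟩ := key (Or.inr rfl) hY
  have ed : ∀ {X Y : (K4 (Pair n) → ℝ) → Fin n → ℝ}, (∀ i, EG fun w => X w i) →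
      (∀ i, EG fun w => Y w i) → EG fun w => dp (X w) (Y w) :=
    fun h h' => EG.sum _ fun i _ => (h i).mul (h' i)
  exact lam_gen_SG S hq hG hr hl hm4 h4 hb ((ed eU eV).mul (ed eX eY))
    (quart_sq_le (eg_ph_SG S hq hG b b') (phG_nonneg G S.F b b') eU eV eX eY mU mV mX mY)

end Vale.Agent.P146.R1S
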