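import Vale.Agent.P146.H706G.LawNF
import Vale.Agent.P146.H45.F2L

/-!
P146, plan R2, row (F2), one-site form: the left side of (F2*) from below, summed over the rows,
from a bound of the row average at every bulk.
-/

set_option linter.all false

open MeasureTheory ProbabilityTheory Finset

namespace Vale.Agent.P146.R1S

open Vale.Agent.P157.Lv Vale.Agent.P146.H425 Vale.Agent.P146.H325 Vale.Agent.P146.H332
  Vale.Agent.P146.H712 Vale.Agent.P146.R1 Vale.Agent.P146.R1C Vale.Agent.P146.H706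
  Vale.Agent.P146.H191 Vale.Agent.P146.H350

variable {n : ℕ} {k β : ℝ} {q : Par} {G : GD (Pair n)} {S : CS n k q.x} {b : Fin n}
  {χ : (K4 (Pair n) → ℝ) → ℝ} {M1 M2 : MF n}

/-- 45's functional is `g3r` -/
lemma f2q_eq_g3r (r : ℝ) (b : Fin n) (M1 M2 : MF n) :
    H45.f2q S q.s1 q.s2 β r (k2 q) (k3 q) b M1 M2 = g3r S β r b M1 M2 := rfl

/-- the error of the law change -/
noncomputable def lcE (S : CS n k q.x) (G : GD (Pair n)) (β y K Mg ε : ℝ)
    (χ : Fin n → (K4 (Pair n) → ℝ) → ℝ) (M1 M2 : Fin n → MF n) : ℝ :=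
  ε * (∑ b, lcA (lf (row b)) (psiG q G S.F) (χ b) (xr S β b (M1 b) (M2 b))) +
    (zM S G χ * z4 S G β y K Mg χ M1 M2 * z3 S G β y K χ M1 M2 / ε) ^ ((1 : ℝ) / 3)

/-- from the bulk to the law, one row -/
lemma lcA_ge (hq : q.OkS) (hG : G.Ok) (hr : GRow k q G) (hχ : EG χ)
    (hi : Ind (lf (row b)) χ) (h0 : ∀ w, 0 ≤ χ w) {f L : (K4 (Pair n) → ℝ) → ℝ} (hf : EG f)
    (hL : EG L) (hle : ∀ w, L w ≤ Av (lf (row b)) f w) :
    Im (densG q G S.F) (fun w => χ w * L w) ≤ lcA (lf (row b)) (psiG q G S.F) χ f := by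
  have hlf := lf_row_SG S hq hG hr b
  rw [lcA_eq hlf hχ hi hf]
  have e0 : Im (densG q G S.F) (fun w => χ w * L w) =
      ∫ z, Real.exp (psiG q G S.F z) * (χ z * L z) ∂(gI (K4 (Pair n))) := rfl
  rw [e0]
  refine integral_mono (hlf.en.mul (hχ.mul hL)).integrable
    (hlf.en.mul (hχ.mul (eg_Av _ hf))).integrable fun w => ?_
  exact mul_le_mul_of_nonneg_left (mul_le_mul_of_nonneg_left (hle w) (h0 w))
    (Real.exp_pos _).le

/-- **the left side from below**: `f_b` any family bounded by `cf · xr_b`, `L_b` a bound of its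
row average at every bulk -/
theorem f2_low (hβ : 0 < β) (hq : q.OkS) (hG : G.Ok) (hr : GRow k q G)
    (hl : 288 * q.x ^ 2 * k ^ 2 * n ≤ 1) (hs1 : 0 < q.s1)
    {χ : Fin n → (K4 (Pair n) → ℝ) → ℝ} {M1 M2 : Fin n → MF n}
    (h : ∀ b, Fzn b (χ b) (M1 b) (M2 b))
    {f : Fin n → (K4 (Pair n) → ℝ) → ℝ} (hf : ∀ b, EG (f b)) {cf : ℝ} (hcf : 0 < cf)
    (hfX : ∀ b w, |f b w| ≤ cf * xr S β b (M1 b) (M2 b) w)
    {L : Fin n → (K4 (Pair n) → ℝ) → ℝ} (hL : ∀ b, EG (L b))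
    (hle : ∀ b w, L b w ≤ Av (lf (row b)) (f b) w)
    {y K Mg ε : ℝ} (hy : 0 ≤ y) (hK0 : 0 ≤ K) (hMg0 : 0 ≤ Mg) (hε : 0 < ε)
    (hK : ∀ b w, zz S β (M1 b) (M2 b) w ≤ K)
    (hMg : ∑ b, (lcA (lf (row b)) (psiG q G S.F) (χ b) (fun w => gr1 q G (row b) w ^ 2) +
      lcA (lf (row b)) (psiG q G S.F) (χ b) (fun w => gr0 q G (row b) w ^ 2)) ≤
        8 * q.x ^ 4 * k ^ 4 * Mg) :
    ∑ b, Im (densG q G S.F) (fun w => χ b w * L b w) - cf * lcE S G β y K Mg ε χ M1 M2 ≤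
      ∑ b, Im (densG q G S.F) (fun w => χ b w * f b w) := by
  have e1 : ∀ b, Im (densG q G S.F) (fun w => χ b w * (cf⁻¹ * f b w)) =
      cf⁻¹ * Im (densG q G S.F) (fun w => χ b w * f b w) := fun b => by
    rw [← Im_const_mul]
    refine Im_congr fun w => ?_
    ring
  have e2 : ∀ b, lcA (lf (row b)) (psiG q G S.F) (χ b) (fun w => cf⁻¹ * f b w) =
      cf⁻¹ * lcA (lf (row b)) (psiG q G S.F) (χ b) (f b) := fun b => lcA_const_mul _
  have key := f2_lc_young hβ hq hG hr hl hs1 h (f := fun b w => cf⁻¹ * f b w)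
    (fun b => (hf b).const_mul _) (fun b w => by
      rw [abs_mul, abs_of_pos (inv_pos.2 hcf), inv_mul_le_iff₀ hcf]
      exact hfX b w) hy hK0 hMg0 hε hK hMg
  simp only [e1, e2, ← mul_sub, abs_mul, abs_of_pos (inv_pos.2 hcf)] at key
  rw [← Finset.mul_sum, inv_mul_le_iff₀ hcf] at key
  have h1 : ∑ b, Im (densG q G S.F) (fun w => χ b w * L b w) ≤
      ∑ b, lcA (lf (row b)) (psiG q G S.F) (χ b) (f b) :=
    Finset.sum_le_sum fun b _ => lcA_ge hq hG hr (h b).eχ (h b).iχ (h b).χ0 (hf b) (hL b) (hle b)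
  have h2 : ∑ b, lcA (lf (row b)) (psiG q G S.F) (χ b) (f b) -
      ∑ b, Im (densG q G S.F) (fun w => χ b w * f b w) ≤
      ∑ b, |Im (densG q G S.F) (fun w => χ b w * f b w) -
        lcA (lf (row b)) (psiG q G S.F) (χ b) (f b)| := by
    rw [← Finset.sum_sub_distrib]
    refine Finset.sum_le_sum fun b _ => ?_
    rw [abs_sub_comm]
    exact le_abs_self _
  unfold lcE
  linarith

/-- the dominating number through the bulk -/
theorem xr_bulk (hq : q.OkS) (hG : G.Ok) (hr : GRow k q G)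
    {χ : Fin n → (K4 (Pair n) → ℝ) → ℝ} {M1 M2 : Fin n → MF n}
    (h : ∀ b, Fzn b (χ b) (M1 b) (M2 b))
    {X : Fin n → (K4 (Pair n) → ℝ) → ℝ} (hX : ∀ b, EG (X b))
    (hle : ∀ b w, Av (lf (row b)) (xr S β b (M1 b) (M2 b)) w ≤ X b w) :
    ∑ b, lcA (lf (row b)) (psiG q G S.F) (χ b) (xr S β b (M1 b) (M2 b)) ≤
      ∑ b, Im (densG q G S.F) (fun w => χ b w * X b w) := by
  refine Finset.sum_le_sum fun b _ => ?_
  have hlf := lf_row_SG S hq hG hr b
  rw [lcA_eq hlf (h b).eχ (h b).iχ (eg_xr (h b))]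
  have e0 : Im (densG q G S.F) (fun w => χ b w * X b w) =
      ∫ z, Real.exp (psiG q G S.F z) * (χ b z * X b z) ∂(gI (K4 (Pair n))) := rfl
  rw [e0]
  refine integral_mono (hlf.en.mul ((h b).eχ.mul (eg_Av _ (eg_xr (h b))))).integrable
    (hlf.en.mul ((h b).eχ.mul (hX b))).integrable fun w => ?_
  exact mul_le_mul_of_nonneg_left (mul_le_mul_of_nonneg_left (hle b w) ((h b).χ0 w))
    (Real.exp_pos _).le

end Vale.Agent.P146.R1S
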