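import Vale.Agent.P146.H706G.F2HL

/-!
P146, plan R2, row (F2), one-site form, [F2-HL]: the sum over the rows: `hL` of 561's `f2_glue`.
-/

set_option linter.all false

open MeasureTheory ProbabilityTheory Finset Matrix

namespace Vale.Agent.P146.R1S

open Vale.Agent.P157.Lv Vale.Agent.P146.H425 Vale.Agent.P146.H325 Vale.Agent.P146.H332
  Vale.Agent.P146.H712 Vale.Agent.P146.R1 Vale.Agent.P146.R1C Vale.Agent.P146.H706
  Vale.Agent.P146.H191 Vale.Agent.P146.H633 Vale.Agent.P146.H522 Vale.Agent.P146.Cum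
open Vale.Agent.P146.H364 (Cb Pb Cb_T Cb_self Cb_col eg_Cb ind_Cb Cb_comm)
open Vale.Agent.P146.H45 (linb eg_linb f2lin f2lin_ge')
open Vale.Agent.P146.H785.F2N (nlf)
open Vale.Agent.P146.H561 (aa gk)

variable {n : ℕ} {k β : ℝ} {q : Par} {G : GD (Pair n)} {S : CS n k q.x}

lemma abs_Cb (s : ℝ) (a : Fin 4 → ℝ) (b : Fin n) (w : K4 (Pair n) → ℝ) (i j : Fin n) :
    |Cb S s a b w i j| ≤ 1 := by
  unfold Cb
  split_ifs
  · simp
  · have e : EG fun w : K4 (Pair n) → ℝ => S.A s (H712.lp a w) i j := eg_lp a (S.eg_A s i j)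
    have c1 : ∀ c : ℝ, Av (lf (row b)) (fun _ : K4 (Pair n) → ℝ => c) w = c := fun c => by
      unfold Av
      simp
    rw [abs_le]
    constructor
    · rw [← c1 (-1)]
      exact Av_mono (EG.const _) e (fun z => (abs_le.1 (S.abs_A s _ i j)).1) w
    · refine le_trans (Av_mono e (EG.const 1) (fun z => (abs_le.1 (S.abs_A s _ i j)).2) w) ?_
      rw [c1]

lemma fq_Cb (s : ℝ) (a : Fin 4 → ℝ) (b : Fin n) (w : K4 (Pair n) → ℝ) :
    fq (Cb S s a b) w ≤ (n : ℝ) ^ 2 := by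
  unfold fq
  have h1 : ∀ i l, Cb S s a b w i l ^ 2 ≤ 1 := fun i l => by
    rw [← sq_abs]
    exact pow_le_one₀ (abs_nonneg _) (abs_Cb s a b w i l)
  refine (Finset.sum_le_sum fun i _ => Finset.sum_le_sum fun l _ => h1 i l).trans
    (le_of_eq ?_)
  simp
  ring

lemma fq_fr (M : MF n) (w : K4 (Pair n) → ℝ) : fq M w = fr (Matrix.of (M w)) := rfl

/-- the trivial bound of `zz` -/
noncomputable def zK (n : ℕ) (k β : ℝ) : ℝ := 2 * (k ^ 2 + (k / β) ^ 2) * (n : ℝ) ^ 2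

lemma zz_Cb_le (b : Fin n) (w : K4 (Pair n) → ℝ) :
    zz S β (Cb S q.s1 (k2 q) b) (Cb S q.s2 (k3 q) b) w ≤ zK n k β := by
  unfold zz zK
  have h1 := S.fr_A_le q.s1 (P2 q w)
  have h2 := S.fr_A_le q.s2 (P3 q w)
  have h3 := fq_Cb (S := S) q.s1 (k2 q) b w
  have h4 := fq_Cb (S := S) q.s2 (k3 q) b w
  have h5 := mul_le_mul_of_nonneg_left (add_le_add h1 h2) (sq_nonneg k)
  have h6 := mul_le_mul_of_nonneg_left (add_le_add h3 h4) (sq_nonneg (k / β))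
  linarith

lemma fzn_Cb {χ : (K4 (Pair n) → ℝ) → ℝ} {b : Fin n} (e : EG χ) (i : Ind (lf (row b)) χ)
    (h : ∀ w, 0 ≤ χ w) : Fzn b χ (Cb S q.s1 (k2 q) b) (Cb S q.s2 (k3 q) b) where
  eχ := e
  iχ := i
  χ0 := h
  e1 i l := eg_Cb i l
  e2 i l := eg_Cb i l
  i1 i l := ind_Cb i l
  i2 i l := ind_Cb i l

lemma nlf_g3r (r : ℝ) (b : Fin n) (χ : (K4 (Pair n) → ℝ) → ℝ) (M1 M2 : MF n)
    (w : K4 (Pair n) → ℝ) :
    nlf S q.s1 q.s2 β r (k2 q) (k3 q) b χ M1 M2 w = χ w * g3r S β r b M1 M2 w := rfl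

/-- the law change error of the left side, letters `Cb` -/
noncomputable def lcb (S : CS n k q.x) (G : GD (Pair n)) (β y Mg ε : ℝ)
    (χ : Fin n → (K4 (Pair n) → ℝ) → ℝ) : ℝ :=
  lcE S G β y (zK n k β) Mg ε χ (fun b => Cb S q.s1 (k2 q) b) (fun b => Cb S q.s2 (k3 q) b)

/-- **[F2-HL], first half: the sum over the rows, in the frozen letters** -/
theorem hL_sum (hβ : 0 < β) (hq : q.OkS) (hG : G.Ok) (hr : GRow k q G)
    (hl : 288 * q.x ^ 2 * k ^ 2 * n ≤ 1) (hs1 : 0 < q.s1) (hn : 2 ≤ n) {Γ η : ℝ}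
    (hF1 : Fn k SkS (uu q.x q.s1 S.F) (S.mu q.s1) Γ)
    (hF2 : Fn k SkS (uu q.x q.s2 S.F) (S.mu q.s2) Γ) (hη : 0 < η)
    {χ : Fin n → (K4 (Pair n) → ℝ) → ℝ} (eχ : ∀ b, EG (χ b))
    (iχ : ∀ b, Ind (lf (row b)) (χ b)) (χ0 : ∀ b w, 0 ≤ χ b w)
    {y Mg ε : ℝ} (hy : 0 ≤ y) (hMg0 : 0 ≤ Mg) (hε : 0 < ε)
    (hMg : ∑ b, (lcA (lf (row b)) (psiG q G S.F) (χ b) (fun w => gr1 q G (row b) w ^ 2) +
      lcA (lf (row b)) (psiG q G S.F) (χ b) (fun w => gr0 q G (row b) w ^ 2)) ≤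
        8 * q.x ^ 4 * k ^ 4 * Mg) :
    ∑ b, Im (densG q G S.F) (fun w => χ b w * mnb S q b w) ≤
      ∑ b, Im (densG q G S.F) (nlf S q.s1 q.s2 β (q.s1 / q.s2) (k2 q) (k3 q) b (χ b)
        (Cb S q.s1 (k2 q) b) (Cb S q.s2 (k3 q) b)) +
      (lcb S G β y Mg ε χ + ∑ b, Im (densG q G S.F) (fun w => χ b w * lnb S q β b w) +
        ∑ b, Im (densG q G S.F) (fun w => χ b w * errb S q Γ η b w)) := by
  have hs2 : 0 < q.s2 := hs1.trans_le hq.h12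
  have eD : EG (densG q G S.F) := eg_densG S.c11 hq.x0 hG
  have r0 : 0 ≤ q.s1 / q.s2 := div_nonneg hs1.le hs2.le
  have r1 : q.s1 / q.s2 ≤ 1 := (div_le_one hs2).2 hq.h12
  have hz : ∀ b, Fzn b (χ b) (Cb S q.s1 (k2 q) b) (Cb S q.s2 (k3 q) b) := fun b =>
    fzn_Cb (eχ b) (iχ b) (χ0 b)
  have hK0 : 0 ≤ zK n k β := by unfold zK; positivity
  have em : ∀ b, EG (mnb S q b) := fun b => eg_mnb S hs1 hn b
  have el : ∀ b, EG (lnb S q β b) := fun b => eg_lnb S hs1 hs2 β b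
  have ee : ∀ b, EG (errb S q Γ η b) := fun b => eg_errb S hs1 hs2 hn Γ η b
  have key := f2_low hβ hq hG hr hl hs1 hz (f := fun b => g3r S β (q.s1 / q.s2) b
      (Cb S q.s1 (k2 q) b) (Cb S q.s2 (k3 q) b)) (fun b => eg_g3r _ (hz b)) (cf := 1) one_pos
    (fun b w => by
      rw [one_mul]
      exact abs_g3_le r0 r1 _ _ _ _)
    (L := fun b w => mnb S q b w - lnb S q β b w - errb S q Γ η b w)
    (fun b => ((em b).sub (el b)).sub (ee b))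
    (fun b w => bulk_Cb S hq hs1 hβ.ne' hn hF1 hF2 hη b w) (y := y) (K := zK n k β) (Mg := Mg)
    (ε := ε) hy hK0 hMg0 hε (fun b w => zz_Cb_le b w) hMg
  have e1 : ∀ b, Im (densG q G S.F) (fun w => χ b w * (mnb S q b w - lnb S q β b w -
      errb S q Γ η b w)) = Im (densG q G S.F) (fun w => χ b w * mnb S q b w) -
      Im (densG q G S.F) (fun w => χ b w * lnb S q β b w) -
      Im (densG q G S.F) (fun w => χ b w * errb S q Γ η b w) := by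
    intro b
    rw [← Im_sub eD ((eχ b).mul (em b)) ((eχ b).mul (el b)),
      ← Im_sub eD (((eχ b).mul (em b)).sub ((eχ b).mul (el b))) ((eχ b).mul (ee b))]
    refine Im_congr fun w => ?_
    ring
  have e2 : ∀ b, Im (densG q G S.F) (nlf S q.s1 q.s2 β (q.s1 / q.s2) (k2 q) (k3 q) b (χ b)
        (Cb S q.s1 (k2 q) b) (Cb S q.s2 (k3 q) b)) = Im (densG q G S.F) (fun w => χ b w *
      g3r S β (q.s1 / q.s2) b (Cb S q.s1 (k2 q) b) (Cb S q.s2 (k3 q) b) w) := fun b => rfl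
  simp only [e1, Finset.sum_sub_distrib, one_mul] at key
  simp only [e2]
  unfold lcb
  linarith

/-- **[F2-HL]: the hypothesis `hL` of `f2_glue`**, with one free touch number -/
theorem hL0 (hβ : 0 < β) (hq : q.OkS) (hG : G.Ok) (hr : GRow k q G)
    (hl : 288 * q.x ^ 2 * k ^ 2 * n ≤ 1) (hs1 : 0 < q.s1) (hn : 2 ≤ n) {Γ η : ℝ}
    (hF1 : Fn k SkS (uu q.x q.s1 S.F) (S.mu q.s1) Γ)
    (hF2 : Fn k SkS (uu q.x q.s2 S.F) (S.mu q.s2) Γ) (hη : 0 < η)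
    {χ : Fin n → (K4 (Pair n) → ℝ) → ℝ} (eχ : ∀ b, EG (χ b))
    (iχ : ∀ b, Ind (lf (row b)) (χ b)) (χ0 : ∀ b w, 0 ≤ χ b w)
    {y Mg ε : ℝ} (hy : 0 ≤ y) (hMg0 : 0 ≤ Mg) (hε : 0 < ε)
    (hMg : ∑ b, (lcA (lf (row b)) (psiG q G S.F) (χ b) (fun w => gr1 q G (row b) w ^ 2) +
      lcA (lf (row b)) (psiG q G S.F) (χ b) (fun w => gr0 q G (row b) w ^ 2)) ≤
        8 * q.x ^ 4 * k ^ 4 * Mg)
    {A C : (K4 (Pair n) → ℝ) → Matrix (Fin n) (Fin n) ℝ} (fA : ∀ w, 0 < fr (A w))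
    {w1 N : (K4 (Pair n) → ℝ) → ℝ} {κ eT : ℝ}
    (hN : ∀ w, N w = (∑ b, H45.Na k (S.A q.s1) (S.H q.s1) q.s1 b (P2 q w)) / fr (A w))
    (hT : Im (densG q G S.F) (fun w => ∑ b, w1 w * gk κ (A w) (C w) * (fr (C w) *
        (aa (A w) (C w) * (1 - aa (A w) (C w) ^ 2)) *
          H45.Na k (S.A q.s1) (S.H q.s1) q.s1 b (P2 q w))) ≤
      ∑ b, Im (densG q G S.F) (fun w => χ b w * mnb S q b w) + eT) :
    Im (densG q G S.F) (fun w => w1 w * (nf (A w) ^ 2 * nf (C w) ^ 2) *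
        (aa (A w) (C w) * (gk κ (A w) (C w) * (1 - aa (A w) (C w) ^ 2) * N w))) ≤
      ∑ b, Im (densG q G S.F) (nlf S q.s1 q.s2 β (q.s1 / q.s2) (k2 q) (k3 q) b (χ b)
        (Cb S q.s1 (k2 q) b) (Cb S q.s2 (k3 q) b)) +
      (eT + (lcb S G β y Mg ε χ + ∑ b, Im (densG q G S.F) (fun w => χ b w * lnb S q β b w) +
        ∑ b, Im (densG q G S.F) (fun w => χ b w * errb S q Γ η b w))) := by
  have key := hL_sum hβ hq hG hr hl hs1 hn hF1 hF2 hη eχ iχ χ0 hy hMg0 hε hMg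
  have e1 : ∀ w, w1 w * (nf (A w) ^ 2 * nf (C w) ^ 2) *
        (aa (A w) (C w) * (gk κ (A w) (C w) * (1 - aa (A w) (C w) ^ 2) * N w)) =
      ∑ b, w1 w * gk κ (A w) (C w) * (fr (C w) *
        (aa (A w) (C w) * (1 - aa (A w) (C w) ^ 2)) *
          H45.Na k (S.A q.s1) (S.H q.s1) q.s1 b (P2 q w)) := by
    intro w
    have n1 : nf (A w) ^ 2 = fr (A w) := Real.sq_sqrt (fA w).le
    have n2 : nf (C w) ^ 2 = fr (C w) := Real.sq_sqrt (H325.fr_nonneg _)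
    have hne : fr (A w) ≠ 0 := (fA w).ne'
    rw [← Finset.mul_sum, ← Finset.mul_sum, hN w, n1, n2]
    field_simp
  rw [Im_congr e1]
  linarith

end Vale.Agent.P146.R1S
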