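import Vale.Agent.P146.H706G.LawNS
import Vale.Agent.P146.H350.F2Mat
import Vale.Agent.P146.H797.H326_PrI

/-!
P146, plan R2, row (F2), one-site form: the numbers of the law change of the left side of (F2*),
summed over the rows.
-/

set_option linter.all false

open MeasureTheory ProbabilityTheory Finset

namespace Vale.Agent.P146.R1S

open Vale.Agent.P157.Lv Vale.Agent.P146.H425 Vale.Agent.P146.H325 Vale.Agent.P146.H332
  Vale.Agent.P146.H712 Vale.Agent.P146.R1 Vale.Agent.P146.R1C Vale.Agent.P146.H706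
  Vale.Agent.P146.H191 Vale.Agent.P146.H350

section pt

variable {n : ℕ}

lemma dt_mv_le (M : Fin n → Fin n → ℝ) (f : Fin n → ℝ) :
    dt (mv M f) (mv M f) ≤ (∑ i, ∑ l, M i l ^ 2) * ∑ i, f i ^ 2 := by
  unfold dt mv
  rw [Finset.sum_mul]
  refine Finset.sum_le_sum fun i _ => ?_
  rw [← pow_two]
  exact Finset.sum_mul_sq_le_sq_mul_sq _ _ _

lemma dt_self_nonneg (f : Fin n → ℝ) : 0 ≤ dt f f :=
  Finset.sum_nonneg fun i _ => mul_self_nonneg _

lemma dt_sq_le (f g : Fin n → ℝ) : dt f g ^ 2 ≤ dt f f * dt g g := by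
  unfold dt
  have h := Finset.sum_mul_sq_le_sq_mul_sq Finset.univ f g
  simp only [pow_two] at h ⊢
  exact h

/-- the quartic functional of (F2*) without the drift terms -/
noncomputable def g2 (M1 M2 : Fin n → Fin n → ℝ) (N1 N2 : Fin n → ℝ) : ℝ :=
  dt (mv M2 N1) (mv M2 N1) + dt (mv M1 N2) (mv M1 N2) - 2 * dt (mv M1 N1) (mv M2 N2)

/-- its bound -/
noncomputable def x2 (M1 M2 : Fin n → Fin n → ℝ) (N1 N2 : Fin n → ℝ) : ℝ :=
  2 * ((∑ i, ∑ l, M2 i l ^ 2) * (∑ i, N1 i ^ 2) + (∑ i, ∑ l, M1 i l ^ 2) * ∑ i, N2 i ^ 2)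

lemma x2_nonneg (M1 M2 : Fin n → Fin n → ℝ) (N1 N2 : Fin n → ℝ) : 0 ≤ x2 M1 M2 N1 N2 := by
  unfold x2
  have h1 : 0 ≤ ∑ i, ∑ l, M2 i l ^ 2 :=
    Finset.sum_nonneg fun _ _ => Finset.sum_nonneg fun _ _ => sq_nonneg _
  have h2 : 0 ≤ ∑ i, ∑ l, M1 i l ^ 2 :=
    Finset.sum_nonneg fun _ _ => Finset.sum_nonneg fun _ _ => sq_nonneg _
  have h3 : 0 ≤ ∑ i, N1 i ^ 2 := Finset.sum_nonneg fun _ _ => sq_nonneg _
  have h4 : 0 ≤ ∑ i, N2 i ^ 2 := Finset.sum_nonneg fun _ _ => sq_nonneg _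
  positivity

lemma abs_g2_le (M1 M2 : Fin n → Fin n → ℝ) (N1 N2 : Fin n → ℝ) :
    |g2 M1 M2 N1 N2| ≤ x2 M1 M2 N1 N2 := by
  have a1 := dt_mv_le M2 N1
  have a2 := dt_mv_le M1 N2
  have b1 := dt_mv_le M1 N1
  have b2 := dt_mv_le M2 N2
  have c1 := dt_self_nonneg (mv M2 N1)
  have c2 := dt_self_nonneg (mv M1 N2)
  have c3 := dt_self_nonneg (mv M1 N1)
  have c4 := dt_self_nonneg (mv M2 N2)
  have hc := dt_sq_le (mv M1 N1) (mv M2 N2)
  set m1 := ∑ i, ∑ l, M1 i l ^ 2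
  set m2 := ∑ i, ∑ l, M2 i l ^ 2
  set n1 := ∑ i, N1 i ^ 2
  set n2 := ∑ i, N2 i ^ 2
  have h1 : 0 ≤ m1 := Finset.sum_nonneg fun _ _ => Finset.sum_nonneg fun _ _ => sq_nonneg _
  have h2 : 0 ≤ m2 := Finset.sum_nonneg fun _ _ => Finset.sum_nonneg fun _ _ => sq_nonneg _
  have h3 : 0 ≤ n1 := Finset.sum_nonneg fun _ _ => sq_nonneg _
  have h4 : 0 ≤ n2 := Finset.sum_nonneg fun _ _ => sq_nonneg _
  have h5 : dt (mv M1 N1) (mv M2 N2) ^ 2 ≤ (m1 * n1) * (m2 * n2) :=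
    hc.trans (mul_le_mul b1 b2 c4 (by positivity))
  have h6 : |2 * dt (mv M1 N1) (mv M2 N2)| ≤ m2 * n1 + m1 * n2 := by
    refine abs_le_of_sq_le_sq ?_ (by positivity)
    nlinarith [sq_nonneg (m2 * n1 - m1 * n2)]
  unfold g2 x2
  obtain ⟨h7, h8⟩ := abs_le.1 h6
  rw [abs_le]
  have h9 : (0 : ℝ) ≤ m2 * n1 := by positivity
  have h10 : (0 : ℝ) ≤ m1 * n2 := by positivity
  constructor <;> linarith

lemma x2_cube (M1 M2 : Fin n → Fin n → ℝ) (N1 N2 : Fin n → ℝ) :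
    x2 M1 M2 N1 N2 ^ 3 ≤ 32 * ((∑ i, ∑ l, M2 i l ^ 2) ^ 3 * (∑ i, N1 i ^ 2) ^ 3 +
      (∑ i, ∑ l, M1 i l ^ 2) ^ 3 * (∑ i, N2 i ^ 2) ^ 3) := by
  unfold x2
  set m1 := ∑ i, ∑ l, M1 i l ^ 2
  set m2 := ∑ i, ∑ l, M2 i l ^ 2
  set n1 := ∑ i, N1 i ^ 2
  set n2 := ∑ i, N2 i ^ 2
  have h1 : 0 ≤ m1 := Finset.sum_nonneg fun _ _ => Finset.sum_nonneg fun _ _ => sq_nonneg _
  have h2 : 0 ≤ m2 := Finset.sum_nonneg fun _ _ => Finset.sum_nonneg fun _ _ => sq_nonneg _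
  have h3 : 0 ≤ n1 := Finset.sum_nonneg fun _ _ => sq_nonneg _
  have h4 : 0 ≤ n2 := Finset.sum_nonneg fun _ _ => sq_nonneg _
  have h5 : 0 ≤ m2 * n1 := by positivity
  have h6 : 0 ≤ m1 * n2 := by positivity
  have e1 : m2 ^ 3 * n1 ^ 3 = (m2 * n1) ^ 3 := by ring
  have e2 : m1 ^ 3 * n2 ^ 3 = (m1 * n2) ^ 3 := by ring
  rw [e1, e2]
  set u := m2 * n1
  set v := m1 * n2
  have : 0 ≤ (u + v) * (u - v) ^ 2 := by positivity
  nlinarith

end pt

variable {n : ℕ} {k β : ℝ} {q : Par} {G : GD (Pair n)} {S : CS n k q.x} {b : Fin n}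
  {χ : (K4 (Pair n) → ℝ) → ℝ} {M1 M2 : MF n}

/-- the law change data of one row -/
lemma lf_row_SG (S : CS n k q.x) (hq : q.OkS) (hG : G.Ok) (hr : GRow k q G) (b : Fin n) :
    LF (lf (row b)) (psiG q G S.F) (psiG' q G S.F S.D) (√(18 * q.x ^ 2 * k ^ 2 * n)) := by
  have := lf_psi_SG S hq hG hr b b
  rwa [Finset.union_self] at this

lemma hl_row (hl : 288 * q.x ^ 2 * k ^ 2 * n ≤ 1) :
    16 * (√(18 * q.x ^ 2 * k ^ 2 * (n : ℝ))) ^ 2 ≤ 1 := by
  rw [Real.sq_sqrt (by positivity)]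
  linarith

/-- the frozen data of a row: a weight and two matrices -/
structure Fzn (b : Fin n) (χ : (K4 (Pair n) → ℝ) → ℝ) (M1 M2 : MF n) : Prop where
  eχ : EG χ
  iχ : Ind (lf (row b)) χ
  χ0 : ∀ w, 0 ≤ χ w
  e1 : ∀ i l, EG fun w => M1 w i l
  e2 : ∀ i l, EG fun w => M2 w i l
  i1 : Ifz b M1
  i2 : Ifz b M2

/-- `k² |C_1|² + k² |C_2|² + (k/β)² |M_1|² + (k/β)² |M_2|²` -/
noncomputable def zz (S : CS n k q.x) (β : ℝ) (M1 M2 : MF n) (w : K4 (Pair n) → ℝ) : ℝ :=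
  k ^ 2 * (fr (S.A q.s1 (P2 q w)) + fr (S.A q.s2 (P3 q w))) +
    (k / β) ^ 2 * (fq M1 w + fq M2 w)

/-- the dominating function of the row `b` -/
noncomputable def xr (S : CS n k q.x) (β : ℝ) (b : Fin n) (M1 M2 : MF n)
    (w : K4 (Pair n) → ℝ) : ℝ :=
  x2 (M1 w) (M2 w) (Nv S q.s1 (k2 q) β b M1 w) (Nv S q.s2 (k3 q) β b M2 w)

lemma eg_sq_Nv (S : CS n k q.x) {s : ℝ} {a : Fin 4 → ℝ} {M : MF n}
    (hM : ∀ i l, EG fun w => M w i l) :
    EG fun w => ∑ i, Nv S s a β b M w i ^ 2 := by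
  refine EG.sum _ fun i _ => EG.pow ?_ 2
  exact eg_Nr (S := S) (fun i l => by simpa [div_eq_mul_inv, mul_comm] using (hM i l).const_mul β⁻¹) i

lemma eg_xr (h : Fzn b χ M1 M2) : EG (xr S β b M1 M2) := by
  unfold xr x2
  exact (((eg_fq h.e2).mul (eg_sq_Nv S h.e1)).add
    ((eg_fq h.e1).mul (eg_sq_Nv S h.e2))).const_mul 2

lemma zz_nonneg (S : CS n k q.x) (β : ℝ) (M1 M2 : MF n) (w : K4 (Pair n) → ℝ) :
    0 ≤ zz S β M1 M2 w := by
  unfold zz
  have h1 := H325.fr_nonneg (S.A q.s1 (P2 q w))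
  have h2 := H325.fr_nonneg (S.A q.s2 (P3 q w))
  have h3 := fq_nonneg M1 w
  have h4 := fq_nonneg M2 w
  positivity

lemma eg_zz (h : Fzn b χ M1 M2) : EG (zz S β M1 M2) := by
  unfold zz fr
  have e1 : EG fun w : K4 (Pair n) → ℝ => ∑ i, ∑ j, S.A q.s1 (P2 q w) i j ^ 2 :=
    EG.sum _ fun i _ => EG.sum _ fun j _ => (eg_P2 (S.eg_A q.s1 i j)).pow 2
  have e2 : EG fun w : K4 (Pair n) → ℝ => ∑ i, ∑ j, S.A q.s2 (P3 q w) i j ^ 2 :=
    EG.sum _ fun i _ => EG.sum _ fun j _ => (eg_P3 (S.eg_A q.s2 i j)).pow 2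
  exact ((e1.add e2).const_mul _).add (((eg_fq h.e1).add (eg_fq h.e2)).const_mul _)

lemma lcA_int {Ψ : (K4 (Pair n) → ℝ) → ℝ} {R : Finset (K4 (Pair n))}
    (f : (K4 (Pair n) → ℝ) → ℝ) :
    lcA R Ψ χ f = ∫ w, (Av R (fun z => Real.exp (Ψ z)) w * χ w) * f w ∂(gI (K4 (Pair n))) := by
  unfold lcA
  refine integral_congr_ae (ae_of_all _ fun w => ?_)
  simp only
  ring

lemma fq_div (M : MF n) (β : ℝ) (w : K4 (Pair n) → ℝ) :
    fq (fun w i l => M w i l / β) w = (1 / β) ^ 2 * fq M w := by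
  unfold fq
  simp only [Finset.mul_sum]
  refine Finset.sum_congr rfl fun i _ => Finset.sum_congr rfl fun l _ => ?_
  ring

/-- **the third moments of the dominating function** -/
theorem xr_cube (hβ : 0 < β) (hk : 0 < k) (hq : q.OkS) (hG : G.Ok) (hr : GRow k q G)
    (hs1 : 0 < q.s1) (h : Fzn b χ M1 M2) :
    lcA (lf (row b)) (psiG q G S.F) χ (fun w => xr S β b M1 M2 w ^ 3) ≤
      625664 * ((β / k) ^ 2) ^ 3 *
        lcA (lf (row b)) (psiG q G S.F) χ (fun w => zz S β M1 M2 w ^ 6) := by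
  have hlf := lf_row_SG S hq hG hr b
  have hs2 : 0 < q.s2 := hs1.trans_le hq.h12
  have hs1' : q.s1 ≤ 1 := hq.h12.trans hq.h2
  have hL : ∀ {M : MF n}, (∀ i l, EG fun w => M w i l) →
      ∀ i l, EG fun w => M w i l / β := fun hM i l => by
    simpa [div_eq_mul_inv, mul_comm] using (hM i l).const_mul β⁻¹
  have hI : ∀ {M : MF n}, Ifz b M → Ifz b (fun w i l => M w i l / β) := fun hM i l z w => by
    have h1 := hM i l z w
    simp only at h1 ⊢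
    rw [h1]
  have eφ : EG fun w => Av (lf (row b)) (fun z => Real.exp (psiG q G S.F z)) w * χ w :=
    (eg_Av _ hlf.en).mul h.eχ
  have nφ : ∀ w, 0 ≤ Av (lf (row b)) (fun z => Real.exp (psiG q G S.F z)) w * χ w := fun w =>
    mul_nonneg (hlf.av_pos w).le (h.χ0 w)
  have iφ : Ind (lf (row b))
      fun w => Av (lf (row b)) (fun z => Real.exp (psiG q G S.F z)) w * χ w := fun z w => by
    simp only
    rw [ind_Av _ _ z w, h.iχ z w]
  have iF : ∀ {M : MF n}, Ifz b M → Ind (lf (row b)) (fun w => fq M w ^ 3) := fun hM z w => by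
    simp only [fq]
    congr 1
    refine Finset.sum_congr rfl fun i _ => Finset.sum_congr rfl fun l _ => ?_
    have h1 := hM i l z w
    simp only at h1
    rw [h1]
  -- one product
  have one : ∀ {M M' : MF n} {s : ℝ} {a : Fin 4 → ℝ}, (∀ i l, EG fun w => M w i l) → Ifz b M →
      (∀ i l, EG fun w => M' w i l) → Ifz b M' → 0 < s → s ≤ 1 →
      a 0 ^ 2 + a 1 ^ 2 + a 2 ^ 2 + a 3 ^ 2 = s →
      (∀ w, k ^ 2 * fr (S.A s (H712.lp a w)) + (k / β) ^ 2 * fq M' w ≤ zz S β M1 M2 w) →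
      (∀ w, (k / β) ^ 2 * fq M w ≤ zz S β M1 M2 w) →
      lcA (lf (row b)) (psiG q G S.F) χ (fun w => fq M w ^ 3 *
        (∑ i, Nv S s a β b M' w i ^ 2) ^ 3) ≤ 9776 * ((β / k) ^ 2) ^ 3 *
        lcA (lf (row b)) (psiG q G S.F) χ (fun w => zz S β M1 M2 w ^ 6) := by
    intro M M' s a hM iM hM' iM' h0 h1 hcs hz hz'
    have e1 : EG fun w => (Av (lf (row b)) (fun z => Real.exp (psiG q G S.F z)) w * χ w) *
        fq M w ^ 3 := eφ.mul ((eg_fq hM).pow 3)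
    have key := nr_mom3 (S := S) (b := b) (L := fun w i l => M' w i l / β) hcs h0 (hL hM')
      (hI iM') e1 (fun w => mul_nonneg (nφ w) (pow_nonneg (fq_nonneg M w) 3))
      (fun z w => by
        have g1 := iφ z w
        have g2 := iF iM z w
        simp only at g1 g2 ⊢
        rw [g1, g2])
    have l1 : lcA (lf (row b)) (psiG q G S.F) χ (fun w => fq M w ^ 3 *
        (∑ i, Nv S s a β b M' w i ^ 2) ^ 3) =
        ∫ w, ((Av (lf (row b)) (fun z => Real.exp (psiG q G S.F z)) w * χ w) * fq M w ^ 3) *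
          (∑ i, Nr a k b (fun w i l => M' w i l / β) (Uz S s b) i w ^ 2) ^ 3
            ∂(gI (K4 (Pair n))) := by
      rw [lcA_int]
      refine integral_congr_ae (ae_of_all _ fun w => ?_)
      simp only [Nv]
      ring
    rw [l1]
    refine key.trans ?_
    have l2 : ∫ w, ((Av (lf (row b)) (fun z => Real.exp (psiG q G S.F z)) w * χ w) *
        fq M w ^ 3) * (2 * (s * (k ^ 2 * (fr (S.A s (H712.lp a w)) +
          fq (fun w i l => M' w i l / β) w)))) ^ 3 ∂(gI (K4 (Pair n))) ≤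
        ∫ w, (Av (lf (row b)) (fun z => Real.exp (psiG q G S.F z)) w * χ w) *
          (8 * ((β / k) ^ 2) ^ 3 * zz S β M1 M2 w ^ 6) ∂(gI (K4 (Pair n))) := by
      refine integral_mono (e1.mul ((eg_YL (S := S) (a := a) (s := s) (k := k) (hL hM')).pow 3)).integrable
        (eφ.mul (((eg_zz h).pow 6).const_mul _)).integrable fun w => ?_
      simp only
      rw [mul_assoc]
      refine mul_le_mul_of_nonneg_left ?_ (nφ w)
      have z0 := zz_nonneg S β M1 M2 w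
      have f0 := fq_nonneg M w
      have f1 := H325.fr_nonneg (S.A s (H712.lp a w))
      have f2 := fq_nonneg M' w
      have g1 : 2 * (s * (k ^ 2 * (fr (S.A s (H712.lp a w)) +
          fq (fun w i l => M' w i l / β) w))) ≤ 2 * zz S β M1 M2 w := by
        rw [fq_div]
        have h2 : k ^ 2 * (fr (S.A s (H712.lp a w)) + (1 / β) ^ 2 * fq M' w) ≤
            zz S β M1 M2 w := by
          refine le_trans (le_of_eq ?_) (hz w)
          ring
        have h3 : 0 ≤ k ^ 2 * (fr (S.A s (H712.lp a w)) + (1 / β) ^ 2 * fq M' w) := by positivity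
        nlinarith
      have g0 : 0 ≤ 2 * (s * (k ^ 2 * (fr (S.A s (H712.lp a w)) +
          fq (fun w i l => M' w i l / β) w))) := by
        have := fq_nonneg (fun w i l => M' w i l / β) w
        positivity
      have g2 : fq M w ≤ (β / k) ^ 2 * zz S β M1 M2 w := by
        have h2 := mul_le_mul_of_nonneg_left (hz' w) (by positivity : 0 ≤ (β / k) ^ 2)
        refine le_trans (le_of_eq ?_) h2
        field_simp
      calc fq M w ^ 3 * (2 * (s * (k ^ 2 * (fr (S.A s (H712.lp a w)) +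
          fq (fun w i l => M' w i l / β) w)))) ^ 3
          ≤ ((β / k) ^ 2 * zz S β M1 M2 w) ^ 3 * (2 * zz S β M1 M2 w) ^ 3 :=
            mul_le_mul (pow_le_pow_left₀ f0 g2 3) (pow_le_pow_left₀ g0 g1 3) (by positivity)
              (by positivity)
        _ = 8 * ((β / k) ^ 2) ^ 3 * zz S β M1 M2 w ^ 6 := by ring
    have l3 : ∫ w, (Av (lf (row b)) (fun z => Real.exp (psiG q G S.F z)) w * χ w) *
          (8 * ((β / k) ^ 2) ^ 3 * zz S β M1 M2 w ^ 6) ∂(gI (K4 (Pair n))) =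
        8 * ((β / k) ^ 2) ^ 3 *
          lcA (lf (row b)) (psiG q G S.F) χ (fun w => zz S β M1 M2 w ^ 6) := by
      rw [← lcA_const_mul, lcA_int]
    rw [l3] at l2
    have l4 : 0 ≤ ((β / k) ^ 2) ^ 3 *
        lcA (lf (row b)) (psiG q G S.F) χ (fun w => zz S β M1 M2 w ^ 6) := by
      have := lcA_nonneg (f := fun w => zz S β M1 M2 w ^ 6) hlf h.χ0
        fun w => pow_nonneg (zz_nonneg S β M1 M2 w) 6
      positivity
    linarith
  have z1 : ∀ w, k ^ 2 * fr (S.A q.s1 (H712.lp (k2 q) w)) + (k / β) ^ 2 * fq M1 w ≤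
      zz S β M1 M2 w := fun w => by
    unfold zz
    rw [show P2 q w = H712.lp (k2 q) w from P2_lp w]
    have h2 := H325.fr_nonneg (S.A q.s2 (P3 q w))
    have h4 := fq_nonneg M2 w
    have : 0 ≤ k ^ 2 * fr (S.A q.s2 (P3 q w)) := by positivity
    have : 0 ≤ (k / β) ^ 2 * fq M2 w := by positivity
    nlinarith
  have z2 : ∀ w, k ^ 2 * fr (S.A q.s2 (H712.lp (k3 q) w)) + (k / β) ^ 2 * fq M2 w ≤
      zz S β M1 M2 w := fun w => by
    unfold zz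
    rw [show P3 q w = H712.lp (k3 q) w from P3_lp w]
    have h2 := H325.fr_nonneg (S.A q.s1 (P2 q w))
    have h4 := fq_nonneg M1 w
    have : 0 ≤ k ^ 2 * fr (S.A q.s1 (P2 q w)) := by positivity
    have : 0 ≤ (k / β) ^ 2 * fq M1 w := by positivity
    nlinarith
  have w1 : ∀ w, (k / β) ^ 2 * fq M1 w ≤ zz S β M1 M2 w := fun w => by
    have h2 := z1 w
    have : 0 ≤ k ^ 2 * fr (S.A q.s1 (H712.lp (k2 q) w)) := by
      have := H325.fr_nonneg (S.A q.s1 (H712.lp (k2 q) w))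
      positivity
    linarith
  have w2 : ∀ w, (k / β) ^ 2 * fq M2 w ≤ zz S β M1 M2 w := fun w => by
    have h2 := z2 w
    have : 0 ≤ k ^ 2 * fr (S.A q.s2 (H712.lp (k3 q) w)) := by
      have := H325.fr_nonneg (S.A q.s2 (H712.lp (k3 q) w))
      positivity
    linarith
  have o1 := one h.e2 h.i2 h.e1 h.i1 hs1 hs1' (Vale.Agent.P146.H326.k2_sum_s hq) z1 w2
  have o2 := one h.e1 h.i1 h.e2 h.i2 hs2 hq.h2 (Vale.Agent.P146.H326.k3_sum_s hq) z2 w1
  have t1 : EG fun w => fq M2 w ^ 3 * (∑ i, Nv S q.s1 (k2 q) β b M1 w i ^ 2) ^ 3 :=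
    ((eg_fq h.e2).pow 3).mul ((eg_sq_Nv S h.e1).pow 3)
  have t2 : EG fun w => fq M1 w ^ 3 * (∑ i, Nv S q.s2 (k3 q) β b M2 w i ^ 2) ^ 3 :=
    ((eg_fq h.e1).pow 3).mul ((eg_sq_Nv S h.e2).pow 3)
  have m1 : lcA (lf (row b)) (psiG q G S.F) χ (fun w => xr S β b M1 M2 w ^ 3) ≤
      lcA (lf (row b)) (psiG q G S.F) χ (fun w => 32 *
        (fq M2 w ^ 3 * (∑ i, Nv S q.s1 (k2 q) β b M1 w i ^ 2) ^ 3 +
          fq M1 w ^ 3 * (∑ i, Nv S q.s2 (k3 q) β b M2 w i ^ 2) ^ 3)) :=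
    lcA_mono hlf h.eχ h.χ0 ((eg_xr h).pow 3) ((t1.add t2).const_mul 32)
      fun w => x2_cube _ _ _ _
  rw [lcA_const_mul, lcA_add hlf h.eχ t1 t2] at m1
  linarith

end Vale.Agent.P146.R1S
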