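import Vale.Agent.P146.H706G.F2Low
import Vale.Agent.P146.H45.F2LY
import Vale.Agent.P146.H329.Nr1

/-!
P146, plan R2, row (F2), one-site form: the deterministic step at a fixed bulk, for every bulk
(no locking hypothesis): the correlation of the top vectors against the correlation of the
matrices, and the lower bound of the row average of the left side of (F2*) in the letters of the
matrices alone.
-/

set_option linter.all false

open MeasureTheory ProbabilityTheory Finset Matrix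

namespace Vale.Agent.P146.R1S

open Vale.Agent.P157.Lv Vale.Agent.P146.H425 Vale.Agent.P146.H325 Vale.Agent.P146.H332
  Vale.Agent.P146.H712 Vale.Agent.P146.R1 Vale.Agent.P146.R1C Vale.Agent.P146.H706
  Vale.Agent.P146.H191

section alg

variable {n : ℕ} {M M1 M2 : Matrix (Fin n) (Fin n) ℝ} {v v1 v2 : Fin n → ℝ} {l l1 l2 c : ℝ}

lemma cs2 (A B : Fin n → Fin n → ℝ) :
    |∑ i, ∑ j, A i j * B i j| ≤ √(∑ i, ∑ j, A i j ^ 2) * √(∑ i, ∑ j, B i j ^ 2) := by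
  have h := Finset.sum_mul_sq_le_sq_mul_sq (Finset.univ : Finset (Fin n × Fin n))
    (fun p => A p.1 p.2) (fun p => B p.1 p.2)
  rw [Fintype.sum_prod_type, Fintype.sum_prod_type, Fintype.sum_prod_type] at h
  rw [← Real.sqrt_mul (Finset.sum_nonneg fun _ _ => Finset.sum_nonneg fun _ _ => sq_nonneg _)]
  exact Real.abs_le_sqrt h

lemma sum_vv (hv : ∑ i, v i ^ 2 = 1) : ∑ i, ∑ j, (v i * v j) ^ 2 = 1 := by
  have : ∑ i, ∑ j, (v i * v j) ^ 2 = (∑ i, v i ^ 2) * ∑ j, v j ^ 2 := by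
    rw [Finset.sum_mul_sum]
    exact Finset.sum_congr rfl fun i _ => Finset.sum_congr rfl fun j _ => by ring
  rw [this, hv, one_mul]

lemma sum_vMv (hv : ∑ i, v i ^ 2 = 1) (he : M *ᵥ v = l • v) :
    ∑ i, ∑ j, M i j * (v i * v j) = l := by
  have h1 : ∀ i, ∑ j, M i j * (v i * v j) = v i * (l * v i) := by
    intro i
    have h2 := congrFun he i
    simp only [mulVec, dotProduct, Pi.smul_apply, smul_eq_mul] at h2
    rw [← h2, Finset.mul_sum]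
    exact Finset.sum_congr rfl fun j _ => by ring
  rw [Finset.sum_congr rfl fun i _ => h1 i]
  have : ∑ i, v i * (l * v i) = l * ∑ i, v i ^ 2 := by
    rw [Finset.mul_sum]
    exact Finset.sum_congr rfl fun i _ => by ring
  rw [this, hv, mul_one]

/-- the square of the rest of a matrix beside an eigenvector -/
lemma rest_sq (hv : ∑ i, v i ^ 2 = 1) (he : M *ᵥ v = l • v) :
    ∑ i, ∑ j, (M i j - l * (v i * v j)) ^ 2 = fr M - l ^ 2 := by
  have h1 := sum_vv hv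
  have h2 := sum_vMv hv he
  have h3 : ∑ i, ∑ j, (M i j - l * (v i * v j)) ^ 2 = ∑ i, ∑ j, M i j ^ 2 -
      2 * l * (∑ i, ∑ j, M i j * (v i * v j)) + l ^ 2 * ∑ i, ∑ j, (v i * v j) ^ 2 := by
    simp only [Finset.mul_sum, ← Finset.sum_sub_distrib, ← Finset.sum_add_distrib]
    exact Finset.sum_congr rfl fun i _ => Finset.sum_congr rfl fun j _ => by ring
  rw [h3, h1, h2]
  unfold fr
  ring

lemma l_sq_le (hv : ∑ i, v i ^ 2 = 1) (he : M *ᵥ v = l • v) : l ^ 2 ≤ fr M := by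
  have h := rest_sq hv he
  have : 0 ≤ ∑ i, ∑ j, (M i j - l * (v i * v j)) ^ 2 :=
    Finset.sum_nonneg fun _ _ => Finset.sum_nonneg fun _ _ => sq_nonneg _
  linarith

/-- the scalar product of two matrices against their top parts -/
lemma ip_top (u1 : ∑ i, v1 i ^ 2 = 1) (u2 : ∑ i, v2 i ^ 2 = 1) (e1 : M1 *ᵥ v1 = l1 • v1)
    (e2 : M2 *ᵥ v2 = l2 • v2) (hc : ∑ i, v1 i * v2 i = c) (h1 : 0 ≤ l1) (h2 : 0 ≤ l2) :
    |∑ i, ∑ j, M1 i j * M2 i j - l1 * l2 * c ^ 2| ≤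
      l2 * √(fr M1 - l1 ^ 2) + l1 * √(fr M2 - l2 ^ 2) + √(fr M1 - l1 ^ 2) * √(fr M2 - l2 ^ 2) := by
  set R1 : Fin n → Fin n → ℝ := fun i j => M1 i j - l1 * (v1 i * v1 j) with hR1
  set R2 : Fin n → Fin n → ℝ := fun i j => M2 i j - l2 * (v2 i * v2 j) with hR2
  have r1 : ∑ i, ∑ j, R1 i j ^ 2 = fr M1 - l1 ^ 2 := rest_sq u1 e1
  have r2 : ∑ i, ∑ j, R2 i j ^ 2 = fr M2 - l2 ^ 2 := rest_sq u2 e2
  have p1 := cs2 R1 (fun i j => v2 i * v2 j)
  have p2 := cs2 R2 (fun i j => v1 i * v1 j)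
  have p3 := cs2 R1 R2
  rw [sum_vv u2, Real.sqrt_one, mul_one, r1] at p1
  rw [sum_vv u1, Real.sqrt_one, mul_one, r2] at p2
  rw [r1, r2] at p3
  have e0 : ∑ i, ∑ j, (v1 i * v1 j) * (v2 i * v2 j) = c ^ 2 := by
    have : ∑ i, ∑ j, (v1 i * v1 j) * (v2 i * v2 j) = (∑ i, v1 i * v2 i) * ∑ j, v1 j * v2 j := by
      rw [Finset.sum_mul_sum]
      exact Finset.sum_congr rfl fun i _ => Finset.sum_congr rfl fun j _ => by ring
    rw [this, hc]
    ring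
  have key : ∑ i, ∑ j, M1 i j * M2 i j - l1 * l2 * c ^ 2 =
      l2 * (∑ i, ∑ j, R1 i j * (v2 i * v2 j)) + l1 * (∑ i, ∑ j, R2 i j * (v1 i * v1 j)) +
        ∑ i, ∑ j, R1 i j * R2 i j := by
    rw [← e0]
    simp only [Finset.mul_sum, ← Finset.sum_sub_distrib, ← Finset.sum_add_distrib]
    refine Finset.sum_congr rfl fun i _ => Finset.sum_congr rfl fun j _ => ?_
    simp only [hR1, hR2]
    ring
  rw [key]
  refine (abs_add_le _ _).trans (add_le_add ((abs_add_le _ _).trans (add_le_add ?_ ?_)) p3)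
  · rw [abs_mul, abs_of_nonneg h2]
    exact mul_le_mul_of_nonneg_left p1 h2
  · rw [abs_mul, abs_of_nonneg h1]
    exact mul_le_mul_of_nonneg_left p2 h1

/-- numbers -/
lemma a_num {I t q1 q2 d1 d2 : ℝ} (hq1 : 0 < q1) (hq2 : 0 < q2) (h1 : 0 ≤ l1) (h2 : 0 ≤ l2)
    (hd1 : 0 ≤ d1) (hd2 : 0 ≤ d2) (s1 : l1 ^ 2 + d1 ^ 2 = q1 ^ 2) (s2 : l2 ^ 2 + d2 ^ 2 = q2 ^ 2)
    (ht0 : 0 ≤ t) (ht1 : t ≤ 1) (hI : |I - l1 * l2 * t| ≤ l2 * d1 + l1 * d2 + d1 * d2) :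
    |I / (q1 * q2) - t| ≤ 3 * (d1 / q1 + d2 / q2) := by
  have a1 : l1 ≤ q1 := by nlinarith
  have a2 : l2 ≤ q2 := by nlinarith
  have b1 : d1 ≤ q1 := by nlinarith
  have b2 : d2 ≤ q2 := by nlinarith
  have c1 : q1 ≤ l1 + d1 := by nlinarith [mul_nonneg h1 hd1]
  have c2 : q2 ≤ l2 + d2 := by nlinarith [mul_nonneg h2 hd2]
  have hq : 0 < q1 * q2 := mul_pos hq1 hq2
  have e1 : I / (q1 * q2) - t = (I - t * (q1 * q2)) / (q1 * q2) := by
    field_simp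
  have e2 : 3 * (d1 / q1 + d2 / q2) = (3 * (q2 * d1 + q1 * d2)) / (q1 * q2) := by
    field_simp
  rw [e1, e2, abs_div, abs_of_pos hq, div_le_div_iff_of_pos_right hq]
  obtain ⟨i1, i2⟩ := abs_le.1 hI
  have m1 : l2 * d1 ≤ q2 * d1 := mul_le_mul_of_nonneg_right a2 hd1
  have m2 : l1 * d2 ≤ q1 * d2 := mul_le_mul_of_nonneg_right a1 hd2
  have m3 : d1 * d2 ≤ q1 * d2 := mul_le_mul_of_nonneg_right b1 hd2
  have m4 : q1 * q2 - l1 * l2 ≤ q1 * d2 + q2 * d1 := by nlinarith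
  have m5 : 0 ≤ q1 * q2 - l1 * l2 := by
    have := mul_le_mul a1 a2 h2 hq1.le
    linarith
  have m6 : t * (q1 * q2 - l1 * l2) ≤ q1 * d2 + q2 * d1 := by nlinarith
  have m7 : 0 ≤ t * (q1 * q2 - l1 * l2) := mul_nonneg ht0 m5
  have m8 : 0 ≤ q2 * d1 := mul_nonneg hq2.le hd1
  have m9 : 0 ≤ q1 * d2 := mul_nonneg hq1.le hd2
  rw [abs_le]
  constructor <;> nlinarith

/-- the N-form, numbers -/
lemma nform_num {a t κ q2 l2 d1 d2 Na Nt Nd : ℝ} (ha : |a| ≤ 1) (ht0 : 0 ≤ t) (ht1 : t ≤ 1)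
    (hκ0 : 0 ≤ κ) (hκ1 : κ ≤ 1) (hd1 : 0 ≤ d1) (hd2 : 0 ≤ d2) (hd2' : d2 ≤ 1)
    (hl : l2 ^ 2 = q2 ^ 2 * (1 - d2 ^ 2)) (h : |a - t| ≤ 3 * (d1 + d2)) (hNt : 0 ≤ Nt)
    (hNd : 0 ≤ Nd) (hN : Na = Nt + Nd) :
    q2 ^ 2 * (a * (1 - a ^ 2)) * Na ≤ t * (1 - κ ^ 2 * t ^ 2) * l2 ^ 2 * Nt +
      q2 ^ 2 * (7 * (d1 + d2) * Nt + Nd) := by
  obtain ⟨a0, a1⟩ := abs_le.1 ha
  obtain ⟨h0, h1⟩ := abs_le.1 h
  have hq : 0 ≤ q2 ^ 2 := sq_nonneg _
  have g1 : a * (1 - a ^ 2) ≤ 1 := by nlinarith [sq_nonneg a, sq_nonneg (a - 1), sq_nonneg (a + 1)]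
  have g2 : a * (1 - a ^ 2) ≤ t * (1 - t ^ 2) + 6 * (d1 + d2) := by
    have e1 : a * (1 - a ^ 2) - t * (1 - t ^ 2) = (a - t) * (1 - (a ^ 2 + a * t + t ^ 2)) := by
      ring
    have e2 : |1 - (a ^ 2 + a * t + t ^ 2)| ≤ 2 := by
      rw [abs_le]
      constructor
      · nlinarith [sq_nonneg a, sq_nonneg t]
      · nlinarith [sq_nonneg (a + t), sq_nonneg a, sq_nonneg t]
    have e3 : (a - t) * (1 - (a ^ 2 + a * t + t ^ 2)) ≤ 3 * (d1 + d2) * 2 := by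
      refine (le_abs_self _).trans ?_
      rw [abs_mul]
      exact mul_le_mul h e2 (abs_nonneg _) (by positivity)
    linarith
  have g3 : t * (1 - t ^ 2) ≤ t * (1 - κ ^ 2 * t ^ 2) := by
    have : κ ^ 2 ≤ 1 := pow_le_one₀ hκ0 hκ1
    have : κ ^ 2 * t ^ 2 ≤ 1 * t ^ 2 := mul_le_mul_of_nonneg_right this (sq_nonneg t)
    nlinarith
  have g4 : t * (1 - κ ^ 2 * t ^ 2) ≤ 1 := by
    have : 0 ≤ κ ^ 2 * t ^ 2 := by positivity
    nlinarith
  have g5 : 0 ≤ t * (1 - κ ^ 2 * t ^ 2) := by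
    have h2 : κ ^ 2 ≤ 1 := pow_le_one₀ hκ0 hκ1
    have h3 : t ^ 2 ≤ 1 := pow_le_one₀ ht0 ht1
    have : κ ^ 2 * t ^ 2 ≤ 1 := mul_le_one₀ h2 (sq_nonneg t) h3
    exact mul_nonneg ht0 (by linarith)
  set T := t * (1 - κ ^ 2 * t ^ 2) with hT
  have k1 : a * (1 - a ^ 2) ≤ T + 6 * (d1 + d2) := by linarith
  have k2 : q2 ^ 2 * (a * (1 - a ^ 2)) * Nt ≤ q2 ^ 2 * (T + 6 * (d1 + d2)) * Nt :=
    mul_le_mul_of_nonneg_right (mul_le_mul_of_nonneg_left k1 hq) hNt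
  have k3 : q2 ^ 2 * (a * (1 - a ^ 2)) * Nd ≤ q2 ^ 2 * 1 * Nd :=
    mul_le_mul_of_nonneg_right (mul_le_mul_of_nonneg_left g1 hq) hNd
  have k4 : q2 ^ 2 * T ≤ T * l2 ^ 2 + q2 ^ 2 * d2 := by
    rw [hl]
    have : d2 ^ 2 ≤ d2 := by nlinarith
    have h4 : T * d2 ^ 2 ≤ d2 := by nlinarith [mul_nonneg g5 (sq_nonneg d2)]
    have h5 := mul_le_mul_of_nonneg_left h4 hq
    nlinarith
  have k5 := mul_le_mul_of_nonneg_right k4 hNt
  have k6 : 0 ≤ q2 ^ 2 * d1 * Nt := by positivity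
  rw [hN]
  nlinarith

/-- the Y-form, numbers -/
lemma yform_num {a t κ d1 d2 : ℝ} (ha : |a| ≤ 1) (ht0 : 0 ≤ t) (ht1 : t ≤ 1)
    (hκ0 : 0 ≤ κ) (hκ1 : κ ≤ 1) (hd1 : 0 ≤ d1) (hd2 : 0 ≤ d2)
    (h : |a - t| ≤ 3 * (d1 + d2)) :
    1 - a ^ 2 - 6 * (d1 + d2) ≤ 1 - κ ^ 2 * t ^ 2 := by
  obtain ⟨a0, a1⟩ := abs_le.1 ha
  have e1 : κ ^ 2 * t ^ 2 ≤ t ^ 2 := by
    have : κ ^ 2 ≤ 1 := pow_le_one₀ hκ0 hκ1
    nlinarith [sq_nonneg t]
  have e2 : t ^ 2 - a ^ 2 ≤ 6 * (d1 + d2) := by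
    have e3 : t ^ 2 - a ^ 2 = -((a - t) * (a + t)) := by ring
    have e4 : |(a - t) * (a + t)| ≤ 3 * (d1 + d2) * 2 := by
      rw [abs_mul]
      refine mul_le_mul h ?_ (abs_nonneg _) (by positivity)
      rw [abs_le]
      constructor <;> linarith
    have e5 := (abs_le.1 e4).1
    linarith
  linarith

/-- the defect of an eigenvector as in 633's `Bv.top` -/
lemma rest_le_dfc (hM : Mᵀ = M) (hv : ∑ i, v i ^ 2 = 1) (he : M *ᵥ v = l • v)
    (ht : fr (Vale.Agent.P146.H633.pj v * M * Vale.Agent.P146.H633.pj v) * fr M ≤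
      Vale.Agent.P146.H522.dfc M) :
    (fr M - l ^ 2) * fr M ≤ Vale.Agent.P146.H522.dfc M := by
  refine le_trans (le_of_eq ?_) ht
  congr 1
  rw [← rest_sq hv he]
  unfold fr
  refine Finset.sum_congr rfl fun i _ => Finset.sum_congr rfl fun j _ => ?_
  congr 1
  have h1 : ∀ i, ∑ j, M i j * v j = l * v i := fun i => by
    have h2 := congrFun he i
    simpa only [mulVec, dotProduct, Pi.smul_apply, smul_eq_mul] using h2
  have hs : ∀ i j, M i j = M j i := fun i j => by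
    rw [← Matrix.transpose_apply M, hM]
  have h1' : ∀ j, ∑ i, v i * M i j = l * v j := fun j => by
    rw [← h1 j]
    exact Finset.sum_congr rfl fun i _ => by rw [hs i j]; ring
  have h3 : (Vale.Agent.P146.H633.pj v * M) i j = M i j - v i * (l * v j) := by
    rw [Matrix.mul_apply]
    simp only [Vale.Agent.P146.H633.pj_apply, sub_mul, Finset.sum_sub_distrib, ite_mul, one_mul,
      zero_mul, Finset.sum_ite_eq, Finset.mem_univ, if_true]
    rw [← h1' j, Finset.mul_sum]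
    congr 1
    exact Finset.sum_congr rfl fun x _ => by ring
  have h4 : ∀ j, (Vale.Agent.P146.H633.pj v * M) i j = M i j - v i * (l * v j) := by
    intro j
    rw [Matrix.mul_apply]
    simp only [Vale.Agent.P146.H633.pj_apply, sub_mul, Finset.sum_sub_distrib, ite_mul, one_mul,
      zero_mul, Finset.sum_ite_eq, Finset.mem_univ, if_true]
    rw [← h1' j, Finset.mul_sum]
    congr 1
    exact Finset.sum_congr rfl fun x _ => by ring
  rw [Matrix.mul_apply]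
  simp only [h4, Vale.Agent.P146.H633.pj_apply]
  have h5 : ∀ x, (M i x - v i * (l * v x)) * ((if x = j then 1 else 0) - v x * v j) =
      (if x = j then M i x - v i * (l * v x) else 0) - (M i x * v x) * v j +
        v i * l * v j * v x ^ 2 := by
    intro x
    split_ifs <;> ring
  simp only [h5, Finset.sum_add_distrib, Finset.sum_sub_distrib, Finset.sum_ite_eq',
    Finset.mem_univ, if_true, ← Finset.sum_mul, ← Finset.mul_sum]
  rw [h1 i, hv]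
  ring

end alg

end Vale.Agent.P146.R1S
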