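import Vale.Agent.P146.H706G.F2Bulk

/-!
P146, plan R2, row (F2), one-site form: the lower bound of the row average of the left side of
(F2*) at EVERY bulk, for the row-frozen matrices `CBq`, in the letters of the matrices alone
(N-form and Y-form): the functions `L_b` of `f2_low`.
-/

set_option linter.all false

open MeasureTheory ProbabilityTheory Finset Matrix

namespace Vale.Agent.P146.R1S

open Vale.Agent.P157.Lv Vale.Agent.P146.H425 Vale.Agent.P146.H325 Vale.Agent.P146.H332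
  Vale.Agent.P146.H712 Vale.Agent.P146.R1 Vale.Agent.P146.R1C Vale.Agent.P146.H706
  Vale.Agent.P146.H191 Vale.Agent.P146.H633 Vale.Agent.P146.H522 Vale.Agent.P146.Cum
open Vale.Agent.P146.H45 (Ny f2q f2lin f2err f2errY fa1 fh1 gf_a1 f2l f2lY)

variable {n : ℕ} {k x : ℝ} {q : Par} {b : Fin n}

/-- the transversal number of one row (329's `bk_d`) -/
noncomputable def nT (S : CS n k x) (s Γ η : ℝ) (b : Fin n) (z : Pair n → ℝ) : ℝ :=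
  36 * Γ ^ 6 * k ^ 6 * ((η⁻¹) ^ 3 * (36 * ThA S s b b z) +
    3 * η * (2 * QA S s b b z + 2 * KA S s b b z))

/-- the relative defect -/
noncomputable def dq (M : Matrix (Fin n) (Fin n) ℝ) : ℝ := √(dfc M) / fr M

/-- the correlation of two matrices -/
noncomputable def aq' (M1 M2 : Matrix (Fin n) (Fin n) ℝ) : ℝ :=
  (∑ i, ∑ j, M1 i j * M2 i j) / (√(fr M1) * √(fr M2))

lemma fa1_us (S : CS n k x) (s : ℝ) (b : Fin n) (z : Pair n → ℝ) :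
    fa1 (S.A s) s b z = H329.us S s b z := rfl

lemma fh1_js (S : CS n k x) {s : ℝ} (hs : 0 < s) (b : Fin n) (z : Pair n → ℝ) :
    fh1 k (S.H s) s b z = H329.js S s b z := by
  funext i j y
  unfold fh1 H329.js H45.j1 H45.hz H329.jr
  by_cases h : i = b ∨ j = b
  · rw [if_pos h]
    rcases h with h | h
    · subst h
      rw [H329.H_row' S hs]
      ring
    · subst h
      rw [S.H_row hs]
      ring
  · rw [if_neg h]

lemma Nd_le_nT (S : CS n k x) {s Γ η : ℝ} {z : Pair n → ℝ} {v : Fin n → ℝ}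
    (h : Bv S s b b z v) (hFn : Fn k SkS (uu x s S.F) (S.mu s) Γ) (hs : 0 < s) (hs1 : s ≤ 1)
    (hη : 0 < η) : H45.Nd k (S.A s) (S.H s) s b v z ≤ nT S s Γ η b z := by
  have h1 := H329.bk_d S h hFn hs hs1 hη
  unfold H45.Nd
  rw [fa1_us, fh1_js S hs]
  exact h1

lemma Na_split (S : CS n k x) {s : ℝ} (hs : 0 < s) (b : Fin n) {v : Fin n → ℝ}
    (hv : ∑ i, v i ^ 2 = 1) (z : Pair n → ℝ) :
    H45.Na k (S.A s) (S.H s) s b z = H45.Nt k (S.A s) (S.H s) s b v z + H45.Nd k (S.A s) (S.H s) s b v z :=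
  H329.nl_split (gf_a1 (rowIn_S S hs) s b z) hv

lemma fb_sq_fr (M : Matrix (Fin n) (Fin n) ℝ) : H546.fb M ^ 2 = fr M := by
  rw [H546.fb_sq]
  unfold H546.dt fr
  exact Finset.sum_congr rfl fun i _ => Finset.sum_congr rfl fun j _ => (pow_two _).symm

lemma fb_fr (M : Matrix (Fin n) (Fin n) ℝ) : H546.fb M = √(fr M) := by
  rw [← fb_sq_fr, Real.sqrt_sq (H546.fb_nonneg M)]

/-- an eigenvector as in `Bv`, with a nonnegative eigenvalue and its defect -/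
lemma bv_data {M : Matrix (Fin n) (Fin n) ℝ} {v : Fin n → ℝ} {l : ℝ} (hM : Mᵀ = M)
    (hf : 0 < fr M) (hv : ∑ i, v i ^ 2 = 1) (he : M *ᵥ v = l • v)
    (ht : fr (pj v * M * pj v) * fr M ≤ dfc M) :
    √(fr M - l ^ 2) / √(fr M) ≤ dq M ∧ √(fr M - l ^ 2) / √(fr M) ≤ 1 ∧
      l ^ 2 + √(fr M - l ^ 2) ^ 2 = √(fr M) ^ 2 := by
  have h1 := rest_le_dfc hM hv he ht
  have h2 := l_sq_le hv he
  have h3 : 0 ≤ fr M - l ^ 2 := by linarith
  have hq : 0 < √(fr M) := Real.sqrt_pos.2 hf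
  have e2 : √(fr M) ^ 2 = fr M := Real.sq_sqrt hf.le
  refine ⟨?_, ?_, ?_⟩
  · unfold dq
    rw [div_le_div_iff₀ hq hf]
    have h4 : √(fr M - l ^ 2) * √(fr M) ≤ √(dfc M) := by
      rw [← Real.sqrt_mul h3]
      exact Real.sqrt_le_sqrt h1
    have h5 := mul_le_mul_of_nonneg_right h4 hq.le
    calc √(fr M - l ^ 2) * fr M = √(fr M - l ^ 2) * √(fr M) * √(fr M) := by
          rw [mul_assoc, Real.mul_self_sqrt hf.le]
      _ ≤ _ := h5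
  · rw [div_le_one hq]
    exact Real.sqrt_le_sqrt (by nlinarith [sq_nonneg l])
  · rw [e2, Real.sq_sqrt h3]
    ring

/-- nonnegative eigenvalue for a psd matrix -/
lemma eig_nonneg {M : Matrix (Fin n) (Fin n) ℝ} (hM : Psd M) {v : Fin n → ℝ} {l : ℝ}
    (hv : ∑ i, v i ^ 2 = 1) (he : M *ᵥ v = l • v) : 0 ≤ l := by
  have h1 := hM.2 v
  have h2 := sum_vMv hv he
  have h3 : ∑ i, ∑ j, v i * v j * M i j = ∑ i, ∑ j, M i j * (v i * v j) :=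
    Finset.sum_congr rfl fun i _ => Finset.sum_congr rfl fun j _ => by ring
  rw [h3, h2] at h1
  exact h1

/-- **the correlation of the matrices against the correlation of the top vectors** -/
theorem a_c2 {M1 M2 : Matrix (Fin n) (Fin n) ℝ} {v1 v2 : Fin n → ℝ} {l1 l2 c : ℝ}
    (p1 : Psd M1) (p2 : Psd M2) (f1 : 0 < fr M1) (f2 : 0 < fr M2)
    (u1 : ∑ i, v1 i ^ 2 = 1) (u2 : ∑ i, v2 i ^ 2 = 1) (e1 : M1 *ᵥ v1 = l1 • v1)
    (e2 : M2 *ᵥ v2 = l2 • v2) (hc : ∑ i, v1 i * v2 i = c)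
    (t1 : fr (pj v1 * M1 * pj v1) * fr M1 ≤ dfc M1)
    (t2 : fr (pj v2 * M2 * pj v2) * fr M2 ≤ dfc M2) :
    |aq' M1 M2 - c ^ 2| ≤ 3 * (dq M1 + dq M2) ∧
    |aq' M1 M2 - c ^ 2| ≤
      3 * (√(fr M1 - l1 ^ 2) / √(fr M1) + √(fr M2 - l2 ^ 2) / √(fr M2)) := by
  obtain ⟨a1, -, b1⟩ := bv_data p1.1 f1 u1 e1 t1
  obtain ⟨a2, -, b2⟩ := bv_data p2.1 f2 u2 e2 t2
  have l1n := eig_nonneg p1 u1 e1
  have l2n := eig_nonneg p2 u2 e2
  have hI := ip_top u1 u2 e1 e2 hc l1n l2n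
  have hc1 : c ^ 2 ≤ 1 := by
    have h := Finset.sum_mul_sq_le_sq_mul_sq Finset.univ v1 v2
    rw [hc, u1, u2] at h
    simpa using h
  have key := a_num (Real.sqrt_pos.2 f1) (Real.sqrt_pos.2 f2) l1n l2n (Real.sqrt_nonneg _)
    (Real.sqrt_nonneg _) b1 b2 (sq_nonneg c) hc1 hI
  refine ⟨key.trans ?_, key⟩
  linarith

lemma abs_aq'_le {M1 M2 : Matrix (Fin n) (Fin n) ℝ} (f1 : 0 < fr M1) (f2 : 0 < fr M2) :
    |aq' M1 M2| ≤ 1 := by
  have h := cs2 (fun i j => M1 i j) (fun i j => M2 i j)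
  have hp : 0 < √(fr M1) * √(fr M2) := mul_pos (Real.sqrt_pos.2 f1) (Real.sqrt_pos.2 f2)
  unfold aq'
  rw [abs_div, abs_of_pos hp, div_le_one hp]
  exact h

/-- the error of the left side at a bulk, in the matrix letters -/
noncomputable def eN (S : CS n k x) (q : Par) (Γ η : ℝ) (b : Fin n)
    (M1 M2 : Matrix (Fin n) (Fin n) ℝ) (w : K4 (Pair n) → ℝ) : ℝ :=
  2 * (fr M2 * (√(nT S q.s1 Γ η b (P2 q w)) * √(H45.Na k (S.A q.s1) (S.H q.s1) q.s1 b (P2 q w))) +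
    q.s1 / q.s2 * (fr M1 * (√(nT S q.s2 Γ η b (P3 q w)) *
        √(H45.Na k (S.A q.s2) (S.H q.s2) q.s2 b (P3 q w)))) +
    √(fr M1) * √(fr M2) *
      (√(nT S q.s1 Γ η b (P2 q w)) * √(H45.Na k (S.A q.s2) (S.H q.s2) q.s2 b (P3 q w)) +
      √(nT S q.s2 Γ η b (P3 q w)) * √(H45.Na k (S.A q.s1) (S.H q.s1) q.s1 b (P2 q w))))

/-- **The left side of (F2*) at every bulk, N-form.** -/
theorem bulkN (S : CS n k x) (hq : q.OkS) (h1 : 0 < q.s1) (β : ℝ) (hn : 2 ≤ n) {Γ η : ℝ}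
    (hF1 : Fn k SkS (uu x q.s1 S.F) (S.mu q.s1) Γ) (hF2 : Fn k SkS (uu x q.s2 S.F) (S.mu q.s2) Γ)
    (hη : 0 < η) {M1 M2 : MF n}
    (i1 : ∀ i j, Ind (lf (row b)) fun w => M1 w i j)
    (i2 : ∀ i j, Ind (lf (row b)) fun w => M2 w i j) (c1 : ∀ w i, M1 w i b = 0)
    (c2 : ∀ w i, M2 w i b = 0) (w : K4 (Pair n) → ℝ)
    (m1 : Matrix.of (M1 w) = CBq S q.s1 b b (P2 q w))
    (m2 : Matrix.of (M2 w) = CBq S q.s2 b b (P3 q w))
    (f1 : 0 < fr (Matrix.of (M1 w))) (f2 : 0 < fr (Matrix.of (M2 w))) :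
    fr (Matrix.of (M2 w)) * (aq' (Matrix.of (M1 w)) (Matrix.of (M2 w)) *
          (1 - aq' (Matrix.of (M1 w)) (Matrix.of (M2 w)) ^ 2)) *
          H45.Na k (S.A q.s1) (S.H q.s1) q.s1 b (P2 q w) +
        f2lin S q β b (M1 w) (M2 w) w -
        (eN S q Γ η b (Matrix.of (M1 w)) (Matrix.of (M2 w)) w +
          fr (Matrix.of (M2 w)) * (7 * (dq (Matrix.of (M1 w)) + dq (Matrix.of (M2 w))) *
            H45.Na k (S.A q.s1) (S.H q.s1) q.s1 b (P2 q w) + nT S q.s1 Γ η b (P2 q w))) ≤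
      Av (lf (row b)) (f2q S q.s1 q.s2 β (q.s1 / q.s2) (k2 q) (k3 q) b M1 M2) w := by
  have h2 : 0 < q.s2 := h1.trans_le hq.h12
  have hs1' : q.s1 ≤ 1 := hq.h12.trans hq.h2
  obtain ⟨v1, l1, B1, E1⟩ := H329.exists_Bv_eig S q.s1 hn b (P2 q w)
  obtain ⟨v2, l2, B2, E2⟩ := H329.exists_Bv_eig S q.s2 hn b (P3 q w)
  rw [← m1] at E1
  rw [← m2] at E2
  have T1 := B1.top
  have T2 := B2.top
  rw [← m1] at T1
  rw [← m2] at T2
  have p1 : Psd (Matrix.of (M1 w)) := by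
    rw [m1]
    exact bq_psd (psd_CB S q.s1 b b (P2 q w))
  have p2 : Psd (Matrix.of (M2 w)) := by
    rw [m2]
    exact bq_psd (psd_CB S q.s2 b b (P3 q w))
  have sy1 : ∀ i j, M1 w i j = M1 w j i := fun i j => congrFun (congrFun p1.1 j) i
  have sy2 : ∀ i j, M2 w i j = M2 w j i := fun i j => congrFun (congrFun p2.1 j) i
  set c := ∑ i, v1 i * v2 i with hc
  have key := f2l S hq h1 β i1 i2 c1 c2 w sy1 sy2 B1.v1 B2.v1 E1 E2 hc.symm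
  obtain ⟨-, A⟩ := a_c2 p1 p2 f1 f2 B1.v1 B2.v1 E1 E2 hc.symm T1 T2
  obtain ⟨D1, D1', R1⟩ := bv_data p1.1 f1 B1.v1 E1 T1
  obtain ⟨D2, D2', R2⟩ := bv_data p2.1 f2 B2.v1 E2 T2
  set N1 := H45.Na k (S.A q.s1) (S.H q.s1) q.s1 b (P2 q w) with hN1
  set N2 := H45.Na k (S.A q.s2) (S.H q.s2) q.s2 b (P3 q w) with hN2
  set t1 := H45.Nt k (S.A q.s1) (S.H q.s1) q.s1 b v1 (P2 q w) with ht1
  set g1 := H45.Nd k (S.A q.s1) (S.H q.s1) q.s1 b v1 (P2 q w) with hg1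
  set g2 := H45.Nd k (S.A q.s2) (S.H q.s2) q.s2 b v2 (P3 q w) with hg2
  have n1 : N1 = t1 + g1 := Na_split S h1 b B1.v1 (P2 q w)
  have G1 : g1 ≤ nT S q.s1 Γ η b (P2 q w) := Nd_le_nT S B1 hF1 h1 hs1' hη
  have G2 : g2 ≤ nT S q.s2 Γ η b (P3 q w) := Nd_le_nT S B2 hF2 h2 hq.h2 hη
  have tn : 0 ≤ t1 := H45.Nt_nonneg _ _ _ _
  have gn : 0 ≤ g1 := H45.Nd_nonneg _ _ _ _
  have hc1 : c ^ 2 ≤ 1 := by
    have h := Finset.sum_mul_sq_le_sq_mul_sq Finset.univ v1 v2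
    rw [B1.v1, B2.v1] at h
    simpa using h
  have κ0 : 0 ≤ q.s1 / q.s2 := div_nonneg h1.le h2.le
  have κ1 : q.s1 / q.s2 ≤ 1 := (div_le_one h2).2 hq.h12
  have hl2 : l2 ^ 2 = √(fr (Matrix.of (M2 w))) ^ 2 *
      (1 - (√(fr (Matrix.of (M2 w)) - l2 ^ 2) / √(fr (Matrix.of (M2 w)))) ^ 2) := by
    have hp : √(fr (Matrix.of (M2 w))) ≠ 0 := (Real.sqrt_pos.2 f2).ne'
    have e : √(fr (Matrix.of (M2 w))) ^ 2 *
      (1 - (√(fr (Matrix.of (M2 w)) - l2 ^ 2) / √(fr (Matrix.of (M2 w)))) ^ 2) =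
      √(fr (Matrix.of (M2 w))) ^ 2 - √(fr (Matrix.of (M2 w)) - l2 ^ 2) ^ 2 := by
      field_simp
    rw [e]
    linarith
  have nf := nform_num (abs_aq'_le f1 f2) (sq_nonneg c) hc1 κ0 κ1 (by positivity)
    (by positivity) D2' hl2 A tn gn n1
  rw [Real.sq_sqrt f2.le] at nf
  -- the error terms
  have fr1 : 0 ≤ fr (Matrix.of (M1 w)) := f1.le
  have fr2 : 0 ≤ fr (Matrix.of (M2 w)) := f2.le
  have s1 : √g1 ≤ √(nT S q.s1 Γ η b (P2 q w)) := Real.sqrt_le_sqrt G1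
  have s2 : √g2 ≤ √(nT S q.s2 Γ η b (P3 q w)) := Real.sqrt_le_sqrt G2
  have err : f2err S q b (M1 w) (M2 w) v1 v2 w ≤
      eN S q Γ η b (Matrix.of (M1 w)) (Matrix.of (M2 w)) w := by
    unfold f2err eN
    rw [fb_sq_fr, fb_sq_fr, fb_fr, fb_fr]
    have a1 := mul_le_mul_of_nonneg_right s1 (Real.sqrt_nonneg N1)
    have a2 := mul_le_mul_of_nonneg_right s2 (Real.sqrt_nonneg N2)
    have a3 := mul_le_mul_of_nonneg_right s1 (Real.sqrt_nonneg N2)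
    have a4 := mul_le_mul_of_nonneg_right s2 (Real.sqrt_nonneg N1)
    have b1 := mul_le_mul_of_nonneg_left a1 fr2
    have b2 := mul_le_mul_of_nonneg_left (mul_le_mul_of_nonneg_left a2 fr1) κ0
    have b3 := mul_le_mul_of_nonneg_left (add_le_add a3 a4)
      (mul_nonneg (Real.sqrt_nonneg (fr (Matrix.of (M1 w))))
        (Real.sqrt_nonneg (fr (Matrix.of (M2 w)))))
    linarith
  have err2 : fr (Matrix.of (M2 w)) * (7 * (√(fr (Matrix.of (M1 w)) - l1 ^ 2) /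
      √(fr (Matrix.of (M1 w))) + √(fr (Matrix.of (M2 w)) - l2 ^ 2) /
      √(fr (Matrix.of (M2 w)))) * t1 + g1) ≤
      fr (Matrix.of (M2 w)) * (7 * (dq (Matrix.of (M1 w)) + dq (Matrix.of (M2 w))) * N1 +
        nT S q.s1 Γ η b (P2 q w)) := by
    refine mul_le_mul_of_nonneg_left (add_le_add ?_ G1) fr2
    have tN : t1 ≤ N1 := by linarith
    refine mul_le_mul (by linarith) tN tn ?_
    have d1 : 0 ≤ dq (Matrix.of (M1 w)) := div_nonneg (Real.sqrt_nonneg _) fr1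
    have d2 : 0 ≤ dq (Matrix.of (M2 w)) := div_nonneg (Real.sqrt_nonneg _) fr2
    positivity
  have e4 : c ^ 2 * (1 - (q.s1 / q.s2) ^ 2 * (c ^ 2) ^ 2) * l2 ^ 2 * t1 =
      c ^ 2 * (1 - (q.s1 / q.s2) ^ 2 * c ^ 4) * l2 ^ 2 * t1 := by ring
  rw [e4] at nf
  linarith


/-- the error of the Y-form at a bulk, in the matrix letters -/
noncomputable def eY (S : CS n k x) (q : Par) (Γ η : ℝ) (b : Fin n)
    (M1 M2 : Matrix (Fin n) (Fin n) ℝ) (w : K4 (Pair n) → ℝ) : ℝ :=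
  2 * (2 * (fr M2 * (√(nT S q.s1 Γ η b (P2 q w)) *
      √(H45.Na k (S.A q.s1) (S.H q.s1) q.s1 b (P2 q w)))) +
    q.s1 / q.s2 * (fr M1 * (√(nT S q.s2 Γ η b (P3 q w)) *
        √(H45.Na k (S.A q.s2) (S.H q.s2) q.s2 b (P3 q w)))) +
    √(fr M1) * √(fr M2) *
      (√(nT S q.s1 Γ η b (P2 q w)) * √(H45.Na k (S.A q.s2) (S.H q.s2) q.s2 b (P3 q w)) +
      √(nT S q.s2 Γ η b (P3 q w)) * √(H45.Na k (S.A q.s1) (S.H q.s1) q.s1 b (P2 q w))))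

/-- **The left side of (F2*) at every bulk, Y-form.** -/
theorem bulkY (S : CS n k x) (hq : q.OkS) (h1 : 0 < q.s1) (β : ℝ) (hn : 2 ≤ n) {Γ η : ℝ}
    (hF1 : Fn k SkS (uu x q.s1 S.F) (S.mu q.s1) Γ) (hF2 : Fn k SkS (uu x q.s2 S.F) (S.mu q.s2) Γ)
    (hη : 0 < η) {M1 M2 : MF n}
    (i1 : ∀ i j, Ind (lf (row b)) fun w => M1 w i j)
    (i2 : ∀ i j, Ind (lf (row b)) fun w => M2 w i j) (c1 : ∀ w i, M1 w i b = 0)
    (c2 : ∀ w i, M2 w i b = 0) (w : K4 (Pair n) → ℝ)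
    (m1 : Matrix.of (M1 w) = CBq S q.s1 b b (P2 q w))
    (m2 : Matrix.of (M2 w) = CBq S q.s2 b b (P3 q w))
    (f1 : 0 < fr (Matrix.of (M1 w))) (f2 : 0 < fr (Matrix.of (M2 w))) :
    (1 - aq' (Matrix.of (M1 w)) (Matrix.of (M2 w)) ^ 2 -
          6 * (dq (Matrix.of (M1 w)) + dq (Matrix.of (M2 w)))) *
          Ny k (S.A q.s1) (S.H q.s1) q.s1 b (M2 w) (P2 q w) +
        f2lin S q β b (M1 w) (M2 w) w -
        eY S q Γ η b (Matrix.of (M1 w)) (Matrix.of (M2 w)) w ≤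
      Av (lf (row b)) (f2q S q.s1 q.s2 β (q.s1 / q.s2) (k2 q) (k3 q) b M1 M2) w := by
  have h2 : 0 < q.s2 := h1.trans_le hq.h12
  have hs1' : q.s1 ≤ 1 := hq.h12.trans hq.h2
  obtain ⟨v1, l1, B1, E1⟩ := H329.exists_Bv_eig S q.s1 hn b (P2 q w)
  obtain ⟨v2, l2, B2, E2⟩ := H329.exists_Bv_eig S q.s2 hn b (P3 q w)
  rw [← m1] at E1
  rw [← m2] at E2
  have T1 := B1.top
  have T2 := B2.top
  rw [← m1] at T1
  rw [← m2] at T2
  have p1 : Psd (Matrix.of (M1 w)) := by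
    rw [m1]
    exact bq_psd (psd_CB S q.s1 b b (P2 q w))
  have p2 : Psd (Matrix.of (M2 w)) := by
    rw [m2]
    exact bq_psd (psd_CB S q.s2 b b (P3 q w))
  have sy1 : ∀ i j, M1 w i j = M1 w j i := fun i j => congrFun (congrFun p1.1 j) i
  have sy2 : ∀ i j, M2 w i j = M2 w j i := fun i j => congrFun (congrFun p2.1 j) i
  set c := ∑ i, v1 i * v2 i with hc
  have key := f2lY S hq h1 β i1 i2 c1 c2 w sy1 sy2 B1.v1 B2.v1 E1 E2 hc.symm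
  obtain ⟨A, -⟩ := a_c2 p1 p2 f1 f2 B1.v1 B2.v1 E1 E2 hc.symm T1 T2
  have d1 : 0 ≤ dq (Matrix.of (M1 w)) := div_nonneg (Real.sqrt_nonneg _) f1.le
  have d2 : 0 ≤ dq (Matrix.of (M2 w)) := div_nonneg (Real.sqrt_nonneg _) f2.le
  have hc1 : c ^ 2 ≤ 1 := by
    have h := Finset.sum_mul_sq_le_sq_mul_sq Finset.univ v1 v2
    rw [B1.v1, B2.v1] at h
    simpa using h
  have κ0 : 0 ≤ q.s1 / q.s2 := div_nonneg h1.le h2.le
  have κ1 : q.s1 / q.s2 ≤ 1 := (div_le_one h2).2 hq.h12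
  have yf := yform_num (abs_aq'_le f1 f2) (sq_nonneg c) hc1 κ0 κ1 d1 d2 A
  have e4 : (c ^ 2) ^ 2 = c ^ 4 := by ring
  rw [e4] at yf
  have yf2 := mul_le_mul_of_nonneg_right yf
    (H45.Ny_nonneg (k := k) (H := S.H q.s1) (S.A q.s1) (s := q.s1) (b := b) (M2 w) (P2 q w))
  set N1 := H45.Na k (S.A q.s1) (S.H q.s1) q.s1 b (P2 q w) with hN1
  set N2 := H45.Na k (S.A q.s2) (S.H q.s2) q.s2 b (P3 q w) with hN2
  set g1 := H45.Nd k (S.A q.s1) (S.H q.s1) q.s1 b v1 (P2 q w) with hg1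
  set g2 := H45.Nd k (S.A q.s2) (S.H q.s2) q.s2 b v2 (P3 q w) with hg2
  have G1 : g1 ≤ nT S q.s1 Γ η b (P2 q w) := Nd_le_nT S B1 hF1 h1 hs1' hη
  have G2 : g2 ≤ nT S q.s2 Γ η b (P3 q w) := Nd_le_nT S B2 hF2 h2 hq.h2 hη
  have fr1 : 0 ≤ fr (Matrix.of (M1 w)) := f1.le
  have fr2 : 0 ≤ fr (Matrix.of (M2 w)) := f2.le
  have s1 : √g1 ≤ √(nT S q.s1 Γ η b (P2 q w)) := Real.sqrt_le_sqrt G1
  have s2 : √g2 ≤ √(nT S q.s2 Γ η b (P3 q w)) := Real.sqrt_le_sqrt G2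
  have err : f2errY S q b (M1 w) (M2 w) v1 v2 w ≤
      eY S q Γ η b (Matrix.of (M1 w)) (Matrix.of (M2 w)) w := by
    unfold f2errY eY
    rw [fb_sq_fr, fb_sq_fr, fb_fr, fb_fr]
    have a1 := mul_le_mul_of_nonneg_right s1 (Real.sqrt_nonneg N1)
    have a2 := mul_le_mul_of_nonneg_right s2 (Real.sqrt_nonneg N2)
    have a3 := mul_le_mul_of_nonneg_right s1 (Real.sqrt_nonneg N2)
    have a4 := mul_le_mul_of_nonneg_right s2 (Real.sqrt_nonneg N1)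
    have b1 := mul_le_mul_of_nonneg_left a1 fr2
    have b2 := mul_le_mul_of_nonneg_left (mul_le_mul_of_nonneg_left a2 fr1) κ0
    have b3 := mul_le_mul_of_nonneg_left (add_le_add a3 a4)
      (mul_nonneg (Real.sqrt_nonneg (fr (Matrix.of (M1 w))))
        (Real.sqrt_nonneg (fr (Matrix.of (M2 w)))))
    linarith
  linarith

end Vale.Agent.P146.R1S
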