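import Vale.Agent.P146.H706G.F2BulkS
import Vale.Agent.P146.H45.Br
import Vale.Agent.P146.H45.Lin2
import Vale.Agent.P146.H561.F2Glue

/-!
P146, plan R2, row (F2), one-site form, [F2-HL]: the hypothesis `hL` of 561's `f2_glue` from the
lower bound at every bulk and the law change, with one free touch number.
-/

set_option linter.all false

open MeasureTheory ProbabilityTheory Finset Matrix

namespace Vale.Agent.P146.R1S

open Vale.Agent.P157.Lv Vale.Agent.P146.H425 Vale.Agent.P146.H325 Vale.Agent.P146.H332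
  Vale.Agent.P146.H712 Vale.Agent.P146.R1 Vale.Agent.P146.R1C Vale.Agent.P146.H706
  Vale.Agent.P146.H191 Vale.Agent.P146.H633 Vale.Agent.P146.H522 Vale.Agent.P146.Cum
open Vale.Agent.P146.H364 (Cb Pb Cb_T Cb_self Cb_col eg_Cb ind_Cb Cb_comm)
open Vale.Agent.P146.H45 (linb eg_linb f2lin f2lin_ge')

variable {n : ℕ} {k x : ℝ} {q : Par} {b : Fin n}

section eg

variable (S : CS n k x)

/-- the nonlinear part of the column through averages over the row -/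
lemma Na_eq {s : ℝ} (hs : 0 < s) (b : Fin n) (z : Pair n → ℝ) :
    H45.Na k (S.A s) (S.H s) s b z = AvP s (row b) (fun u => ∑ i, Uz S s b i u ^ 2) z -
      ∑ i, ∑ j, (√s * (k * H329.mhr S s b z i j)) ^ 2 := by
  have h := H329.field_split (H329.gf_us S hs b z)
  have e1 : ∫ y, ∑ i, H329.us S s b z i y ^ 2 ∂(gI (Fin n)) =
      AvP s (row b) (fun u => ∑ i, Uz S s b i u ^ 2) z := by
    rw [AvP_row (EG.sum _ fun i _ => (eg_Uz S s b i).pow 2)]
    rfl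
  rw [e1] at h
  have e2 : ∑ i, ∑ j, H329.MH (H329.js S s b z) i j ^ 2 =
      ∑ i, ∑ j, (√s * (k * H329.mhr S s b z i j)) ^ 2 :=
    Finset.sum_congr rfl fun i _ => Finset.sum_congr rfl fun j _ => by rw [H329.MH_js S hs]
  rw [e2] at h
  unfold H45.Na
  rw [H45.fa1_us, H45.fh1_js S hs]
  linarith

lemma eg_Na {s : ℝ} (hs : 0 < s) (b : Fin n) :
    EG fun z => H45.Na k (S.A s) (S.H s) s b z := by
  simp only [Na_eq S hs b]
  refine (eg_AvP (EG.sum _ fun i _ => (eg_Uz S s b i).pow 2) _ _).sub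
    (EG.sum _ fun i _ => EG.sum _ fun j _ => EG.pow ?_ 2)
  exact ((eg_AvP (S.eg_H hs b i j) s (row b)).const_mul k).const_mul _

lemma eg_nT (s Γ η : ℝ) (b : Fin n) : EG (nT S s Γ η b) := by
  unfold nT
  exact ((((eg_ThA S s b b).const_mul _).const_mul _).add ((((eg_QA S s b b).const_mul 2).add
    ((eg_KA S s b b).const_mul 2)).const_mul _)).const_mul _

lemma nT_nonneg {s Γ η : ℝ} (hη : 0 ≤ η) (b : Fin n) (z : Pair n → ℝ) :
    0 ≤ nT S s Γ η b z := by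
  unfold nT
  have h1 := ThA_nonneg S s b b z
  have h2 := QA_nonneg S s b b z
  have h3 := KA_nonneg S s b b z
  have h4 : 0 ≤ Γ ^ 6 := by positivity
  have h5 : 0 ≤ (η⁻¹) ^ 3 := by positivity
  positivity

/-- the frozen matrices of 364 are the row-frozen matrices of 633, first position -/
lemma Cb_CBq2 (hq : q.OkS) (b : Fin n) (w : K4 (Pair n) → ℝ) :
    Matrix.of (Cb S q.s1 (k2 q) b w) = CBq S q.s1 b b (P2 q w) := by
  ext i j
  show Cb S q.s1 (k2 q) b w i j = _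
  unfold Cb CBq bq CB
  have e0 : ((i = b ∨ i = b) ∨ j = b ∨ j = b) ↔ (i = b ∨ j = b) := by tauto
  by_cases h : i = b ∨ j = b
  · rw [if_pos h, if_pos (e0.2 h)]
  · rw [if_neg h, if_neg (fun h' => h (e0.1 h')), Finset.union_self]
    have e : (fun w : K4 (Pair n) → ℝ => S.A q.s1 (H712.lp (k2 q) w) i j) =
        fun w => S.A q.s1 (P2 q w) i j := by
      funext w
      rw [show P2 q w = H712.lp (k2 q) w from P2_lp w]
    rw [e, Av_lf_P2_s hq (f := fun z => S.A q.s1 z i j) (S.eg_A q.s1 i j) (row b) w]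

/-- the same, second position -/
lemma Cb_CBq3 (hq : q.OkS) (b : Fin n) (w : K4 (Pair n) → ℝ) :
    Matrix.of (Cb S q.s2 (k3 q) b w) = CBq S q.s2 b b (P3 q w) := by
  ext i j
  show Cb S q.s2 (k3 q) b w i j = _
  unfold Cb CBq bq CB
  have e0 : ((i = b ∨ i = b) ∨ j = b ∨ j = b) ↔ (i = b ∨ j = b) := by tauto
  by_cases h : i = b ∨ j = b
  · rw [if_pos h, if_pos (e0.2 h)]
  · rw [if_neg h, if_neg (fun h' => h (e0.1 h')), Finset.union_self]
    have e : (fun w : K4 (Pair n) → ℝ => S.A q.s2 (H712.lp (k3 q) w) i j) =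
        fun w => S.A q.s2 (P3 q w) i j := by
      funext w
      rw [show P3 q w = H712.lp (k3 q) w from P3_lp w]
    rw [e, Av_lf_P3_s hq (f := fun z => S.A q.s2 z i j) (S.eg_A q.s2 i j) (row b) w]

lemma fr_Cb_ge (s : ℝ) (a : Fin 4 → ℝ) (hn : 2 ≤ n) (b : Fin n) (w : K4 (Pair n) → ℝ) :
    1 ≤ fr (Matrix.of (Cb S s a b w)) := by
  have : Nontrivial (Fin n) := Fin.nontrivial_iff_two_le.2 hn
  obtain ⟨c, hc⟩ := exists_ne b
  have h1 : Cb S s a b w c c = 1 := Cb_self hc w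
  unfold fr
  have h2 : (1 : ℝ) ≤ ∑ j, Matrix.of (Cb S s a b w) c j ^ 2 := by
    refine le_trans (le_of_eq ?_) (Finset.single_le_sum (f := fun j =>
      Matrix.of (Cb S s a b w) c j ^ 2) (fun j _ => sq_nonneg _) (Finset.mem_univ c))
    simp only [Matrix.of_apply]
    rw [h1]
    norm_num
  refine h2.trans ?_
  exact Finset.single_le_sum (f := fun i => ∑ j, Matrix.of (Cb S s a b w) i j ^ 2)
    (fun i _ => Finset.sum_nonneg fun j _ => sq_nonneg _) (Finset.mem_univ c)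

lemma eg_frCb (s : ℝ) (a : Fin 4 → ℝ) (b : Fin n) :
    EG fun w => fr (Matrix.of (Cb S s a b w)) := by
  unfold fr
  exact EG.sum _ fun i _ => EG.sum _ fun j _ => (eg_Cb i j).pow 2

lemma dq_nonneg (M : Matrix (Fin n) (Fin n) ℝ) : 0 ≤ dq M :=
  div_nonneg (Real.sqrt_nonneg _) (H325.fr_nonneg M)

lemma dq_le {M : Matrix (Fin n) (Fin n) ℝ} (h : 0 < fr M) : dq M ≤ 1 := by
  unfold dq
  rw [div_le_one h]
  refine Real.sqrt_le_iff.2 ⟨h.le, ?_⟩
  unfold dfc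
  have := H325.fr_nonneg (M * M)
  linarith

lemma eg_dq (s : ℝ) (a : Fin 4 → ℝ) (hn : 2 ≤ n) (b : Fin n) :
    EG fun w => dq (Matrix.of (Cb S s a b w)) := by
  have h1 : EG fun w => √(dfc (Matrix.of (Cb S s a b w))) :=
    H561.eg_dfc fun i j => eg_Cb i j
  refine EG.of_bdd (C := 1) (h1.meas.div (eg_frCb S s a b).meas) fun w => ?_
  have h2 := dq_nonneg (Matrix.of (Cb S s a b w))
  have h3 := dq_le (lt_of_lt_of_le one_pos (fr_Cb_ge S s a hn b w))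
  rw [abs_of_nonneg h2]
  exact h3

lemma eg_aq' (s1 s2 : ℝ) (a1 a2 : Fin 4 → ℝ) (hn : 2 ≤ n) (b : Fin n) :
    EG fun w => aq' (Matrix.of (Cb S s1 a1 b w)) (Matrix.of (Cb S s2 a2 b w)) := by
  have e1 : EG fun w => ∑ i, ∑ j, Matrix.of (Cb S s1 a1 b w) i j *
      Matrix.of (Cb S s2 a2 b w) i j :=
    EG.sum _ fun i _ => EG.sum _ fun j _ => (eg_Cb i j).mul (eg_Cb i j)
  have e2 : EG fun w => √(fr (Matrix.of (Cb S s1 a1 b w))) := H191.eg_sqrt (eg_frCb S s1 a1 b)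
  have e3 : EG fun w => √(fr (Matrix.of (Cb S s2 a2 b w))) := H191.eg_sqrt (eg_frCb S s2 a2 b)
  refine EG.of_bdd (C := 1) (e1.meas.div (e2.mul e3).meas) fun w => ?_
  exact abs_aq'_le (lt_of_lt_of_le one_pos (fr_Cb_ge S s1 a1 hn b w))
    (lt_of_lt_of_le one_pos (fr_Cb_ge S s2 a2 hn b w))

end eg

/-- the error of one row at its bulk: `E N`-part -/
noncomputable def errb (S : CS n k x) (q : Par) (Γ η : ℝ) (b : Fin n)
    (w : K4 (Pair n) → ℝ) : ℝ :=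
  eN S q Γ η b (Matrix.of (Cb S q.s1 (k2 q) b w)) (Matrix.of (Cb S q.s2 (k3 q) b w)) w +
    fr (Matrix.of (Cb S q.s2 (k3 q) b w)) *
      (7 * (dq (Matrix.of (Cb S q.s1 (k2 q) b w)) + dq (Matrix.of (Cb S q.s2 (k3 q) b w))) *
        H45.Na k (S.A q.s1) (S.H q.s1) q.s1 b (P2 q w) + nT S q.s1 Γ η b (P2 q w))

/-- the linear part of one row -/
noncomputable def lnb (S : CS n k x) (q : Par) (β : ℝ) (b : Fin n) (w : K4 (Pair n) → ℝ) : ℝ :=
  k ^ 2 / β ^ 2 * (q.s1 * linb S q.s1 β (k2 q) b w + q.s2 * linb S q.s2 β (k3 q) b w)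

/-- the main part of one row -/
noncomputable def mnb (S : CS n k x) (q : Par) (b : Fin n) (w : K4 (Pair n) → ℝ) : ℝ :=
  fr (Matrix.of (Cb S q.s2 (k3 q) b w)) *
    (aq' (Matrix.of (Cb S q.s1 (k2 q) b w)) (Matrix.of (Cb S q.s2 (k3 q) b w)) *
      (1 - aq' (Matrix.of (Cb S q.s1 (k2 q) b w)) (Matrix.of (Cb S q.s2 (k3 q) b w)) ^ 2)) *
    H45.Na k (S.A q.s1) (S.H q.s1) q.s1 b (P2 q w)

lemma eg_eNb (S : CS n k x) (h1 : 0 < q.s1) (h2 : 0 < q.s2) (Γ η : ℝ) (b : Fin n) :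
    EG fun w => eN S q Γ η b (Matrix.of (Cb S q.s1 (k2 q) b w))
      (Matrix.of (Cb S q.s2 (k3 q) b w)) w := by
  have t1 : EG fun w => √(nT S q.s1 Γ η b (P2 q w)) :=
    H191.eg_sqrt (eg_P2 (eg_nT S q.s1 Γ η b))
  have t2 : EG fun w => √(nT S q.s2 Γ η b (P3 q w)) :=
    H191.eg_sqrt (eg_P3 (eg_nT S q.s2 Γ η b))
  have n1 : EG fun w => √(H45.Na k (S.A q.s1) (S.H q.s1) q.s1 b (P2 q w)) :=
    H191.eg_sqrt (eg_P2 (eg_Na S h1 b))
  have n2 : EG fun w => √(H45.Na k (S.A q.s2) (S.H q.s2) q.s2 b (P3 q w)) :=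
    H191.eg_sqrt (eg_P3 (eg_Na S h2 b))
  have f1 := eg_frCb S q.s1 (k2 q) b
  have f2 := eg_frCb S q.s2 (k3 q) b
  have g1 : EG fun w => √(fr (Matrix.of (Cb S q.s1 (k2 q) b w))) := H191.eg_sqrt f1
  have g2 : EG fun w => √(fr (Matrix.of (Cb S q.s2 (k3 q) b w))) := H191.eg_sqrt f2
  unfold eN
  exact ((((f2.mul (t1.mul n1)).add ((f1.mul (t2.mul n2)).const_mul _)).add
    ((g1.mul g2).mul ((t1.mul n2).add (t2.mul n1)))).const_mul 2)

lemma eg_errb (S : CS n k x) (h1 : 0 < q.s1) (h2 : 0 < q.s2) (hn : 2 ≤ n) (Γ η : ℝ)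
    (b : Fin n) : EG (errb S q Γ η b) := by
  unfold errb
  exact (eg_eNb S h1 h2 Γ η b).add ((eg_frCb S q.s2 (k3 q) b).mul
    (((((eg_dq S q.s1 (k2 q) hn b).add (eg_dq S q.s2 (k3 q) hn b)).const_mul 7).mul
      (eg_P2 (eg_Na S h1 b))).add (eg_P2 (eg_nT S q.s1 Γ η b))))

lemma eg_lnb (S : CS n k x) (h1 : 0 < q.s1) (h2 : 0 < q.s2) (β : ℝ) (b : Fin n) :
    EG (lnb S q β b) := by
  unfold lnb
  exact (((eg_linb S h1 β (k2 q) b).const_mul _).add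
    ((eg_linb S h2 β (k3 q) b).const_mul _)).const_mul _

lemma eg_mnb (S : CS n k x) (h1 : 0 < q.s1) (hn : 2 ≤ n) (b : Fin n) :
    EG (mnb S q b) := by
  have ea := eg_aq' S q.s1 q.s2 (k2 q) (k3 q) hn b
  unfold mnb
  exact ((eg_frCb S q.s2 (k3 q) b).mul (ea.mul ((EG.const 1).sub (ea.pow 2)))).mul
    (eg_P2 (eg_Na S h1 b))

/-- **the left side of (F2*) at every bulk, in the letters `Cb`, `Pb`** -/
theorem bulk_Cb (S : CS n k x) (hq : q.OkS) (h1 : 0 < q.s1) {β : ℝ} (hβ : β ≠ 0) (hn : 2 ≤ n)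
    {Γ η : ℝ} (hF1 : Fn k SkS (uu x q.s1 S.F) (S.mu q.s1) Γ)
    (hF2 : Fn k SkS (uu x q.s2 S.F) (S.mu q.s2) Γ) (hη : 0 < η) (b : Fin n)
    (w : K4 (Pair n) → ℝ) :
    mnb S q b w - lnb S q β b w - errb S q Γ η b w ≤
      Av (lf (row b)) (H45.f2q S q.s1 q.s2 β (q.s1 / q.s2) (k2 q) (k3 q) b
        (Cb S q.s1 (k2 q) b) (Cb S q.s2 (k3 q) b)) w := by
  have f1 := lt_of_lt_of_le one_pos (fr_Cb_ge S q.s1 (k2 q) hn b w)
  have f2 := lt_of_lt_of_le one_pos (fr_Cb_ge S q.s2 (k3 q) hn b w)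
  have key := bulkN (b := b) S hq h1 β hn hF1 hF2 hη (M1 := Cb S q.s1 (k2 q) b)
    (M2 := Cb S q.s2 (k3 q) b) (fun i j => ind_Cb i j) (fun i j => ind_Cb i j)
    (fun w i => Cb_col w i) (fun w i => Cb_col w i) w (Cb_CBq2 S hq b w) (Cb_CBq3 S hq b w)
    f1 f2
  have hlin := f2lin_ge' S hq h1 hβ b w
  unfold mnb lnb errb
  linarith

end Vale.Agent.P146.R1S
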