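import Vale.Agent.P146.H130.GBase
import Vale.Agent.P146.H797.H706_LawK

/-!
P146, plan B, [B8]: the law change for the law `densG q G F` with a general base density
(the results of `H706.LawK`, letters of `H130.GBase`).
-/

set_option linter.all false

open MeasureTheory ProbabilityTheory Finset

namespace Vale.Agent.P146.R1C

open Vale.Agent.P157.Lv Vale.Agent.P146.H425 Vale.Agent.P146.H712 Vale.Agent.P146.R1
  Vale.Agent.P146.H706

section gen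

variable {κ : Type} [Fintype κ] [DecidableEq κ] {F : (κ → ℝ) → ℝ} {D : κ → (κ → ℝ) → ℝ}
  {B L : ℝ} {q : Par} {R : Finset κ} {G : GD κ}

/-- the squared gradient of `G` in the coordinates of `R`, first slot -/
noncomputable def gr0 (q : Par) (G : GD κ) (R : Finset κ) (w : K4 κ → ℝ) : ℝ :=
  ∑ e ∈ R, G.d0 e (P0 q w) (P1 q w) ^ 2

/-- the squared gradient of `G` in the coordinates of `R`, second slot -/
noncomputable def gr1 (q : Par) (G : GD κ) (R : Finset κ) (w : K4 κ → ℝ) : ℝ :=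
  ∑ e ∈ R, G.d1 e (P0 q w) (P1 q w) ^ 2

lemma gr0_nonneg (w : K4 κ → ℝ) : 0 ≤ gr0 q G R w := sum_nonneg fun _ _ => sq_nonneg _

lemma gr1_nonneg (w : K4 κ → ℝ) : 0 ≤ gr1 q G R w := sum_nonneg fun _ _ => sq_nonneg _

lemma GD.Ok.eg_gr0 (hG : G.Ok) : EG (gr0 q G R) := EG.sum _ fun e _ => (hG.eg0 e).pow 2

lemma GD.Ok.eg_gr1 (hG : G.Ok) : EG (gr1 q G R) := EG.sum _ fun e _ => (hG.eg1 e).pow 2

lemma GD.Row.gr0_le {Bg : ℝ} (h : G.Row R Bg) (w : K4 κ → ℝ) : gr0 q G R w ≤ Bg := (h _ _).1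

lemma GD.Row.gr1_le {Bg : ℝ} (h : G.Row R Bg) (w : K4 κ → ℝ) : gr1 q G R w ≤ Bg := (h _ _).2

/-- the row gradient of the log density -/
theorem psiG_sq_le (hq : q.OkS) (w : K4 κ → ℝ) :
    ∑ j ∈ lf R, psiG' q G F D j w ^ 2 ≤
      3 * (q.x ^ 2 * grF q.x q.s2 F D R (P3 q w) + (gr1 q G R w + gr0 q G R w)) := by
  have h3 := sum_k3_s hq R (fun e => dd q.x q.s2 F D e (P3 q w))
  have h1 := sum_k1_s hq R (fun e => G.d1 e (P0 q w) (P1 q w))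
  have h0 := sum_k0_s hq R (fun e => G.d0 e (P0 q w) (P1 q w))
  have hle : ∑ j ∈ lf R, psiG' q G F D j w ^ 2 ≤
      ∑ j ∈ lf R, (3 * q.x ^ 2 * (k3 q (bl j) * dd q.x q.s2 F D (bs j) (P3 q w)) ^ 2 +
        (3 * (k1 q (bl j) * G.d1 (bs j) (P0 q w) (P1 q w)) ^ 2 +
          3 * (k0 q (bl j) * G.d0 (bs j) (P0 q w) (P1 q w)) ^ 2)) := by
    refine sum_le_sum fun j _ => ?_
    unfold psiG'
    set a := k3 q (bl j) * dd q.x q.s2 F D (bs j) (P3 q w)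
    set b := k1 q (bl j) * G.d1 (bs j) (P0 q w) (P1 q w)
    set c := k0 q (bl j) * G.d0 (bs j) (P0 q w) (P1 q w)
    nlinarith [sq_nonneg (q.x * a - b), sq_nonneg (q.x * a - c), sq_nonneg (b - c)]
  refine hle.trans ?_
  rw [sum_add_distrib, sum_add_distrib, ← mul_sum, ← mul_sum, ← mul_sum, h3, h1, h0]
  have g3 := grF_nonneg (F := F) (D := D) (R := R) q.x q.s2 (P3 q w)
  have g1 := gr1_nonneg (q := q) (G := G) (R := R) w
  have g0 := gr0_nonneg (q := q) (G := G) (R := R) w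
  have hs2 : q.s2 ≤ 1 := hq.h2
  have ht1 : q.t1 ≤ 1 := hq.h1.trans (hq.h12.trans hq.h2)
  have ht0 : q.t0 ≤ 1 := hq.h01.trans ht1
  have hx2 : 0 ≤ 3 * q.x ^ 2 := by positivity
  have e3 : q.s2 * grF q.x q.s2 F D R (P3 q w) ≤ 1 * grF q.x q.s2 F D R (P3 q w) :=
    mul_le_mul_of_nonneg_right hs2 g3
  have e1 : q.t1 * gr1 q G R w ≤ 1 * gr1 q G R w := mul_le_mul_of_nonneg_right ht1 g1
  have e0 : q.t0 * gr0 q G R w ≤ 1 * gr0 q G R w := mul_le_mul_of_nonneg_right ht0 g0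
  have f3 := mul_le_mul_of_nonneg_left e3 hx2
  unfold grF gr1 gr0 at *
  linarith

/-- the log density satisfies the hypotheses of the law change -/
theorem lf_psiG (h : C11 F D B L) (hq : q.OkS) (hG : G.Ok) {Bd Bg l : ℝ}
    (h3 : ∀ z, grF q.x q.s2 F D R z ≤ Bd) (hr : G.Row R Bg) (hl0 : 0 ≤ l)
    (hl : 3 * (q.x ^ 2 * Bd + 2 * Bg) ≤ l ^ 2) :
    LF (lf R) (psiG q G F) (psiG' q G F D) l where
  lip := lip_psiG h hq.x0 hG
  pd j _ := pd_psiG h hq.x0 hG j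
  eg j _ := eg_psiG' h hq.x0 hG j
  nn := hl0
  le w := by
    refine (psiG_sq_le hq w).trans (le_trans ?_ hl)
    have g3 := mul_le_mul_of_nonneg_left (h3 (P3 q w)) (sq_nonneg q.x)
    have g1 := hr.gr1_le (q := q) w
    have g0 := hr.gr0_le (q := q) w
    linarith

/-- **(LC1)**, first half -/
theorem law_up_g {l : ℝ} (hψ : LF (lf R) (psiG q G F) (psiG' q G F D) l) (p : ℕ)
    (hp : ((p : ℝ) + 1) ^ 2 * l ^ 2 ≤ 1) {f : (K4 κ → ℝ) → ℝ} (hf : EG f) {K : ℝ}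
    (h0 : ∀ w, 0 ≤ f w) (hK : ∀ w, f w ≤ K) :
    EwG q G F f ≤ 2 * EwG q G F (Av (lf R) f) + 3 * K / 2 ^ p * EwG q G F (fun _ => 1) := by
  have := hψ.LC1 p hp hf h0 hK
  unfold EwG
  simpa only [mul_one, densG_eq] using this

/-- **(LC1)**, second half -/
theorem law_low_g {l : ℝ} (hψ : LF (lf R) (psiG q G F) (psiG' q G F D) l) (p : ℕ)
    (hp : ((p : ℝ) + 1) ^ 2 * l ^ 2 ≤ 1) {f : (K4 κ → ℝ) → ℝ} (hf : EG f) {K : ℝ}
    (h0 : ∀ w, 0 ≤ f w) (hK : ∀ w, f w ≤ K) :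
    EwG q G F (Av (lf R) f) ≤ 2 * EwG q G F f + 3 * K / 2 ^ p * EwG q G F (fun _ => 1) := by
  have := hψ.LC1' p hp hf h0 hK
  unfold EwG
  simpa only [mul_one, densG_eq] using this

/-- the square of the row gradient under the clean law -/
theorem psiG_four_le (h : C11 F D B L) (hq : q.OkS) (hG : G.Ok)
    {φ : (K4 κ → ℝ) → ℝ} (hφ : EG φ) (hφ0 : ∀ w, 0 ≤ φ w) :
    ∫ w, φ w * (∑ j ∈ lf R, psiG' q G F D j w ^ 2) ^ 2 ∂(gI (K4 κ)) ≤
      27 * (q.x ^ 4 * (∫ w, φ w * grF q.x q.s2 F D R (P3 q w) ^ 2 ∂(gI (K4 κ))) +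
        ((∫ w, φ w * gr1 q G R w ^ 2 ∂(gI (K4 κ))) +
          ∫ w, φ w * gr0 q G R w ^ 2 ∂(gI (K4 κ)))) := by
  have e : ∀ t, EG (grF q.x t F D R) := fun t => eg_grF h hq.x0 t
  have i3 : Integrable (fun w => q.x ^ 4 * (φ w * grF q.x q.s2 F D R (P3 q w) ^ 2))
      (gI (K4 κ)) := (hφ.mul ((eg_P3 (e _)).pow 2)).integrable.const_mul _
  have i1 : Integrable (fun w => φ w * gr1 q G R w ^ 2) (gI (K4 κ)) :=
    (hφ.mul (hG.eg_gr1.pow 2)).integrable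
  have i0 : Integrable (fun w => φ w * gr0 q G R w ^ 2) (gI (K4 κ)) :=
    (hφ.mul (hG.eg_gr0.pow 2)).integrable
  have i10 : Integrable (fun w => φ w * gr1 q G R w ^ 2 + φ w * gr0 q G R w ^ 2)
      (gI (K4 κ)) := i1.add i0
  have eS : EG fun w => (∑ j ∈ lf R, psiG' q G F D j w ^ 2) ^ 2 :=
    (EG.sum _ fun j _ => (eg_psiG' h hq.x0 hG j).pow 2).pow 2
  rw [← integral_const_mul (q.x ^ 4), ← integral_add i1 i0, ← integral_add i3 i10,
    ← integral_const_mul]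
  refine integral_mono (hφ.mul eS).integrable ((i3.add i10).const_mul _) fun w => ?_
  have h1 := psiG_sq_le (R := R) (F := F) (D := D) (G := G) hq w
  have h2 : 0 ≤ ∑ j ∈ lf R, psiG' q G F D j w ^ 2 := sum_nonneg fun _ _ => sq_nonneg _
  show φ w * (∑ j ∈ lf R, psiG' q G F D j w ^ 2) ^ 2 ≤ 27 *
    (q.x ^ 4 * (φ w * grF q.x q.s2 F D R (P3 q w) ^ 2) +
      (φ w * gr1 q G R w ^ 2 + φ w * gr0 q G R w ^ 2))
  set S := ∑ j ∈ lf R, psiG' q G F D j w ^ 2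
  set a := grF q.x q.s2 F D R (P3 q w)
  set b := gr1 q G R w
  set c := gr0 q G R w
  have h3 : S ^ 2 ≤ (3 * (q.x ^ 2 * a + (b + c))) ^ 2 := pow_le_pow_left₀ h2 h1 2
  have h5 : (3 * (q.x ^ 2 * a + (b + c))) ^ 2 ≤ 27 * (q.x ^ 4 * a ^ 2 + (b ^ 2 + c ^ 2)) := by
    nlinarith [sq_nonneg (q.x ^ 2 * a - b), sq_nonneg (q.x ^ 2 * a - c), sq_nonneg (b - c)]
  have := mul_le_mul_of_nonneg_left (h3.trans h5) (hφ0 w)
  calc _ ≤ _ := this
    _ = _ := by ring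

end gen

end Vale.Agent.P146.R1C
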