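import Vale.Agent.P146.H706.LawF
import Vale.Agent.P146.H191.F1Ibp

/-!
P146, plan R2, row (F2), one-site form: the law change of a product of fields of one row, with a
weight which does not depend on the row, under a density `exp Ψ` with small row gradient.
-/

set_option linter.all false

open MeasureTheory ProbabilityTheory Finset

namespace Vale.Agent.P146.H706

open Vale.Agent.P157.Lv Vale.Agent.P146.H425 Vale.Agent.P146.H712 Vale.Agent.P146.R1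

section fib

variable {ι : Type} [Fintype ι] [DecidableEq ι] {R : Finset ι} {Ψ : (ι → ℝ) → ℝ}
  {Ψ' : ι → (ι → ℝ) → ℝ} {l : ℝ}

/-- the average over the rows, with a weight which does not depend on them -/
lemma int_av_mul_w (hN : EG fun z => Real.exp (Ψ z)) {χ f : (ι → ℝ) → ℝ} (hχ : EG χ)
    (hi : Ind R χ) (hf : EG f) :
    ∫ z, Av R (fun z => Real.exp (Ψ z)) z * (χ z * f z) ∂(gI ι) =
      ∫ z, Av R (fun z => Real.exp (Ψ z)) z * (χ z * Av R f z) ∂(gI ι) := by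
  rw [int_av_mul hN (hχ.mul hf)]
  refine integral_congr_ae (ae_of_all _ fun z => ?_)
  simp only
  rw [Av_mul hi]

/-- the same with the density itself -/
lemma int_av_w (hN : EG fun z => Real.exp (Ψ z)) {χ f : (ι → ℝ) → ℝ} (hχ : EG χ)
    (hi : Ind R χ) (hf : EG f) :
    ∫ z, Av R (fun z => Real.exp (Ψ z)) z * (χ z * f z) ∂(gI ι) =
      ∫ z, Real.exp (Ψ z) * (χ z * Av R f z) ∂(gI ι) := by
  rw [int_av_mul_w hN hχ hi hf, ← integral_Av R (hN.mul (hχ.mul (eg_Av R hf)))]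
  refine integral_congr_ae (ae_of_all _ fun z => ?_)
  have hi2 : Ind R fun z => χ z * Av R f z := fun z w => by
    simp only
    rw [hi z w, ind_Av R f z w]
  have h1 := Av_mul (R := R) hi2 (fun z => Real.exp (Ψ z)) z
  simp only
  rw [show (fun z => Real.exp (Ψ z) * (χ z * Av R f z)) =
    fun z => (χ z * Av R f z) * Real.exp (Ψ z) from funext fun z => mul_comm _ _, h1]
  ring

/-- **law change, L2 form, fibered, with a weight** -/
theorem LF.lc2_w (h : LF R Ψ Ψ' l) (hl : 16 * l ^ 2 ≤ 1) {χ : (ι → ℝ) → ℝ} (hχ : EG χ)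
    (hi : Ind R χ) (hχ0 : ∀ z, 0 ≤ χ z) {f : (ι → ℝ) → ℝ} (hf : EG f) :
    |∫ z, Real.exp (Ψ z) * (χ z * f z) ∂(gI ι) -
        ∫ z, Av R (fun z => Real.exp (Ψ z)) z * (χ z * f z) ∂(gI ι)| ≤
      √(2 * √((∫ z, Real.exp (Ψ z) * χ z ∂(gI ι)) *
        ∫ z, Av R (fun z => Real.exp (Ψ z)) z *
          (χ z * (∑ e ∈ R, Ψ' e z ^ 2) ^ 2) ∂(gI ι))) *
      √(∫ z, Av R (fun z => Real.exp (Ψ z)) z * (χ z * f z ^ 2) ∂(gI ι)) := by
  set N : (ι → ℝ) → ℝ := fun z => Real.exp (Ψ z) with hN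
  have eN : EG N := h.en
  have eNb : EG (Av R N) := eg_Av R eN
  have pNb : ∀ z, 0 < Av R N z := h.av_pos
  have eM : EG fun z => χ z * Av R N z := hχ.mul eNb
  have pM : ∀ z, 0 ≤ χ z * Av R N z := fun z => mul_nonneg (hχ0 z) (pNb z).le
  set Q : (ι → ℝ) → ℝ := fun z => ∑ e ∈ R, Ψ' e z ^ 2 with hQ
  have eQ : EG Q := EG.sum _ fun e he => (h.eg e he).pow 2
  have eA : EG (Av R fun z => Q z ^ 2) := eg_Av R (eQ.pow 2)
  have eB : EG (Av R fun z => f z ^ 2) := eg_Av R (hf.pow 2)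
  have nA : ∀ z, 0 ≤ Av R (fun z => Q z ^ 2) z := fun z => integral_nonneg fun w => sq_nonneg _
  have nB : ∀ z, 0 ≤ Av R (fun z => f z ^ 2) z := fun z => integral_nonneg fun w => sq_nonneg _
  -- fiberwise
  have hfib : ∀ z, |Av R (fun z => N z * f z) z - Av R N z * Av R f z| ≤
      Av R N z * (√(2 * √(Av R (fun z => Q z ^ 2) z)) * √(Av R (fun z => f z ^ 2) z)) := by
    intro z
    have h1 := (h.lg z).lc2 hl (eg_sw hf R z)
    have h2 := h.av_mul f z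
    rw [h2, ← mul_sub, abs_mul, abs_of_pos (pNb z)]
    refine mul_le_mul_of_nonneg_left ?_ (pNb z).le
    refine h1.trans (le_of_eq ?_)
    simp only [LF.sum_ite]
    rfl
  -- the difference as one integral
  have e0 : ∫ z, N z * (χ z * f z) ∂(gI ι) = ∫ z, χ z * Av R (fun z => N z * f z) z ∂(gI ι) := by
    rw [← integral_Av R (eN.mul (hχ.mul hf))]
    refine integral_congr_ae (ae_of_all _ fun z => ?_)
    have h1 := Av_mul (R := R) hi (fun z => N z * f z) z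
    simp only
    rw [← h1]
    congr 1
    funext y
    ring
  have e1 : ∫ z, N z * (χ z * f z) ∂(gI ι) - ∫ z, Av R N z * (χ z * f z) ∂(gI ι) =
      ∫ z, χ z * (Av R (fun z => N z * f z) z - Av R N z * Av R f z) ∂(gI ι) := by
    have h2 : ∫ z, Av R N z * (χ z * f z) ∂(gI ι) =
        ∫ z, χ z * (Av R N z * Av R f z) ∂(gI ι) := by
      rw [int_av_mul_w eN hχ hi hf]
      refine integral_congr_ae (ae_of_all _ fun z => ?_)
      simp only
      ring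
    rw [e0, h2, ← integral_sub (hχ.mul (eg_Av R (eN.mul hf))).integrable
      (hχ.mul (eNb.mul (eg_Av R hf))).integrable]
    refine integral_congr_ae (ae_of_all _ fun z => ?_)
    simp only
    ring
  rw [e1]
  -- Cauchy-Schwarz
  set g1 : (ι → ℝ) → ℝ := fun z => √((χ z * Av R N z) * (2 * √(Av R (fun z => Q z ^ 2) z)))
    with hg1
  set g2 : (ι → ℝ) → ℝ := fun z => √((χ z * Av R N z) * Av R (fun z => f z ^ 2) z) with hg2
  have m1 : Measurable g1 :=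
    (eM.meas.mul (eA.meas.sqrt.const_mul 2)).sqrt
  have m2 : Measurable g2 := (eM.meas.mul eB.meas).sqrt
  have q1 : ∀ z, g1 z ^ 2 = 2 * (√(χ z * Av R N z) *
      √((χ z * Av R N z) * Av R (fun z => Q z ^ 2) z)) := by
    intro z
    rw [hg1]
    simp only
    rw [Real.sq_sqrt (mul_nonneg (pM z) (by positivity)),
      Real.sqrt_mul (pM z) (Av R (fun z => Q z ^ 2) z), ← mul_assoc (√(χ z * Av R N z)),
      Real.mul_self_sqrt (pM z)]
    ring
  have q2 : ∀ z, g2 z ^ 2 = (χ z * Av R N z) * Av R (fun z => f z ^ 2) z := fun z =>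
    Real.sq_sqrt (mul_nonneg (pM z) (nB z))
  have s1 : ∀ z, √(χ z * Av R N z) ^ 2 = χ z * Av R N z := fun z => Real.sq_sqrt (pM z)
  have s2 : ∀ z, √((χ z * Av R N z) * Av R (fun z => Q z ^ 2) z) ^ 2 =
      (χ z * Av R N z) * Av R (fun z => Q z ^ 2) z := fun z =>
    Real.sq_sqrt (mul_nonneg (pM z) (nA z))
  obtain ⟨k1, k2⟩ := int_mul_le (P := gI ι) (f := fun z => √(χ z * Av R N z))
    (g := fun z => √((χ z * Av R N z) * Av R (fun z => Q z ^ 2) z)) eM.meas.sqrt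
    (eM.meas.mul eA.meas).sqrt (by simp only [s1]; exact eM.integrable)
    (by simp only [s2]; exact (eM.mul eA).integrable)
  simp only [s1, s2] at k2
  have f1 : ∫ z, χ z * Av R N z ∂(gI ι) = ∫ z, N z * χ z ∂(gI ι) := by
    have := int_av_w (Ψ := Ψ) (R := R) eN hχ hi (EG.const 1)
    have e3 : ∀ z, Av R (fun _ => (1 : ℝ)) z = 1 := fun z => by
      unfold Av
      simp
    simp only [mul_one, e3] at this
    rw [← this]
    refine integral_congr_ae (ae_of_all _ fun z => ?_)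
    simp only
    rw [mul_comm]
  have f2 : ∫ z, (χ z * Av R N z) * Av R (fun z => Q z ^ 2) z ∂(gI ι) =
      ∫ z, Av R N z * (χ z * Q z ^ 2) ∂(gI ι) := by
    rw [int_av_mul_w eN hχ hi (eQ.pow 2)]
    refine integral_congr_ae (ae_of_all _ fun z => ?_)
    simp only
    ring
  have k3 : ∫ z, g1 z ^ 2 ∂(gI ι) ≤ 2 * √((∫ z, N z * χ z ∂(gI ι)) *
      ∫ z, Av R N z * (χ z * Q z ^ 2) ∂(gI ι)) := by
    simp only [q1]
    rw [integral_const_mul]
    refine mul_le_mul_of_nonneg_left (((le_abs_self _).trans k2).trans (le_of_eq ?_)) (by norm_num)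
    rw [f1, f2, Real.sqrt_mul]
    exact integral_nonneg fun z => mul_nonneg (Real.exp_pos _).le (hχ0 z)
  have k4 : ∫ z, g2 z ^ 2 ∂(gI ι) = ∫ z, Av R N z * (χ z * f z ^ 2) ∂(gI ι) := by
    simp only [q2]
    rw [int_av_mul_w eN hχ hi (hf.pow 2)]
    refine integral_congr_ae (ae_of_all _ fun z => ?_)
    simp only
    ring
  have i1 : Integrable (fun z => g1 z ^ 2) (gI ι) := by
    simp only [q1]; exact k1.const_mul 2
  have i2 : Integrable (fun z => g2 z ^ 2) (gI ι) := by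
    simp only [q2]; exact (eM.mul eB).integrable
  obtain ⟨k5, k6⟩ := int_mul_le (P := gI ι) m1 m2 i1 i2
  have e2 : ∀ z, χ z * (Av R N z *
      (√(2 * √(Av R (fun z => Q z ^ 2) z)) * √(Av R (fun z => f z ^ 2) z))) =
      g1 z * g2 z := by
    intro z
    rw [hg1, hg2]
    simp only
    rw [Real.sqrt_mul (pM z), Real.sqrt_mul (pM z)]
    have := Real.mul_self_sqrt (pM z)
    calc _ = (χ z * Av R N z) * (√(2 * √(Av R (fun z => Q z ^ 2) z)) *
          √(Av R (fun z => f z ^ 2) z)) := by ring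
      _ = (√(χ z * Av R N z) * √(χ z * Av R N z)) * (√(2 * √(Av R (fun z => Q z ^ 2) z)) *
          √(Av R (fun z => f z ^ 2) z)) := by rw [this]
      _ = _ := by ring
  calc |∫ z, χ z * (Av R (fun z => N z * f z) z - Av R N z * Av R f z) ∂(gI ι)|
      ≤ ∫ z, |χ z * (Av R (fun z => N z * f z) z - Av R N z * Av R f z)| ∂(gI ι) :=
        abs_integral_le_integral_abs
    _ ≤ ∫ z, g1 z * g2 z ∂(gI ι) := by
        refine integral_mono (hχ.mul
          ((eg_Av R (eN.mul hf)).sub (eNb.mul (eg_Av R hf)))).abs.integrable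
          k5 fun z => ?_
        rw [← e2 z, abs_mul, abs_of_nonneg (hχ0 z)]
        exact mul_le_mul_of_nonneg_left (hfib z) (hχ0 z)
    _ ≤ √(∫ z, g1 z ^ 2 ∂(gI ι)) * √(∫ z, g2 z ^ 2 ∂(gI ι)) := (le_abs_self _).trans k6
    _ ≤ _ := by
        rw [k4]
        exact mul_le_mul_of_nonneg_right (Real.sqrt_le_sqrt k3) (Real.sqrt_nonneg _)

/-- the quantities of the law change of one row -/
noncomputable def lcM (Ψ χ : (ι → ℝ) → ℝ) : ℝ := ∫ z, Real.exp (Ψ z) * χ z ∂(gI ι)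

/-- the quantities of the law change of one row: an integral with the row averaged out of the
density -/
noncomputable def lcA (R : Finset ι) (Ψ χ f : (ι → ℝ) → ℝ) : ℝ :=
  ∫ z, Av R (fun z => Real.exp (Ψ z)) z * (χ z * f z) ∂(gI ι)

lemma lcA_mono (h : LF R Ψ Ψ' l) {χ f g : (ι → ℝ) → ℝ} (hχ : EG χ) (hχ0 : ∀ z, 0 ≤ χ z)
    (hf : EG f) (hg : EG g) (hle : ∀ z, f z ≤ g z) : lcA R Ψ χ f ≤ lcA R Ψ χ g := by
  unfold lcA
  refine integral_mono ((eg_Av R h.en).mul (hχ.mul hf)).integrable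
    ((eg_Av R h.en).mul (hχ.mul hg)).integrable fun z => ?_
  exact mul_le_mul_of_nonneg_left (mul_le_mul_of_nonneg_left (hle z) (hχ0 z)) (h.av_pos z).le

lemma lcA_nonneg (h : LF R Ψ Ψ' l) {χ f : (ι → ℝ) → ℝ} (hχ0 : ∀ z, 0 ≤ χ z)
    (hf0 : ∀ z, 0 ≤ f z) : 0 ≤ lcA R Ψ χ f :=
  integral_nonneg fun z => mul_nonneg (h.av_pos z).le (mul_nonneg (hχ0 z) (hf0 z))

lemma lcM_nonneg {χ : (ι → ℝ) → ℝ} (hχ0 : ∀ z, 0 ≤ χ z) : 0 ≤ lcM Ψ χ :=
  integral_nonneg fun z => mul_nonneg (Real.exp_pos _).le (hχ0 z)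

lemma lcA_add (h : LF R Ψ Ψ' l) {χ f g : (ι → ℝ) → ℝ} (hχ : EG χ) (hf : EG f) (hg : EG g) :
    lcA R Ψ χ (fun z => f z + g z) = lcA R Ψ χ f + lcA R Ψ χ g := by
  unfold lcA
  rw [← integral_add ((eg_Av R h.en).mul (hχ.mul hf)).integrable
    ((eg_Av R h.en).mul (hχ.mul hg)).integrable]
  refine integral_congr_ae (ae_of_all _ fun z => ?_)
  simp only
  ring

lemma lcA_const_mul (c : ℝ) {χ f : (ι → ℝ) → ℝ} :
    lcA R Ψ χ (fun z => c * f z) = c * lcA R Ψ χ f := by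
  unfold lcA
  rw [← integral_const_mul]
  refine integral_congr_ae (ae_of_all _ fun z => ?_)
  simp only
  ring

/-- **the average over the row at a fixed bulk** -/
lemma lcA_eq (h : LF R Ψ Ψ' l) {χ f : (ι → ℝ) → ℝ} (hχ : EG χ) (hi : Ind R χ) (hf : EG f) :
    lcA R Ψ χ f = ∫ z, Real.exp (Ψ z) * (χ z * Av R f z) ∂(gI ι) :=
  int_av_w h.en hχ hi hf

/-- interpolation: the second moment by the first and the third -/
lemma lcA_sq_le (h : LF R Ψ Ψ' l) {χ X : (ι → ℝ) → ℝ} (hχ : EG χ) (hχ0 : ∀ z, 0 ≤ χ z)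
    (hX : EG X) (hX0 : ∀ z, 0 ≤ X z) :
    lcA R Ψ χ (fun z => X z ^ 2) ≤ √(lcA R Ψ χ X * lcA R Ψ χ (fun z => X z ^ 3)) := by
  have eN : EG (Av R fun z => Real.exp (Ψ z)) := eg_Av R h.en
  have pN : ∀ z, 0 ≤ Av R (fun z => Real.exp (Ψ z)) z := fun z => (h.av_pos z).le
  have e1 : EG fun z => Av R (fun z => Real.exp (Ψ z)) z * (χ z * X z) := eN.mul (hχ.mul hX)
  have e3 : EG fun z => Av R (fun z => Real.exp (Ψ z)) z * (χ z * X z ^ 3) :=
    eN.mul (hχ.mul (hX.pow 3))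
  have n1 : ∀ z, 0 ≤ Av R (fun z => Real.exp (Ψ z)) z * (χ z * X z) := fun z =>
    mul_nonneg (pN z) (mul_nonneg (hχ0 z) (hX0 z))
  have n3 : ∀ z, 0 ≤ Av R (fun z => Real.exp (Ψ z)) z * (χ z * X z ^ 3) := fun z =>
    mul_nonneg (pN z) (mul_nonneg (hχ0 z) (pow_nonneg (hX0 z) 3))
  have s1 : ∀ z, √(Av R (fun z => Real.exp (Ψ z)) z * (χ z * X z)) ^ 2 =
      Av R (fun z => Real.exp (Ψ z)) z * (χ z * X z) := fun z => Real.sq_sqrt (n1 z)
  have s3 : ∀ z, √(Av R (fun z => Real.exp (Ψ z)) z * (χ z * X z ^ 3)) ^ 2 =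
      Av R (fun z => Real.exp (Ψ z)) z * (χ z * X z ^ 3) := fun z => Real.sq_sqrt (n3 z)
  obtain ⟨k1, k2⟩ := int_mul_le (P := gI ι)
    (f := fun z => √(Av R (fun z => Real.exp (Ψ z)) z * (χ z * X z)))
    (g := fun z => √(Av R (fun z => Real.exp (Ψ z)) z * (χ z * X z ^ 3)))
    e1.meas.sqrt e3.meas.sqrt (by simp only [s1]; exact e1.integrable)
    (by simp only [s3]; exact e3.integrable)
  simp only [s1, s3] at k2
  have e2 : ∀ z, √(Av R (fun z => Real.exp (Ψ z)) z * (χ z * X z)) *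
      √(Av R (fun z => Real.exp (Ψ z)) z * (χ z * X z ^ 3)) =
      Av R (fun z => Real.exp (Ψ z)) z * (χ z * X z ^ 2) := by
    intro z
    rw [← Real.sqrt_mul (n1 z)]
    have : Av R (fun z => Real.exp (Ψ z)) z * (χ z * X z) *
        (Av R (fun z => Real.exp (Ψ z)) z * (χ z * X z ^ 3)) =
        (Av R (fun z => Real.exp (Ψ z)) z * (χ z * X z ^ 2)) ^ 2 := by ring
    rw [this, Real.sqrt_sq (mul_nonneg (pN z) (mul_nonneg (hχ0 z) (sq_nonneg _)))]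
  simp only [e2] at k2
  rw [← Real.sqrt_mul (integral_nonneg n1)] at k2
  exact (le_abs_self _).trans k2

/-- **law change of one row**, for a function bounded by `X` -/
theorem LF.lc_X (h : LF R Ψ Ψ' l) (hl : 16 * l ^ 2 ≤ 1) {χ : (ι → ℝ) → ℝ} (hχ : EG χ)
    (hi : Ind R χ) (hχ0 : ∀ z, 0 ≤ χ z) {f X : (ι → ℝ) → ℝ} (hf : EG f) (hX : EG X)
    (hfX : ∀ z, |f z| ≤ X z) :
    |∫ z, Real.exp (Ψ z) * (χ z * f z) ∂(gI ι) - lcA R Ψ χ f| ≤
      √(2 * √(lcM Ψ χ * lcA R Ψ χ (fun z => (∑ e ∈ R, Ψ' e z ^ 2) ^ 2))) *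
      √(√(lcA R Ψ χ X * lcA R Ψ χ (fun z => X z ^ 3))) := by
  have hX0 : ∀ z, 0 ≤ X z := fun z => (abs_nonneg _).trans (hfX z)
  refine (h.lc2_w hl hχ hi hχ0 hf).trans ?_
  refine mul_le_mul_of_nonneg_left (Real.sqrt_le_sqrt ?_) (Real.sqrt_nonneg _)
  refine le_trans ?_ (lcA_sq_le h hχ hχ0 hX hX0)
  exact lcA_mono h hχ hχ0 (hf.pow 2) (hX.pow 2) fun z => by
    rw [← sq_abs]
    exact pow_le_pow_left₀ (abs_nonneg _) (hfX z) 2

lemma sum_sqrt_mul_le {α : Type*} (s : Finset α) {a b : α → ℝ} (ha : ∀ i ∈ s, 0 ≤ a i)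
    (hb : ∀ i ∈ s, 0 ≤ b i) :
    ∑ i ∈ s, √(a i) * √(b i) ≤ √(∑ i ∈ s, a i) * √(∑ i ∈ s, b i) := by
  have h := Finset.sum_mul_sq_le_sq_mul_sq s (fun i => √(a i)) (fun i => √(b i))
  have e1 : ∑ i ∈ s, √(a i) ^ 2 = ∑ i ∈ s, a i :=
    Finset.sum_congr rfl fun i hi => Real.sq_sqrt (ha i hi)
  have e2 : ∑ i ∈ s, √(b i) ^ 2 = ∑ i ∈ s, b i :=
    Finset.sum_congr rfl fun i hi => Real.sq_sqrt (hb i hi)
  rw [e1, e2] at h
  rw [← Real.sqrt_mul (Finset.sum_nonneg ha)]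
  exact Real.le_sqrt_of_sq_le h

/-- **law change, sum over the rows** -/
theorem lc_sum {α : Type*} (s : Finset α) {R : α → Finset ι} (h : ∀ b ∈ s, LF (R b) Ψ Ψ' l)
    (hl : 16 * l ^ 2 ≤ 1) {χ : α → (ι → ℝ) → ℝ} (hχ : ∀ b ∈ s, EG (χ b))
    (hi : ∀ b ∈ s, Ind (R b) (χ b)) (hχ0 : ∀ b ∈ s, ∀ z, 0 ≤ χ b z)
    {f X : α → (ι → ℝ) → ℝ} (hf : ∀ b ∈ s, EG (f b)) (hX : ∀ b ∈ s, EG (X b))
    (hfX : ∀ b ∈ s, ∀ z, |f b z| ≤ X b z) :
    ∑ b ∈ s, |∫ z, Real.exp (Ψ z) * (χ b z * f b z) ∂(gI ι) - lcA (R b) Ψ (χ b) (f b)| ≤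
      √(2 * √((∑ b ∈ s, lcM Ψ (χ b)) *
        ∑ b ∈ s, lcA (R b) Ψ (χ b) (fun z => (∑ e ∈ R b, Ψ' e z ^ 2) ^ 2))) *
      √(√((∑ b ∈ s, lcA (R b) Ψ (χ b) (X b)) *
        ∑ b ∈ s, lcA (R b) Ψ (χ b) (fun z => X b z ^ 3))) := by
  have hX0 : ∀ b ∈ s, ∀ z, 0 ≤ X b z := fun b hb z => (abs_nonneg _).trans (hfX b hb z)
  have n0 : ∀ b ∈ s, 0 ≤ lcM Ψ (χ b) := fun b hb => lcM_nonneg (hχ0 b hb)
  have n4 : ∀ b ∈ s, 0 ≤ lcA (R b) Ψ (χ b) (fun z => (∑ e ∈ R b, Ψ' e z ^ 2) ^ 2) :=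
    fun b hb => lcA_nonneg (h b hb) (hχ0 b hb) fun z => sq_nonneg _
  have n1 : ∀ b ∈ s, 0 ≤ lcA (R b) Ψ (χ b) (X b) := fun b hb =>
    lcA_nonneg (h b hb) (hχ0 b hb) (hX0 b hb)
  have n3 : ∀ b ∈ s, 0 ≤ lcA (R b) Ψ (χ b) (fun z => X b z ^ 3) := fun b hb =>
    lcA_nonneg (h b hb) (hχ0 b hb) fun z => pow_nonneg (hX0 b hb z) 3
  refine (Finset.sum_le_sum fun b hb =>
    (h b hb).lc_X hl (hχ b hb) (hi b hb) (hχ0 b hb) (hf b hb) (hX b hb) (hfX b hb)).trans ?_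
  refine (sum_sqrt_mul_le s (fun b _ => by positivity) (fun b _ => Real.sqrt_nonneg _)).trans ?_
  refine mul_le_mul (Real.sqrt_le_sqrt ?_) (Real.sqrt_le_sqrt ?_) (Real.sqrt_nonneg _)
    (Real.sqrt_nonneg _)
  · rw [← Finset.mul_sum]
    refine mul_le_mul_of_nonneg_left ?_ (by norm_num)
    rw [Real.sqrt_mul (Finset.sum_nonneg n0)]
    refine le_trans (le_of_eq (Finset.sum_congr rfl fun b hb => ?_)) (sum_sqrt_mul_le s n0 n4)
    exact Real.sqrt_mul (n0 b hb) _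
  · rw [Real.sqrt_mul (Finset.sum_nonneg n1)]
    refine le_trans (le_of_eq (Finset.sum_congr rfl fun b hb => ?_)) (sum_sqrt_mul_le s n1 n3)
    exact Real.sqrt_mul (n1 b hb) _

end fib

end Vale.Agent.P146.H706
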