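import Vale.Agent.P146.H706G.LawNN
import Vale.Agent.P146.H706.LawC

/-!
P146, plan R2, row (F2), one-site form, [F2-LC]: the law change of the left side of (F2*), summed
over the rows: final form with levels.
-/

set_option linter.all false

open MeasureTheory ProbabilityTheory Finset

namespace Vale.Agent.P146.H706

open Vale.Agent.P157.Lv Vale.Agent.P146.H425 Vale.Agent.P146.H712 Vale.Agent.P146.R1

section fib

variable {ι : Type} [Fintype ι] [DecidableEq ι] {R : Finset ι} {Ψ : (ι → ℝ) → ℝ}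
  {Ψ' : ι → (ι → ℝ) → ℝ} {l : ℝ} {χ : (ι → ℝ) → ℝ}

/-- the mass does not change -/
lemma lcA_one (h : LF R Ψ Ψ' l) (hχ : EG χ) (hi : Ind R χ) :
    lcA R Ψ χ (fun _ => 1) = lcM Ψ χ := by
  rw [lcA_eq h hχ hi (EG.const 1)]
  unfold lcM Av
  simp

/-- the level lemma -/
lemma lcA_level (h : LF R Ψ Ψ' l) (hχ : EG χ) (hi : Ind R χ) (hχ0 : ∀ z, 0 ≤ χ z)
    {g : (ι → ℝ) → ℝ} (hg : EG g) (hg0 : ∀ z, 0 ≤ g z) {y K : ℝ} (hy : 0 ≤ y)
    (hK : ∀ z, g z ≤ K) (p : ℕ) :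
    lcA R Ψ χ (fun z => g z ^ p) ≤ y ^ p * lcM Ψ χ +
      K ^ p * lcA R Ψ χ (fun z => if y < g z then 1 else 0) := by
  have em : EG fun z => if y < g z then (1 : ℝ) else 0 := by
    refine EG.of_bdd (Measurable.ite (measurableSet_lt measurable_const hg.meas)
      measurable_const measurable_const) (C := 1) fun z => ?_
    split_ifs <;> simp
  rw [← lcA_one h hχ hi, ← lcA_const_mul, ← lcA_const_mul,
    ← lcA_add h hχ ((EG.const 1).const_mul _) (em.const_mul _)]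
  refine lcA_mono h hχ hχ0 (hg.pow p) (((EG.const 1).const_mul _).add (em.const_mul _))
    fun z => ?_
  have hK0 : 0 ≤ K := (hg0 z).trans (hK z)
  split_ifs with h1
  · have := pow_le_pow_left₀ (hg0 z) (hK z) p
    have : 0 ≤ y ^ p := pow_nonneg hy p
    linarith
  · have := pow_le_pow_left₀ (hg0 z) (not_lt.1 h1) p
    linarith

/-- transfer of a bounded function back to the law -/
lemma lcA_le_Im (h : LF R Ψ Ψ' l) (hχ : EG χ) (hi : Ind R χ) (hχ0 : ∀ z, 0 ≤ χ z)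
    (p : ℕ) (hp : ((p : ℝ) + 1) ^ 2 * l ^ 2 ≤ 1) {g : (ι → ℝ) → ℝ} (hg : EG g)
    (hg0 : ∀ z, 0 ≤ g z) {K : ℝ} (hK : ∀ z, χ z * g z ≤ K) :
    lcA R Ψ χ g ≤ 2 * lcM Ψ (fun z => χ z * g z) + 3 * K / 2 ^ p * lcM Ψ (fun _ => 1) := by
  rw [lcA_eq h hχ hi hg]
  have h1 := h.LC1' p hp (hχ.mul hg) (fun z => mul_nonneg (hχ0 z) (hg0 z)) hK
  have h2 : ∀ z, Av R (fun z => χ z * g z) z = χ z * Av R g z := fun z => Av_mul hi g z
  simp only [h2] at h1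
  unfold lcM
  simpa only [mul_one] using h1

/-- Young: `A N^(1/4)` against `ε N` -/
lemma young_lc {M0 M4 N1 N3 ε : ℝ} (h0 : 0 ≤ M0) (h4 : 0 ≤ M4) (h1 : 0 ≤ N1) (h3 : 0 ≤ N3)
    (hε : 0 < ε) :
    √(2 * √(M0 * M4)) * √(√(N1 * N3)) ≤ ε * N1 + (M0 * M4 * N3 / ε) ^ ((1 : ℝ) / 3) := by
  set T := √(2 * √(M0 * M4)) * √(√(N1 * N3)) with hT
  set Q := (M0 * M4 * N3 / ε) ^ ((1 : ℝ) / 3) with hQ
  have hT0 : 0 ≤ T := by positivity
  have hP : 0 ≤ M0 * M4 * N3 / ε := by positivity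
  have hQ0 : 0 ≤ Q := Real.rpow_nonneg hP _
  have hQ3 : Q ^ 3 = M0 * M4 * N3 / ε := by
    rw [hQ, ← Real.rpow_natCast, ← Real.rpow_mul hP]
    norm_num
  have hT4 : T ^ 4 = 4 * (M0 * M4) * (N1 * N3) := by
    have e1 : √(2 * √(M0 * M4)) ^ 4 = 4 * (M0 * M4) := by
      have a1 : √(2 * √(M0 * M4)) ^ 2 = 2 * √(M0 * M4) := Real.sq_sqrt (by positivity)
      have a2 : √(M0 * M4) ^ 2 = M0 * M4 := Real.sq_sqrt (by positivity)
      calc √(2 * √(M0 * M4)) ^ 4 = (√(2 * √(M0 * M4)) ^ 2) ^ 2 := by ring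
        _ = 4 * √(M0 * M4) ^ 2 := by rw [a1]; ring
        _ = _ := by rw [a2]
    have e2 : √(√(N1 * N3)) ^ 4 = N1 * N3 := by
      have a1 : √(√(N1 * N3)) ^ 2 = √(N1 * N3) := Real.sq_sqrt (by positivity)
      have a2 : √(N1 * N3) ^ 2 = N1 * N3 := Real.sq_sqrt (by positivity)
      calc √(√(N1 * N3)) ^ 4 = (√(√(N1 * N3)) ^ 2) ^ 2 := by ring
        _ = _ := by rw [a1, a2]
    rw [hT, mul_pow, e1, e2]
  have hT5 : T ^ 4 = 4 * (ε * N1) * Q ^ 3 := by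
    rw [hT4, hQ3]
    field_simp
  by_contra hc
  have hc' : ε * N1 + Q < T := lt_of_not_ge hc
  have hu : 0 ≤ ε * N1 := by positivity
  set u := ε * N1
  have h6 : (u + Q) ^ 4 < T ^ 4 := pow_lt_pow_left₀ hc' (by positivity) (by norm_num)
  rw [hT5] at h6
  have : 4 * u * Q ^ 3 ≤ (u + Q) ^ 4 := by
    have a1 : (u + Q) ^ 4 = 4 * u * Q ^ 3 + (u ^ 4 + 4 * u ^ 3 * Q + 6 * u ^ 2 * Q ^ 2 + Q ^ 4) := by
      ring
    have a2 : 0 ≤ u ^ 4 + 4 * u ^ 3 * Q + 6 * u ^ 2 * Q ^ 2 + Q ^ 4 := by positivity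
    linarith
  linarith

end fib

end Vale.Agent.P146.H706

namespace Vale.Agent.P146.R1S

open Vale.Agent.P157.Lv Vale.Agent.P146.H425 Vale.Agent.P146.H325 Vale.Agent.P146.H332
  Vale.Agent.P146.H712 Vale.Agent.P146.R1 Vale.Agent.P146.R1C Vale.Agent.P146.H706
  Vale.Agent.P146.H191 Vale.Agent.P146.H350

variable {n : ℕ} {k β : ℝ} {q : Par} {G : GD (Pair n)} {S : CS n k q.x} {b : Fin n}
  {χ : (K4 (Pair n) → ℝ) → ℝ} {M1 M2 : MF n}

/-- fourth moments of the gradient of the density in one row -/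
theorem m4_row (hq : q.OkS) (hG : G.Ok) (hr : GRow k q G) (hs2 : 0 < q.s2) (hχ : EG χ)
    (hi : Ind (lf (row b)) χ) (h0 : ∀ w, 0 ≤ χ w) :
    lcA (lf (row b)) (psiG q G S.F) χ
        (fun w => (∑ j ∈ lf (row b), psiG' q G S.F S.D j w ^ 2) ^ 2) ≤
      27 * (q.x ^ 4 * (8 * k ^ 4 * (lcM (psiG q G S.F) χ + 18 *
          lcA (lf (row b)) (psiG q G S.F) χ
            (fun w => (k ^ 2 * fr (S.A q.s2 (P3 q w))) ^ 2))) +
        (lcA (lf (row b)) (psiG q G S.F) χ (fun w => gr1 q G (row b) w ^ 2) +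
          lcA (lf (row b)) (psiG q G S.F) χ (fun w => gr0 q G (row b) w ^ 2))) := by
  have hlf := lf_row_SG S hq hG hr b
  set φ : (K4 (Pair n) → ℝ) → ℝ :=
    fun w => Av (lf (row b)) (fun z => Real.exp (psiG q G S.F z)) w * χ w with hφd
  have eφ : EG φ := (eg_Av _ hlf.en).mul hχ
  have nφ : ∀ w, 0 ≤ φ w := fun w => mul_nonneg (hlf.av_pos w).le (h0 w)
  have iφ : Ind (lf (row b)) φ := fun z w => by
    simp only [hφd]
    rw [ind_Av _ _ z w, hi z w]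
  have key := psiG_four_le (R := row b) S.c11 hq hG eφ nφ
  have ev : EG fun w => vn (H816.col (S.A q.s2 (P3 q w)) b) := eg_P3 (eg_vn_col_S S q.s2 b)
  have ef : EG fun w : K4 (Pair n) → ℝ => k ^ 2 * fr (S.A q.s2 (P3 q w)) := by
    unfold fr
    exact (EG.sum _ fun i _ => EG.sum _ fun j _ => (eg_P3 (S.eg_A q.s2 i j)).pow 2).const_mul _
  have kk3 : ∫ w, φ w * grF q.x q.s2 S.F S.D (row b) (P3 q w) ^ 2 ∂(gI (K4 (Pair n))) ≤
      4 * k ^ 4 * ∫ w, φ w * vn (H816.col (S.A q.s2 (P3 q w)) b) ^ 2 ∂(gI (K4 (Pair n))) := by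
    rw [← integral_const_mul]
    refine integral_mono (eφ.mul ((eg_P3 (eg_grF S.c11 hq.x0 q.s2)).pow 2)).integrable
      ((eφ.mul (ev.pow 2)).integrable.const_mul _) fun w => ?_
    have h2 := grF_rows S q.s2 b b (P3 q w)
    rw [Finset.union_self] at h2
    have h3 := grF_nonneg (F := S.F) (D := S.D) (R := row b) q.x q.s2 (P3 q w)
    have h4 := pow_le_pow_left₀ h3 h2 2
    have := mul_le_mul_of_nonneg_left h4 (nφ w)
    show φ w * grF q.x q.s2 S.F S.D (row b) (P3 q w) ^ 2 ≤ 4 * k ^ 4 *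
      (φ w * vn (H816.col (S.A q.s2 (P3 q w)) b) ^ 2)
    refine this.trans (le_of_eq ?_)
    ring
  have kk4 : ∫ w, φ w * vn (H816.col (S.A q.s2 (P3 q w)) b) ^ 2 ∂(gI (K4 (Pair n))) ≤
      2 * ((∫ w, φ w ∂(gI (K4 (Pair n)))) +
        18 * ∫ w, φ w * (k ^ 2 * fr (S.A q.s2 (P3 q w))) ^ 2 ∂(gI (K4 (Pair n)))) := by
    have h1 := full_gen (b := b) S (k3 q) eφ nφ (s := q.s2) (p := 2) (C := 18) (a := 2)
      (fun u hu => by nlinarith [sq_nonneg (1 - u)]) (by norm_num)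
      (int_gen S (k3 q) eφ nφ iφ (cm2 S (k3 q) (Vale.Agent.P146.H326.k3_sum_s hq) hs2))
    have e1 : ∀ w : K4 (Pair n) → ℝ, H712.lp (k3 q) w = P3 q w := fun w => (P3_lp w).symm
    simp only [e1] at h1
    refine h1.trans ?_
    have h2 : ∫ w, φ w * (q.s2 * (k ^ 2 * fr (S.A q.s2 (P3 q w)))) ^ 2 ∂(gI (K4 (Pair n))) ≤
        ∫ w, φ w * (k ^ 2 * fr (S.A q.s2 (P3 q w))) ^ 2 ∂(gI (K4 (Pair n))) := by
      refine integral_mono (eφ.mul ((ef.const_mul _).pow 2)).integrable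
        (eφ.mul (ef.pow 2)).integrable fun w => ?_
      refine mul_le_mul_of_nonneg_left ?_ (nφ w)
      have f0 := H325.fr_nonneg (S.A q.s2 (P3 q w))
      have f1 : 0 ≤ k ^ 2 * fr (S.A q.s2 (P3 q w)) := by positivity
      refine pow_le_pow_left₀ (by positivity) ?_ 2
      calc q.s2 * (k ^ 2 * fr (S.A q.s2 (P3 q w))) ≤ 1 * (k ^ 2 * fr (S.A q.s2 (P3 q w))) :=
            mul_le_mul_of_nonneg_right hq.h2 f1
        _ = _ := one_mul _
    linarith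
  have e0 : ∫ w, φ w ∂(gI (K4 (Pair n))) = lcM (psiG q G S.F) χ := by
    rw [← lcA_one hlf hχ hi, lcA_int]
    simp only [mul_one, hφd]
  rw [lcA_int, lcA_int, lcA_int, lcA_int]
  have kk : 0 ≤ k ^ 4 := by positivity
  have xx : 0 ≤ q.x ^ 4 := by positivity
  have k5 := mul_le_mul_of_nonneg_left kk4 (by positivity : 0 ≤ 4 * k ^ 4)
  have k6 := mul_le_mul_of_nonneg_left (kk3.trans k5) xx
  rw [e0] at k6
  refine key.trans ?_
  have k7 : q.x ^ 4 * (4 * k ^ 4 * (2 * (lcM (psiG q G S.F) χ + 18 *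
      ∫ w, φ w * (k ^ 2 * fr (S.A q.s2 (P3 q w))) ^ 2 ∂(gI (K4 (Pair n)))))) =
      q.x ^ 4 * (8 * k ^ 4 * (lcM (psiG q G S.F) χ + 18 *
      ∫ w, φ w * (k ^ 2 * fr (S.A q.s2 (P3 q w))) ^ 2 ∂(gI (K4 (Pair n))))) := by ring
  rw [k7] at k6
  simp only [hφd] at k6 ⊢
  linarith


/-- the functional of the left side of (F2*), with the factor `r` (561's `n3row` without drift) -/
noncomputable def g3 (r : ℝ) (M1 M2 : Fin n → Fin n → ℝ) (N1 N2 : Fin n → ℝ) : ℝ :=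
  dt (mv M2 N1) (mv M2 N1) + r * dt (mv M1 N2) (mv M1 N2) - 2 * dt (mv M1 N1) (mv M2 N2)

lemma abs_g3_le {r : ℝ} (h0 : 0 ≤ r) (h1 : r ≤ 1) (M1 M2 : Fin n → Fin n → ℝ)
    (N1 N2 : Fin n → ℝ) : |g3 r M1 M2 N1 N2| ≤ x2 M1 M2 N1 N2 := by
  have a1 := dt_mv_le M2 N1
  have a2 := dt_mv_le M1 N2
  have b1 := dt_mv_le M1 N1
  have b2 := dt_mv_le M2 N2
  have c1 := dt_self_nonneg (mv M2 N1)
  have c2 := dt_self_nonneg (mv M1 N2)
  have c3 := dt_self_nonneg (mv M1 N1)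
  have c4 := dt_self_nonneg (mv M2 N2)
  have hc := dt_sq_le (mv M1 N1) (mv M2 N2)
  have r1 : 0 ≤ r * dt (mv M1 N2) (mv M1 N2) := mul_nonneg h0 c2
  have r2 : r * dt (mv M1 N2) (mv M1 N2) ≤ dt (mv M1 N2) (mv M1 N2) := by nlinarith
  unfold g3 x2
  set m1 := ∑ i, ∑ l, M1 i l ^ 2
  set m2 := ∑ i, ∑ l, M2 i l ^ 2
  set n1 := ∑ i, N1 i ^ 2
  set n2 := ∑ i, N2 i ^ 2
  have h1 : 0 ≤ m1 := Finset.sum_nonneg fun _ _ => Finset.sum_nonneg fun _ _ => sq_nonneg _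
  have h2 : 0 ≤ m2 := Finset.sum_nonneg fun _ _ => Finset.sum_nonneg fun _ _ => sq_nonneg _
  have h3 : 0 ≤ n1 := Finset.sum_nonneg fun _ _ => sq_nonneg _
  have h4 : 0 ≤ n2 := Finset.sum_nonneg fun _ _ => sq_nonneg _
  have h5 : dt (mv M1 N1) (mv M2 N2) ^ 2 ≤ (m1 * n1) * (m2 * n2) :=
    hc.trans (mul_le_mul b1 b2 c4 (by positivity))
  have h6 : |2 * dt (mv M1 N1) (mv M2 N2)| ≤ m2 * n1 + m1 * n2 := by
    refine abs_le_of_sq_le_sq ?_ (by positivity)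
    nlinarith [sq_nonneg (m2 * n1 - m1 * n2)]
  obtain ⟨h7, h8⟩ := abs_le.1 h6
  rw [abs_le]
  have h9 : (0 : ℝ) ≤ m2 * n1 := by positivity
  have h10 : (0 : ℝ) ≤ m1 * n2 := by positivity
  constructor <;> linarith

lemma eg_mv {M : MF n} {f : (K4 (Pair n) → ℝ) → Fin n → ℝ} (hM : ∀ i l, EG fun w => M w i l)
    (hf : ∀ i, EG fun w => f w i) (i : Fin n) : EG fun w => mv (M w) (f w) i :=
  EG.sum _ fun j _ => (hM i j).mul (hf j)

lemma eg_dt {f g : (K4 (Pair n) → ℝ) → Fin n → ℝ} (hf : ∀ i, EG fun w => f w i)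
    (hg : ∀ i, EG fun w => g w i) : EG fun w => dt (f w) (g w) :=
  EG.sum _ fun i _ => (hf i).mul (hg i)

lemma eg_Nv (S : CS n k q.x) {s : ℝ} {a : Fin 4 → ℝ} {M : MF n}
    (hM : ∀ i l, EG fun w => M w i l) (i : Fin n) : EG fun w => Nv S s a β b M w i := by
  show EG (Nr a k b (fun w i l => M w i l / β) (Uz S s b) i)
  exact eg_Nr (S := S) (fun i l => by simpa [div_eq_mul_inv, mul_comm] using (hM i l).const_mul β⁻¹) i

/-- the functional in the row `b` -/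
noncomputable def g3r (S : CS n k q.x) (β r : ℝ) (b : Fin n) (M1 M2 : MF n)
    (w : K4 (Pair n) → ℝ) : ℝ :=
  g3 r (M1 w) (M2 w) (Nv S q.s1 (k2 q) β b M1 w) (Nv S q.s2 (k3 q) β b M2 w)

lemma eg_g3r (r : ℝ) (h : Fzn b χ M1 M2) : EG (g3r S β r b M1 M2) := by
  unfold g3r g3
  have n1 : ∀ i, EG fun w => Nv S q.s1 (k2 q) β b M1 w i := eg_Nv S h.e1
  have n2 : ∀ i, EG fun w => Nv S q.s2 (k3 q) β b M2 w i := eg_Nv S h.e2
  exact ((eg_dt (eg_mv h.e2 n1) (eg_mv h.e2 n1)).add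
    ((eg_dt (eg_mv h.e1 n2) (eg_mv h.e1 n2)).const_mul r)).sub
    ((eg_dt (eg_mv h.e1 n1) (eg_mv h.e2 n2)).const_mul 2)

/-- the bad mass -/
noncomputable def zP (S : CS n k q.x) (G : GD (Pair n)) (β y : ℝ)
    (χ : Fin n → (K4 (Pair n) → ℝ) → ℝ) (M1 M2 : Fin n → MF n) : ℝ :=
  ∑ b, lcA (lf (row b)) (psiG q G S.F) (χ b)
    (fun w => if y < zz S β (M1 b) (M2 b) w then 1 else 0)

/-- the total mass -/
noncomputable def zM (S : CS n k q.x) (G : GD (Pair n))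
    (χ : Fin n → (K4 (Pair n) → ℝ) → ℝ) : ℝ := ∑ b, lcM (psiG q G S.F) (χ b)

/-- the fourth moments of the gradients -/
noncomputable def z4 (S : CS n k q.x) (G : GD (Pair n)) (β y K Mg : ℝ)
    (χ : Fin n → (K4 (Pair n) → ℝ) → ℝ) (M1 M2 : Fin n → MF n) : ℝ :=
  216 * q.x ^ 4 * k ^ 4 *
    (zM S G χ + 18 * (y ^ 2 * zM S G χ + K ^ 2 * zP S G β y χ M1 M2) + Mg)

/-- the sixth moments -/
noncomputable def z3 (S : CS n k q.x) (G : GD (Pair n)) (β y K : ℝ)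
    (χ : Fin n → (K4 (Pair n) → ℝ) → ℝ) (M1 M2 : Fin n → MF n) : ℝ :=
  625664 * ((β / k) ^ 2) ^ 3 * (y ^ 6 * zM S G χ + K ^ 6 * zP S G β y χ M1 M2)

/-- **[F2-LC]** law change, sum over the rows, of functions bounded by the squares of the rests -/
theorem f2_lc (hβ : 0 < β) (hq : q.OkS) (hG : G.Ok) (hr : GRow k q G)
    (hl : 288 * q.x ^ 2 * k ^ 2 * n ≤ 1) (hs1 : 0 < q.s1)
    {χ : Fin n → (K4 (Pair n) → ℝ) → ℝ} {M1 M2 : Fin n → MF n}
    (h : ∀ b, Fzn b (χ b) (M1 b) (M2 b))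
    {f : Fin n → (K4 (Pair n) → ℝ) → ℝ} (hf : ∀ b, EG (f b))
    (hfX : ∀ b w, |f b w| ≤ xr S β b (M1 b) (M2 b) w)
    {y K Mg : ℝ} (hy : 0 ≤ y) (hK : ∀ b w, zz S β (M1 b) (M2 b) w ≤ K)
    (hMg : ∑ b, (lcA (lf (row b)) (psiG q G S.F) (χ b) (fun w => gr1 q G (row b) w ^ 2) +
      lcA (lf (row b)) (psiG q G S.F) (χ b) (fun w => gr0 q G (row b) w ^ 2)) ≤
        8 * q.x ^ 4 * k ^ 4 * Mg) :
    ∑ b, |Im (densG q G S.F) (fun w => χ b w * f b w) -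
        lcA (lf (row b)) (psiG q G S.F) (χ b) (f b)| ≤
      √(2 * √(zM S G χ * z4 S G β y K Mg χ M1 M2)) *
      √(√((∑ b, lcA (lf (row b)) (psiG q G S.F) (χ b) (xr S β b (M1 b) (M2 b))) *
        z3 S G β y K χ M1 M2)) := by
  have hk : 0 < k := S.k0
  have hs2 : 0 < q.s2 := hs1.trans_le hq.h12
  have hlf : ∀ b, LF (lf (row b)) (psiG q G S.F) (psiG' q G S.F S.D)
      (√(18 * q.x ^ 2 * k ^ 2 * n)) := fun b => lf_row_SG S hq hG hr b
  have key := lc_sum (Finset.univ : Finset (Fin n)) (R := fun b => lf (row b))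
    (Ψ := psiG q G S.F) (Ψ' := psiG' q G S.F S.D) (fun b _ => hlf b) (hl_row hl)
    (χ := χ) (fun b _ => (h b).eχ) (fun b _ => (h b).iχ) (fun b _ => (h b).χ0)
    (f := f) (X := fun b => xr S β b (M1 b) (M2 b)) (fun b _ => hf b)
    (fun b _ => eg_xr (h b)) (fun b _ => hfX b)
  have e0 : ∀ b, Im (densG q G S.F) (fun w => χ b w * f b w) =
      ∫ z, Real.exp (psiG q G S.F z) * (χ b z * f b z) ∂(gI (K4 (Pair n))) := fun b => rfl
  simp only [e0]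
  refine key.trans ?_
  have z0 : ∀ b w, 0 ≤ zz S β (M1 b) (M2 b) w := fun b w => zz_nonneg S β _ _ w
  have l6 : ∀ b, lcA (lf (row b)) (psiG q G S.F) (χ b)
      (fun w => zz S β (M1 b) (M2 b) w ^ 6) ≤ y ^ 6 * lcM (psiG q G S.F) (χ b) + K ^ 6 *
        lcA (lf (row b)) (psiG q G S.F) (χ b)
          (fun w => if y < zz S β (M1 b) (M2 b) w then 1 else 0) := fun b =>
    lcA_level (hlf b) (h b).eχ (h b).iχ (h b).χ0 (eg_zz (h b)) (z0 b) hy (hK b) 6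
  have l2 : ∀ b, lcA (lf (row b)) (psiG q G S.F) (χ b)
      (fun w => zz S β (M1 b) (M2 b) w ^ 2) ≤ y ^ 2 * lcM (psiG q G S.F) (χ b) + K ^ 2 *
        lcA (lf (row b)) (psiG q G S.F) (χ b)
          (fun w => if y < zz S β (M1 b) (M2 b) w then 1 else 0) := fun b =>
    lcA_level (hlf b) (h b).eχ (h b).iχ (h b).χ0 (eg_zz (h b)) (z0 b) hy (hK b) 2
  have b3 : ∑ b, lcA (lf (row b)) (psiG q G S.F) (χ b)
      (fun w => xr S β b (M1 b) (M2 b) w ^ 3) ≤ z3 S G β y K χ M1 M2 := by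
    have c0 : 0 ≤ 625664 * ((β / k) ^ 2) ^ 3 := by positivity
    refine (Finset.sum_le_sum fun b _ => (xr_cube hβ hk hq hG hr hs1 (h b)).trans
      (mul_le_mul_of_nonneg_left (l6 b) c0)).trans (le_of_eq ?_)
    unfold z3 zM zP
    rw [← Finset.mul_sum, Finset.sum_add_distrib, ← Finset.mul_sum, ← Finset.mul_sum]
  have b4 : ∑ b, lcA (lf (row b)) (psiG q G S.F) (χ b)
      (fun w => (∑ j ∈ lf (row b), psiG' q G S.F S.D j w ^ 2) ^ 2) ≤
        z4 S G β y K Mg χ M1 M2 := by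
    have f2 : ∀ b, lcA (lf (row b)) (psiG q G S.F) (χ b)
        (fun w => (k ^ 2 * fr (S.A q.s2 (P3 q w))) ^ 2) ≤
        lcA (lf (row b)) (psiG q G S.F) (χ b) (fun w => zz S β (M1 b) (M2 b) w ^ 2) := by
      intro b
      have ef : EG fun w : K4 (Pair n) → ℝ => k ^ 2 * fr (S.A q.s2 (P3 q w)) := by
        unfold fr
        exact (EG.sum _ fun i _ => EG.sum _ fun j _ =>
          (eg_P3 (S.eg_A q.s2 i j)).pow 2).const_mul _
      refine lcA_mono (hlf b) (h b).eχ (h b).χ0 (ef.pow 2) ((eg_zz (h b)).pow 2) fun w => ?_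
      have g1 := H325.fr_nonneg (S.A q.s2 (P3 q w))
      refine pow_le_pow_left₀ (by positivity) ?_ 2
      unfold zz
      have g2 := H325.fr_nonneg (S.A q.s1 (P2 q w))
      have g3 := fq_nonneg (M1 b) w
      have g4 := fq_nonneg (M2 b) w
      have g5 : 0 ≤ k ^ 2 * fr (S.A q.s1 (P2 q w)) := by positivity
      have g6 : 0 ≤ (k / β) ^ 2 * (fq (M1 b) w + fq (M2 b) w) := by positivity
      nlinarith
    have hx : 0 ≤ 27 * (q.x ^ 4 * (8 * k ^ 4)) := by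
      have := pow_pos hq.x0 4
      positivity
    have m4 : ∀ b, lcA (lf (row b)) (psiG q G S.F) (χ b)
        (fun w => (∑ j ∈ lf (row b), psiG' q G S.F S.D j w ^ 2) ^ 2) ≤
        27 * (q.x ^ 4 * (8 * k ^ 4)) * (lcM (psiG q G S.F) (χ b) + 18 *
          (y ^ 2 * lcM (psiG q G S.F) (χ b) + K ^ 2 *
            lcA (lf (row b)) (psiG q G S.F) (χ b)
              (fun w => if y < zz S β (M1 b) (M2 b) w then 1 else 0))) +
        27 * (lcA (lf (row b)) (psiG q G S.F) (χ b) (fun w => gr1 q G (row b) w ^ 2) +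
          lcA (lf (row b)) (psiG q G S.F) (χ b) (fun w => gr0 q G (row b) w ^ 2)) := by
      intro b
      have h1 := m4_row (S := S) hq hG hr hs2 (h b).eχ (h b).iχ (h b).χ0
      have h2 := (f2 b).trans (l2 b)
      have h3 := mul_le_mul_of_nonneg_left h2 (by norm_num : (0 : ℝ) ≤ 18)
      have h4 := mul_le_mul_of_nonneg_left (add_le_add (le_refl (lcM (psiG q G S.F) (χ b))) h3) hx
      refine h1.trans ?_
      refine le_trans (le_of_eq ?_) (add_le_add h4 le_rfl)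
      ring
    refine (Finset.sum_le_sum fun b _ => m4 b).trans ?_
    rw [Finset.sum_add_distrib, ← Finset.mul_sum, ← Finset.mul_sum]
    have h5 := mul_le_mul_of_nonneg_left hMg (by norm_num : (0 : ℝ) ≤ 27)
    refine (add_le_add le_rfl h5).trans (le_of_eq ?_)
    unfold z4 zM zP
    rw [Finset.sum_add_distrib, ← Finset.mul_sum, Finset.sum_add_distrib, ← Finset.mul_sum,
      ← Finset.mul_sum]
    ring
  have n0 : 0 ≤ ∑ b, lcM (psiG q G S.F) (χ b) :=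
    Finset.sum_nonneg fun b _ => lcM_nonneg (h b).χ0
  have n1 : 0 ≤ ∑ b, lcA (lf (row b)) (psiG q G S.F) (χ b) (xr S β b (M1 b) (M2 b)) :=
    Finset.sum_nonneg fun b _ => lcA_nonneg (hlf b) (h b).χ0 fun w => x2_nonneg _ _ _ _
  refine mul_le_mul (Real.sqrt_le_sqrt (mul_le_mul_of_nonneg_left (Real.sqrt_le_sqrt
    (mul_le_mul_of_nonneg_left b4 n0)) (by norm_num))) (Real.sqrt_le_sqrt (Real.sqrt_le_sqrt
    (mul_le_mul_of_nonneg_left b3 n1))) (Real.sqrt_nonneg _) (Real.sqrt_nonneg _)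


lemma zM_nonneg (S : CS n k q.x) (G : GD (Pair n)) {χ : Fin n → (K4 (Pair n) → ℝ) → ℝ}
    (h : ∀ b w, 0 ≤ χ b w) : 0 ≤ zM S G χ :=
  Finset.sum_nonneg fun b _ => lcM_nonneg (h b)

lemma zM_eq (S : CS n k q.x) (G : GD (Pair n)) (χ : Fin n → (K4 (Pair n) → ℝ) → ℝ) :
    zM S G χ = ∑ b, Im (densG q G S.F) (χ b) := rfl

/-- the bad mass back under the law -/
theorem zP_le (hq : q.OkS) (hG : G.Ok) (hr : GRow k q G) (p : ℕ)
    (hp : ((p : ℝ) + 1) ^ 2 * (18 * q.x ^ 2 * k ^ 2 * n) ≤ 1)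
    {χ : Fin n → (K4 (Pair n) → ℝ) → ℝ} {M1 M2 : Fin n → MF n}
    (h : ∀ b, Fzn b (χ b) (M1 b) (M2 b)) {y Kχ : ℝ} (hK : ∀ b w, χ b w ≤ Kχ) :
    zP S G β y χ M1 M2 ≤ 2 * ∑ b, Im (densG q G S.F)
        (fun w => χ b w * if y < zz S β (M1 b) (M2 b) w then 1 else 0) +
      3 * (n * Kχ) / 2 ^ p * EwG q G S.F (fun _ => 1) := by
  have hlf : ∀ b, LF (lf (row b)) (psiG q G S.F) (psiG' q G S.F S.D)
      (√(18 * q.x ^ 2 * k ^ 2 * n)) := fun b => lf_row_SG S hq hG hr b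
  have hn : 0 ≤ 18 * q.x ^ 2 * k ^ 2 * n := by positivity
  have e : √(18 * q.x ^ 2 * k ^ 2 * n) ^ 2 = 18 * q.x ^ 2 * k ^ 2 * n := Real.sq_sqrt hn
  have one : ∀ b, lcA (lf (row b)) (psiG q G S.F) (χ b)
      (fun w => if y < zz S β (M1 b) (M2 b) w then 1 else 0) ≤
      2 * Im (densG q G S.F) (fun w => χ b w * if y < zz S β (M1 b) (M2 b) w then 1 else 0) +
        3 * Kχ / 2 ^ p * EwG q G S.F (fun _ => 1) := by
    intro b
    have em : EG fun w => if y < zz S β (M1 b) (M2 b) w then (1 : ℝ) else 0 := by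
      refine EG.of_bdd (Measurable.ite (measurableSet_lt measurable_const (eg_zz (h b)).meas)
        measurable_const measurable_const) (C := 1) fun z => ?_
      split_ifs <;> simp
    have h1 := lcA_le_Im (hlf b) (h b).eχ (h b).iχ (h b).χ0 p (by rw [e]; exact hp) em
      (fun w => by split_ifs <;> norm_num) (K := Kχ) (fun w => by
        have := (h b).χ0 w
        split_ifs
        · rw [mul_one]; exact hK b w
        · rw [mul_zero]; exact this.trans (hK b w))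
    refine h1.trans (le_of_eq ?_)
    unfold lcM Im EwG
    simp only [mul_one, densG_eq]
  refine (Finset.sum_le_sum fun b _ => one b).trans (le_of_eq ?_)
  rw [Finset.sum_add_distrib, ← Finset.mul_sum, Finset.sum_const, Finset.card_univ,
    Fintype.card_fin, nsmul_eq_mul]
  ring

/-- **[F2-LC]**, Young form -/
theorem f2_lc_young (hβ : 0 < β) (hq : q.OkS) (hG : G.Ok) (hr : GRow k q G)
    (hl : 288 * q.x ^ 2 * k ^ 2 * n ≤ 1) (hs1 : 0 < q.s1)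
    {χ : Fin n → (K4 (Pair n) → ℝ) → ℝ} {M1 M2 : Fin n → MF n}
    (h : ∀ b, Fzn b (χ b) (M1 b) (M2 b))
    {f : Fin n → (K4 (Pair n) → ℝ) → ℝ} (hf : ∀ b, EG (f b))
    (hfX : ∀ b w, |f b w| ≤ xr S β b (M1 b) (M2 b) w)
    {y K Mg ε : ℝ} (hy : 0 ≤ y) (hK0 : 0 ≤ K) (hMg0 : 0 ≤ Mg) (hε : 0 < ε)
    (hK : ∀ b w, zz S β (M1 b) (M2 b) w ≤ K)
    (hMg : ∑ b, (lcA (lf (row b)) (psiG q G S.F) (χ b) (fun w => gr1 q G (row b) w ^ 2) +
      lcA (lf (row b)) (psiG q G S.F) (χ b) (fun w => gr0 q G (row b) w ^ 2)) ≤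
        8 * q.x ^ 4 * k ^ 4 * Mg) :
    ∑ b, |Im (densG q G S.F) (fun w => χ b w * f b w) -
        lcA (lf (row b)) (psiG q G S.F) (χ b) (f b)| ≤
      ε * (∑ b, lcA (lf (row b)) (psiG q G S.F) (χ b) (xr S β b (M1 b) (M2 b))) +
      (zM S G χ * z4 S G β y K Mg χ M1 M2 * z3 S G β y K χ M1 M2 / ε) ^ ((1 : ℝ) / 3) := by
  have hk : 0 < k := S.k0
  have hlf : ∀ b, LF (lf (row b)) (psiG q G S.F) (psiG' q G S.F S.D)
      (√(18 * q.x ^ 2 * k ^ 2 * n)) := fun b => lf_row_SG S hq hG hr b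
  have hM := zM_nonneg S G fun b w => (h b).χ0 w
  have hP : 0 ≤ zP S G β y χ M1 M2 := Finset.sum_nonneg fun b _ =>
    lcA_nonneg (hlf b) (h b).χ0 fun w => by split_ifs <;> norm_num
  have h4 : 0 ≤ z4 S G β y K Mg χ M1 M2 := by
    have := pow_pos hq.x0 4
    unfold z4
    positivity
  have h3 : 0 ≤ z3 S G β y K χ M1 M2 := by
    unfold z3
    positivity
  refine (f2_lc hβ hq hG hr hl hs1 h hf hfX hy hK hMg).trans
    (young_lc hM h4 (Finset.sum_nonneg fun b _ => lcA_nonneg (hlf b) (h b).χ0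
      fun w => x2_nonneg _ _ _ _) h3 hε)

/-- **[F2-LC]** for the left side of (F2*) itself -/
theorem f2_lc_g3 (hβ : 0 < β) (hq : q.OkS) (hG : G.Ok) (hr : GRow k q G)
    (hl : 288 * q.x ^ 2 * k ^ 2 * n ≤ 1) (hs1 : 0 < q.s1)
    {χ : Fin n → (K4 (Pair n) → ℝ) → ℝ} {M1 M2 : Fin n → MF n}
    (h : ∀ b, Fzn b (χ b) (M1 b) (M2 b)) {r : ℝ} (hr0 : 0 ≤ r) (hr1 : r ≤ 1)
    {y K Mg ε : ℝ} (hy : 0 ≤ y) (hK0 : 0 ≤ K) (hMg0 : 0 ≤ Mg) (hε : 0 < ε)
    (hK : ∀ b w, zz S β (M1 b) (M2 b) w ≤ K)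
    (hMg : ∑ b, (lcA (lf (row b)) (psiG q G S.F) (χ b) (fun w => gr1 q G (row b) w ^ 2) +
      lcA (lf (row b)) (psiG q G S.F) (χ b) (fun w => gr0 q G (row b) w ^ 2)) ≤
        8 * q.x ^ 4 * k ^ 4 * Mg) :
    ∑ b, |Im (densG q G S.F) (fun w => χ b w * g3r S β r b (M1 b) (M2 b) w) -
        lcA (lf (row b)) (psiG q G S.F) (χ b) (g3r S β r b (M1 b) (M2 b))| ≤
      ε * (∑ b, lcA (lf (row b)) (psiG q G S.F) (χ b) (xr S β b (M1 b) (M2 b))) +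
      (zM S G χ * z4 S G β y K Mg χ M1 M2 * z3 S G β y K χ M1 M2 / ε) ^ ((1 : ℝ) / 3) :=
  f2_lc_young hβ hq hG hr hl hs1 h (fun b => eg_g3r r (h b))
    (fun b w => abs_g3_le hr0 hr1 _ _ _ _) hy hK0 hMg0 hε hK hMg

end Vale.Agent.P146.R1S
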