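import Vale.Agent.P146.H191.F1S
import Vale.Agent.P146.H941.McolS
import Vale.Agent.P146.H706G.LawT
import Vale.Agent.P146.H706G.LawN

/-!
P146, plan R2, row (F2), one-site form: the moments of the rests `N = U - k L y` of a row over the
Gaussian row, and the law change of the products `<N1, Z N2>` summed over the rows.
-/

set_option linter.all false

open MeasureTheory ProbabilityTheory Finset

namespace Vale.Agent.P146.R1S

open Vale.Agent.P157.Lv Vale.Agent.P146.H425 Vale.Agent.P146.H325 Vale.Agent.P146.H332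
  Vale.Agent.P146.H712 Vale.Agent.P146.R1 Vale.Agent.P146.R1C Vale.Agent.P146.H706
  Vale.Agent.P146.H191
open Vale.Agent.P146.H326 (mom1 mom2 mom3 mom4)

variable {n : ℕ} {k x s : ℝ} {b : Fin n} {S : CS n k x} {a : Fin 4 → ℝ} {L : MF n}

/-- squared Frobenius norm of a matrix of functions -/
noncomputable def fq (L : MF n) (w : K4 (Pair n) → ℝ) : ℝ := ∑ i, ∑ l, L w i l ^ 2

lemma fq_nonneg (L : MF n) (w : K4 (Pair n) → ℝ) : 0 ≤ fq L w :=
  Finset.sum_nonneg fun _ _ => Finset.sum_nonneg fun _ _ => sq_nonneg _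

lemma eg_fq (hL : ∀ i l, EG fun w => L w i l) : EG (fq L) :=
  EG.sum _ fun i _ => EG.sum _ fun l _ => (hL i l).pow 2

/-- the entries do not depend on the row `b` -/
def Ifz (b : Fin n) (L : MF n) : Prop := ∀ i l, Ind (lf (row b)) fun w => L w i l

lemma Uc_eq (i : Fin n) (w : K4 (Pair n) → ℝ) : Uc S s a b i w = Uz S s b i (H712.lp a w) := rfl

/-- the derivatives of the rest in its row -/
noncomputable def Nr' (S : CS n k x) (s : ℝ) (a : Fin 4 → ℝ) (b : Fin n) (L : MF n) (i : Fin n)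
    (j : K4 (Pair n)) (w : K4 (Pair n) → ℝ) : ℝ :=
  Uc' S s a b i j w - k * (a (bl j) * L w i (oth b (bs j)))

lemma eg_Nr (hL : ∀ i l, EG fun w => L w i l) (i : Fin n) :
    EG (Nr a k b L (Uz S s b) i) := by
  unfold Nr
  exact (eg_lp a (eg_Uz S s b i)).sub ((eg_Ly hL i).const_mul _)

lemma eg_Nr' (hL : ∀ i l, EG fun w => L w i l) (i : Fin n) (j : K4 (Pair n)) :
    EG (Nr' S s a b L i j) := by
  unfold Nr'
  exact (eg_Uc' S a i j).sub (((hL i _).const_mul _).const_mul _)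

lemma pd_Ly (hL : ∀ i l, EG fun w => L w i l) (hi : Ifz b L) (i : Fin n) {j : K4 (Pair n)}
    (hj : j ∈ lf (row b)) :
    PD j (Ly a b L i) fun w => a (bl j) * L w i (oth b (bs j)) := by
  have hjb : bs j ∈ row b := mem_lf_bs.1 hj
  have h1 : PD j (fun w => ∑ e ∈ row b, L w i (oth b e) * H712.lp a w e) fun w =>
      ∑ e ∈ row b, (0 * H712.lp a w e + L w i (oth b e) *
        (a (bl j) * (if e = bs j then 1 else 0))) := by
    refine PD.sum _ fun e _ => ?_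
    exact ((Fr.of_ind (hi i (oth b e))) j hjb).mul (pd_lp a (PD.coord e))
  refine h1.congr fun w => ?_
  simp only [zero_mul, zero_add]
  rw [Finset.sum_eq_single (bs j)]
  · simp only [if_true]; ring
  · intro e _ he
    rw [if_neg he]
    ring
  · intro h
    exact absurd hjb h

lemma pd_Nr (hL : ∀ i l, EG fun w => L w i l) (hi : Ifz b L) (i : Fin n) {j : K4 (Pair n)}
    (hj : j ∈ lf (row b)) : PD j (Nr a k b L (Uz S s b) i) (Nr' S s a b L i j) := by
  have h1 : PD j (Uc S s a b i) (Uc' S s a b i j) := pd_Uc S a i j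
  exact h1.sub ((pd_Ly hL hi i hj).const_mul k)

lemma Av_lp {e : Pair n} (he : e ∈ row b) (w : K4 (Pair n) → ℝ) :
    Av (lf (row b)) (fun w => H712.lp a w e) w = 0 := by
  have h1 : ∀ v : K4 (Pair n) → ℝ, H712.lp a (sw (lf (row b)) w v) e =
      a 0 * v (Sum.inl e) + a 1 * v (Sum.inr (Sum.inl e)) +
        a 2 * v (Sum.inr (Sum.inr (Sum.inl e))) + a 3 * v (Sum.inr (Sum.inr (Sum.inr e))) := by
    intro v
    have m : ∀ j : K4 (Pair n), bs j = e → sw (lf (row b)) w v j = v j := fun j hj => by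
      unfold sw
      rw [if_pos (mem_lf_bs.2 (by rw [hj]; exact he))]
    simp only [H712.lp]
    rw [m _ rfl, m _ rfl, m _ rfl, m _ rfl]
  have ec : ∀ j : K4 (Pair n), EG fun v : K4 (Pair n) → ℝ => v j := fun j => EG.coord j
  show ∫ v, H712.lp a (sw (lf (row b)) w v) e ∂(gI (K4 (Pair n))) = 0
  simp only [h1]
  rw [integral_add (((((ec _).const_mul _).add ((ec _).const_mul _)).add
      ((ec _).const_mul _)).integrable) ((ec _).const_mul _).integrable,
    integral_add (((ec _).const_mul _).add ((ec _).const_mul _)).integrable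
      ((ec _).const_mul _).integrable,
    integral_add ((ec _).const_mul _).integrable ((ec _).const_mul _).integrable,
    integral_const_mul, integral_const_mul, integral_const_mul, integral_const_mul]
  simp only [H425.int_coord]
  ring

lemma Av_Ly (hL : ∀ i l, EG fun w => L w i l) (hi : Ifz b L) (i : Fin n)
    (w : K4 (Pair n) → ℝ) : Av (lf (row b)) (Ly a b L i) w = 0 := by
  unfold Ly
  rw [Av_sum _ fun e _ => (hL i _).mul (eg_lp a (EG.coord e))]
  refine Finset.sum_eq_zero fun e he => ?_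
  rw [Av_mul (hi i (oth b e)), Av_lp he, mul_zero]

lemma Av_Nr (hL : ∀ i l, EG fun w => L w i l) (hi : Ifz b L) (i : Fin n)
    (w : K4 (Pair n) → ℝ) : Av (lf (row b)) (Nr a k b L (Uz S s b) i) w = 0 := by
  have h1 : Av (lf (row b)) (fun w => Uc S s a b i w - k * Ly a b L i w) w =
      Av (lf (row b)) (Uc S s a b i) w - k * Av (lf (row b)) (Ly a b L i) w := by
    rw [Av_sub (eg_Uc S a i) ((eg_Ly hL i).const_mul k), Av_const_mul]
  have h2 : Av (lf (row b)) (Nr a k b L (Uz S s b) i) w =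
    Av (lf (row b)) (fun w => Uc S s a b i w - k * Ly a b L i w) w := rfl
  rw [h2, h1, Av_Uc, Av_Ly hL hi]
  ring

variable (hcs : a 0 ^ 2 + a 1 ^ 2 + a 2 ^ 2 + a 3 ^ 2 = s) (hs : 0 < s)
include hcs hs

lemma sum_Nr'_le (w : K4 (Pair n) → ℝ) :
    ∑ i, ∑ j ∈ lf (row b), Nr' S s a b L i j w ^ 2 ≤
      2 * (s * (k ^ 2 * (fr (S.A s (H712.lp a w)) + fq L w))) := by
  have h1 := sum_Uc'_le (b := b) S a hcs hs w
  have h2 : ∀ i, ∑ j ∈ lf (row b), (a (bl j) * L w i (oth b (bs j))) ^ 2 ≤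
      s * ∑ l, L w i l ^ 2 := by
    intro i
    rw [sum_lp_sq a (row b) fun e => L w i (oth b e), hcs]
    refine mul_le_mul_of_nonneg_left ?_ hs.le
    rw [sum_row b (fun l => L w i l ^ 2)]
    exact Finset.sum_le_sum_of_subset_of_nonneg (Finset.erase_subset _ _)
      fun l _ _ => sq_nonneg _
  have h3 : ∑ i, ∑ j ∈ lf (row b), Nr' S s a b L i j w ^ 2 ≤
      ∑ i, ∑ j ∈ lf (row b), (2 * Uc' S s a b i j w ^ 2 +
        2 * k ^ 2 * (a (bl j) * L w i (oth b (bs j))) ^ 2) := by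
    refine Finset.sum_le_sum fun i _ => Finset.sum_le_sum fun j _ => ?_
    unfold Nr'
    nlinarith [sq_nonneg (Uc' S s a b i j w + k * (a (bl j) * L w i (oth b (bs j))))]
  refine h3.trans ?_
  simp only [Finset.sum_add_distrib, ← Finset.mul_sum]
  have h4 : ∑ i, ∑ j ∈ lf (row b), (a (bl j) * L w i (oth b (bs j))) ^ 2 ≤ s * fq L w := by
    unfold fq
    rw [Finset.mul_sum]
    exact Finset.sum_le_sum fun i _ => h2 i
  have h5 := mul_le_mul_of_nonneg_left h4 (by positivity : 0 ≤ 2 * k ^ 2)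
  nlinarith

omit hcs hs in
lemma eg_YL (hL : ∀ i l, EG fun w => L w i l) :
    EG fun w : K4 (Pair n) → ℝ => 2 * (s * (k ^ 2 * (fr (S.A s (H712.lp a w)) + fq L w))) := by
  unfold fr
  exact (((((EG.sum _ fun i _ => EG.sum _ fun j _ => (eg_lp a (S.eg_A s i j)).pow 2).add
    (eg_fq hL))).const_mul _).const_mul _).const_mul _

lemma nr_gen (hL : ∀ i l, EG fun w => L w i l) {p : ℕ} {C : ℝ} (hC : 0 ≤ C)
    (h : ∀ z, Av (lf (row b)) (fun w => (∑ i, Nr a k b L (Uz S s b) i w ^ 2) ^ p) z ≤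
      C * Av (lf (row b)) (fun w => (∑ i, ∑ j ∈ lf (row b), Nr' S s a b L i j w ^ 2) ^ p) z)
    {φ : (K4 (Pair n) → ℝ) → ℝ} (hφ : EG φ) (h0 : ∀ w, 0 ≤ φ w) (hi : Ind (lf (row b)) φ) :
    ∫ w, φ w * (∑ i, Nr a k b L (Uz S s b) i w ^ 2) ^ p ∂(gI (K4 (Pair n))) ≤
      C * ∫ w, φ w * (2 * (s * (k ^ 2 * (fr (S.A s (H712.lp a w)) + fq L w)))) ^ p
        ∂(gI (K4 (Pair n))) := by
  have e1 : EG fun w => (∑ i, Nr a k b L (Uz S s b) i w ^ 2) ^ p :=
    (EG.sum _ fun i _ => (eg_Nr hL i).pow 2).pow p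
  have e2 : EG fun w : K4 (Pair n) → ℝ =>
      (2 * (s * (k ^ 2 * (fr (S.A s (H712.lp a w)) + fq L w)))) ^ p := (eg_YL hL).pow p
  rw [integral_weight hφ hi e1, integral_weight hφ hi e2, ← integral_const_mul]
  refine integral_mono (hφ.mul (eg_Av _ e1)).integrable
    ((hφ.mul (eg_Av _ e2)).integrable.const_mul C) fun w => ?_
  have h2 : Av (lf (row b)) (fun w => (∑ i, ∑ j ∈ lf (row b), Nr' S s a b L i j w ^ 2) ^ p) w ≤
      Av (lf (row b)) (fun w => (2 * (s * (k ^ 2 * (fr (S.A s (H712.lp a w)) + fq L w)))) ^ p) w :=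
    Av_mono ((EG.sum _ fun i _ => EG.sum _ fun j _ => (eg_Nr' hL i j).pow 2).pow p) e2
      (fun w => pow_le_pow_left₀
        (Finset.sum_nonneg fun i _ => Finset.sum_nonneg fun j _ => sq_nonneg _)
        (sum_Nr'_le hcs hs w) p) w
  have h3 := mul_le_mul_of_nonneg_left ((h w).trans (mul_le_mul_of_nonneg_left h2 hC)) (h0 w)
  calc _ ≤ _ := h3
    _ = _ := by ring

/-- **second moments of the rest** -/
theorem nr_mom1 (hL : ∀ i l, EG fun w => L w i l) (hiL : Ifz b L)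
    {φ : (K4 (Pair n) → ℝ) → ℝ} (hφ : EG φ) (h0 : ∀ w, 0 ≤ φ w) (hi : Ind (lf (row b)) φ) :
    ∫ w, φ w * (∑ i, Nr a k b L (Uz S s b) i w ^ 2) ^ 1 ∂(gI (K4 (Pair n))) ≤
      1 * ∫ w, φ w * (2 * (s * (k ^ 2 * (fr (S.A s (H712.lp a w)) + fq L w)))) ^ 1
        ∂(gI (K4 (Pair n))) := by
  refine nr_gen hcs hs hL zero_le_one (fun z => ?_) hφ h0 hi
  simp only [pow_one, one_mul]
  exact mom1 (eg_Nr hL) (fun i j hj => pd_Nr hL hiL i hj) (eg_Nr' hL) z
    fun i => Av_Nr hL hiL i z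

/-- **fourth moments of the rest** -/
theorem nr_mom2 (hL : ∀ i l, EG fun w => L w i l) (hiL : Ifz b L)
    {φ : (K4 (Pair n) → ℝ) → ℝ} (hφ : EG φ) (h0 : ∀ w, 0 ≤ φ w) (hi : Ind (lf (row b)) φ) :
    ∫ w, φ w * (∑ i, Nr a k b L (Uz S s b) i w ^ 2) ^ 2 ∂(gI (K4 (Pair n))) ≤
      18 * ∫ w, φ w * (2 * (s * (k ^ 2 * (fr (S.A s (H712.lp a w)) + fq L w)))) ^ 2
        ∂(gI (K4 (Pair n))) :=
  nr_gen hcs hs hL (by norm_num) (fun z => mom2 (eg_Nr hL) (fun i j hj => pd_Nr hL hiL i hj)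
    (eg_Nr' hL) z fun i => Av_Nr hL hiL i z) hφ h0 hi

/-- **sixth moments of the rest** -/
theorem nr_mom3 (hL : ∀ i l, EG fun w => L w i l) (hiL : Ifz b L)
    {φ : (K4 (Pair n) → ℝ) → ℝ} (hφ : EG φ) (h0 : ∀ w, 0 ≤ φ w) (hi : Ind (lf (row b)) φ) :
    ∫ w, φ w * (∑ i, Nr a k b L (Uz S s b) i w ^ 2) ^ 3 ∂(gI (K4 (Pair n))) ≤
      1222 * ∫ w, φ w * (2 * (s * (k ^ 2 * (fr (S.A s (H712.lp a w)) + fq L w)))) ^ 3
        ∂(gI (K4 (Pair n))) :=
  nr_gen hcs hs hL (by norm_num) (fun z => mom3 (eg_Nr hL) (fun i j hj => pd_Nr hL hiL i hj)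
    (eg_Nr' hL) z fun i => Av_Nr hL hiL i z) hφ h0 hi

end Vale.Agent.P146.R1S
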