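import Vale.Agent.P146.H706G.Xr

/-!
P146, plan R2, row (F2), one-site form: **the number of the law change**, from a level of the
sizes and their rarities.
-/

set_option linter.all false

open MeasureTheory ProbabilityTheory Finset Matrix

namespace Vale.Agent.P146.R1S

open Vale.Agent.P157.Lv Vale.Agent.P146.H425 Vale.Agent.P146.H325 Vale.Agent.P146.H332
  Vale.Agent.P146.H712 Vale.Agent.P146.R1 Vale.Agent.P146.R1C Vale.Agent.P146.H706
  Vale.Agent.P146.H191 Vale.Agent.P146.H633 Vale.Agent.P146.H522 Vale.Agent.P146.Cum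
open Vale.Agent.P146.H364 (Cb Pb Mb Cb_T Cb_self Cb_col eg_Cb ind_Cb Cb_comm)

variable {n : ℕ} {k x β : ℝ} {q : Par} {b : Fin n}

/-! ### algebra -/

section alg

variable {G : GD (Pair n)} {S : CS n k q.x} {χ : Fin n → (K4 (Pair n) → ℝ) → ℝ}
  {M1 M2 : Fin n → MF n}

/-- the total of the dominating function -/
noncomputable def zX (S : CS n k q.x) (G : GD (Pair n)) (β : ℝ)
    (χ : Fin n → (K4 (Pair n) → ℝ) → ℝ) (M1 M2 : Fin n → MF n) : ℝ :=
  ∑ b, lcA (lf (row b)) (psiG q G S.F) (χ b) (xr S β b (M1 b) (M2 b))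

/-- without the cube root -/
lemma lcE_le {y K Mg ε T : ℝ} (hε : 0 < ε) (hT : 0 ≤ T)
    (h0 : 0 ≤ zM S G χ * z4 S G β y K Mg χ M1 M2 * z3 S G β y K χ M1 M2)
    (h : zM S G χ * z4 S G β y K Mg χ M1 M2 * z3 S G β y K χ M1 M2 ≤ ε * T ^ 3) :
    lcE S G β y K Mg ε χ M1 M2 ≤ ε * zX S G β χ M1 M2 + T := by
  unfold lcE zX
  refine add_le_add le_rfl ?_
  have h1 : zM S G χ * z4 S G β y K Mg χ M1 M2 * z3 S G β y K χ M1 M2 / ε ≤ T ^ 3 := by
    rw [div_le_iff₀ hε]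
    linarith
  refine (Real.rpow_le_rpow (div_nonneg h0 hε.le) h1 (by norm_num)).trans (le_of_eq ?_)
  rw [← Real.rpow_natCast, ← Real.rpow_mul hT]
  norm_num

/-- **the law change from the numbers**: mass `Z`, level `y`, bad mass, gradients -/
theorem lcE_num {y K Mg ε Z w : ℝ} (hx : 0 < q.x) (hk : 0 < k) (hβ : 0 < β) (hε : 0 < ε)
    (hw : 0 ≤ w) (hy : 1 ≤ y) (hyK : y ≤ K) (hM0 : 0 ≤ zM S G χ) (hM : zM S G χ ≤ Z)
    (hP0 : 0 ≤ zP S G β y χ M1 M2) (hP : K ^ 6 * zP S G β y χ M1 M2 ≤ y ^ 2 * Z)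
    (hMg0 : 0 ≤ Mg) (hMg : Mg ≤ y ^ 2 * Z)
    (hwx : q.x ^ 4 * k ^ 4 * y ^ 2 ≤ ε * w ^ 3) :
    lcE S G β y K Mg ε χ M1 M2 ≤ ε * zX S G β χ M1 M2 +
      2200 * (β / k) ^ 2 * y ^ 2 * Z * w := by
  have hZ : 0 ≤ Z := hM0.trans hM
  have y0 : 0 < y := by linarith
  have K1 : 1 ≤ K := hy.trans hyK
  have hK2 : K ^ 2 * zP S G β y χ M1 M2 ≤ y ^ 2 * Z := by
    refine le_trans (mul_le_mul_of_nonneg_right ?_ hP0) hP
    exact pow_le_pow_right₀ K1 (by norm_num)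
  have y2 : 1 ≤ y ^ 2 := one_le_pow₀ hy
  have hx4 : 0 < q.x ^ 4 := pow_pos hx 4
  have hk4 : 0 < k ^ 4 := pow_pos hk 4
  -- `z4`
  have b4 : z4 S G β y K Mg χ M1 M2 ≤ 8208 * q.x ^ 4 * k ^ 4 * (y ^ 2 * Z) := by
    unfold z4
    have c1 : zM S G χ ≤ y ^ 2 * Z := by nlinarith
    have c2 : y ^ 2 * zM S G χ ≤ y ^ 2 * Z := mul_le_mul_of_nonneg_left hM (by positivity)
    have c3 : zM S G χ + 18 * (y ^ 2 * zM S G χ + K ^ 2 * zP S G β y χ M1 M2) + Mg ≤
        38 * (y ^ 2 * Z) := by linarith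
    refine (mul_le_mul_of_nonneg_left c3 (by positivity)).trans (le_of_eq ?_)
    ring
  have n4 : 0 ≤ z4 S G β y K Mg χ M1 M2 := by
    unfold z4
    positivity
  -- `z3`
  have b3 : z3 S G β y K χ M1 M2 ≤ 1251328 * ((β / k) ^ 2) ^ 3 * (y ^ 6 * Z) := by
    unfold z3
    have c1 : y ^ 6 * zM S G χ ≤ y ^ 6 * Z := mul_le_mul_of_nonneg_left hM (by positivity)
    have c2 : y ^ 2 * Z ≤ y ^ 6 * Z :=
      mul_le_mul_of_nonneg_right (pow_le_pow_right₀ hy (by norm_num)) hZ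
    have c3 : y ^ 6 * zM S G χ + K ^ 6 * zP S G β y χ M1 M2 ≤ 2 * (y ^ 6 * Z) := by linarith
    refine (mul_le_mul_of_nonneg_left c3 (by positivity)).trans (le_of_eq ?_)
    ring
  have n3 : 0 ≤ z3 S G β y K χ M1 M2 := by
    unfold z3
    positivity
  refine lcE_le hε (by positivity) (mul_nonneg (mul_nonneg hM0 n4) n3) ?_
  refine (mul_le_mul (mul_le_mul hM b4 n4 hZ) b3 n3 (by positivity)).trans ?_
  have c : 0 ≤ 8208 * 1251328 * ((β / k) ^ 2) ^ 3 * y ^ 6 * Z ^ 3 := by positivity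
  have c1 := mul_le_mul_of_nonneg_left hwx c
  have c2 : 0 ≤ ε * (((β / k) ^ 2) ^ 3 * y ^ 6 * Z ^ 3 * w ^ 3) := by positivity
  calc Z * (8208 * q.x ^ 4 * k ^ 4 * (y ^ 2 * Z)) * (1251328 * ((β / k) ^ 2) ^ 3 * (y ^ 6 * Z))
      = 8208 * 1251328 * ((β / k) ^ 2) ^ 3 * y ^ 6 * Z ^ 3 * (q.x ^ 4 * k ^ 4 * y ^ 2) := by ring
    _ ≤ 8208 * 1251328 * ((β / k) ^ 2) ^ 3 * y ^ 6 * Z ^ 3 * (ε * w ^ 3) := c1
    _ = 8208 * 1251328 * (ε * (((β / k) ^ 2) ^ 3 * y ^ 6 * Z ^ 3 * w ^ 3)) := by ring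
    _ ≤ 2200 ^ 3 * (ε * (((β / k) ^ 2) ^ 3 * y ^ 6 * Z ^ 3 * w ^ 3)) :=
        mul_le_mul_of_nonneg_right (by norm_num) c2
    _ = ε * (2200 * (β / k) ^ 2 * y ^ 2 * Z * w) ^ 3 := by ring

end alg

/-! ### the bad mass -/

lemma eg_ind {f : (K4 (Pair n) → ℝ) → ℝ} (hf : EG f) (L : ℝ) :
    EG fun w => if L < f w then (1 : ℝ) else 0 := by
  refine EG.of_bdd (Measurable.ite (measurableSet_lt measurable_const hf.meas)
    measurable_const measurable_const) (C := 1) fun z => ?_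
  split_ifs <;> simp

lemma eg_frA (S : CS n k x) (s : ℝ) (a : Fin 4 → ℝ) :
    EG fun w : K4 (Pair n) → ℝ => fr (S.A s (H712.lp a w)) := by
  unfold fr
  exact EG.sum _ fun i _ => EG.sum _ fun j _ => (eg_lp a (S.eg_A s i j)).pow 2

/-- Jensen -/
lemma fr_Cb_le (S : CS n k x) (s : ℝ) (a : Fin 4 → ℝ) (b : Fin n) (w : K4 (Pair n) → ℝ) :
    fq (Cb S s a b) w ≤ Av (lf (row b)) (fun w => fr (S.A s (H712.lp a w))) w := by
  have e : ∀ i j, EG fun w : K4 (Pair n) → ℝ => S.A s (H712.lp a w) i j :=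
    fun i j => eg_lp a (S.eg_A s i j)
  have e1 : Av (lf (row b)) (fun w => fr (S.A s (H712.lp a w))) w =
      ∑ i, ∑ j, Av (lf (row b)) (fun w => S.A s (H712.lp a w) i j ^ 2) w := by
    unfold fr
    rw [Av_sum _ fun i _ => EG.sum _ fun j _ => (e i j).pow 2]
    exact Finset.sum_congr rfl fun i _ => Av_sum _ (fun j _ => (e i j).pow 2) w
  rw [e1]
  unfold fq
  refine Finset.sum_le_sum fun i _ => Finset.sum_le_sum fun j _ => ?_
  unfold Cb
  split_ifs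
  · rw [zero_pow two_ne_zero]
    exact Av_nonneg (fun z => sq_nonneg _) w
  · exact Av_sq_le (e i j) w

/-- the indicator for the frozen matrix -/
lemma ind_Cb_le (S : CS n k x) (s : ℝ) (a : Fin 4 → ℝ) (b : Fin n) {L : ℝ} (hL : 0 < L)
    (w : K4 (Pair n) → ℝ) :
    (if 2 * L < fq (Cb S s a b) w then (1 : ℝ) else 0) ≤ (n : ℝ) ^ 2 / L *
      Av (lf (row b)) (fun w => if L < fr (S.A s (H712.lp a w)) then 1 else 0) w := by
  have eA := eg_frA S s a
  have eI := eg_ind eA L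
  have hI : 0 ≤ Av (lf (row b)) (fun w => if L < fr (S.A s (H712.lp a w)) then 1 else 0) w :=
    Av_nonneg (fun z => by split_ifs <;> norm_num) w
  split_ifs with h
  · have h1 := fr_Cb_le S s a b w
    have h2 : Av (lf (row b)) (fun w => fr (S.A s (H712.lp a w))) w ≤
        Av (lf (row b)) (fun w => L + (n : ℝ) ^ 2 *
          (if L < fr (S.A s (H712.lp a w)) then 1 else 0)) w := by
      refine Av_mono eA ((EG.const L).add (eI.const_mul _)) (fun z => ?_) w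
      have h3 := S.fr_A_le s (H712.lp a z)
      have h4 := H325.fr_nonneg (S.A s (H712.lp a z))
      split_ifs with h5
      · linarith
      · push Not at h5
        linarith
    rw [Av_add (EG.const L) (eI.const_mul _), Av_const, Av_const_mul] at h2
    rw [div_mul_eq_mul_div, le_div_iff₀ hL]
    linarith
  · positivity

/-- the level of `zz` -/
noncomputable def yL (k β L : ℝ) : ℝ := 4 * (k ^ 2 + (k / β) ^ 2) * L

/-- the indicator of `zz > y` -/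
lemma ind_zz_le (S : CS n k q.x) (β : ℝ) (b : Fin n) {L : ℝ} (hL : 0 < L)
    (w : K4 (Pair n) → ℝ) :
    (if yL k β L < zz S β (Cb S q.s1 (k2 q) b) (Cb S q.s2 (k3 q) b) w then (1 : ℝ) else 0) ≤
      (if L < fr (S.A q.s1 (P2 q w)) then 1 else 0) +
      (if L < fr (S.A q.s2 (P3 q w)) then 1 else 0) +
      ((if 2 * L < fq (Cb S q.s1 (k2 q) b) w then 1 else 0) +
       (if 2 * L < fq (Cb S q.s2 (k3 q) b) w then 1 else 0)) := by
  by_cases h1 : L < fr (S.A q.s1 (P2 q w))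
  · have : (0 : ℝ) ≤ (if L < fr (S.A q.s2 (P3 q w)) then 1 else 0) := by split_ifs <;> norm_num
    have : (0 : ℝ) ≤ (if 2 * L < fq (Cb S q.s1 (k2 q) b) w then 1 else 0) := by
      split_ifs <;> norm_num
    have : (0 : ℝ) ≤ (if 2 * L < fq (Cb S q.s2 (k3 q) b) w then 1 else 0) := by
      split_ifs <;> norm_num
    rw [if_pos h1]
    split_ifs <;> linarith
  by_cases h2 : L < fr (S.A q.s2 (P3 q w))
  · have : (0 : ℝ) ≤ (if 2 * L < fq (Cb S q.s1 (k2 q) b) w then 1 else 0) := by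
      split_ifs <;> norm_num
    have : (0 : ℝ) ≤ (if 2 * L < fq (Cb S q.s2 (k3 q) b) w then 1 else 0) := by
      split_ifs <;> norm_num
    rw [if_pos h2, if_neg h1]
    split_ifs <;> linarith
  by_cases h3 : 2 * L < fq (Cb S q.s1 (k2 q) b) w
  · rw [if_pos h3, if_neg h1, if_neg h2]
    split_ifs <;> norm_num
  by_cases h4 : 2 * L < fq (Cb S q.s2 (k3 q) b) w
  · rw [if_pos h4, if_neg h1, if_neg h2, if_neg h3]
    split_ifs <;> norm_num
  have h5 : ¬ yL k β L < zz S β (Cb S q.s1 (k2 q) b) (Cb S q.s2 (k3 q) b) w := by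
    push Not at h1 h2 h3 h4 ⊢
    unfold zz yL
    have a1 := mul_le_mul_of_nonneg_left (add_le_add h1 h2) (sq_nonneg k)
    have a2 := mul_le_mul_of_nonneg_left (add_le_add h3 h4) (sq_nonneg (k / β))
    have a3 : 0 ≤ k ^ 2 * L := by positivity
    linarith
  rw [if_neg h5, if_neg h1, if_neg h2, if_neg h3, if_neg h4]
  norm_num

/-- **the bad mass in terms of the rarities of the sizes at the two times** -/
theorem zP_num {G : GD (Pair n)} (S : CS n k q.x) (hq : q.OkS) (hG : G.Ok) (hr : GRow k q G)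
    (p : ℕ) (hp : ((p : ℝ) + 1) ^ 2 * (18 * q.x ^ 2 * k ^ 2 * n) ≤ 1)
    (hE : EwG q G S.F (fun _ => 1) = 1)
    {χ : Fin n → (K4 (Pair n) → ℝ) → ℝ} (eχ : ∀ b, EG (χ b))
    (iχ : ∀ b, Ind (lf (row b)) (χ b)) (χ0 : ∀ b w, 0 ≤ χ b w) {Kχ L δ : ℝ} (hK0 : 0 ≤ Kχ)
    (hK : ∀ b w, χ b w ≤ Kχ) (hL : 0 < L) (hLn : L ≤ (n : ℝ) ^ 2)
    (h2 : EwG q G S.F (fun w => if L < fr (S.A q.s1 (P2 q w)) then 1 else 0) ≤ δ)
    (h3 : EwG q G S.F (fun w => if L < fr (S.A q.s2 (P3 q w)) then 1 else 0) ≤ δ) :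
    zP S G β (yL k β L) χ (fun b => Cb S q.s1 (k2 q) b) (fun b => Cb S q.s2 (k3 q) b) ≤
      n * Kχ * ((n : ℝ) ^ 2 / L) * (12 * δ + 15 / 2 ^ p) := by
  have eD : EG (densG q G S.F) := eg_densG S.c11 hq.x0 hG
  have D0 : ∀ w, 0 ≤ densG q G S.F w := fun w => densG_nonneg w
  have hf : ∀ b, Fzn b (χ b) (Cb S q.s1 (k2 q) b) (Cb S q.s2 (k3 q) b) := fun b =>
    fzn_Cb (eχ b) (iχ b) (χ0 b)
  have key := zP_le (S := S) (β := β) hq hG hr p hp hf (y := yL k β L) hK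
  rw [hE, mul_one] at key
  have e2 : (fun w => (if L < fr (S.A q.s1 (P2 q w)) then (1 : ℝ) else 0)) =
      fun w : K4 (Pair n) → ℝ => if L < fr (S.A q.s1 (H712.lp (k2 q) w)) then 1 else 0 := by
    funext w
    rw [show P2 q w = H712.lp (k2 q) w from P2_lp w]
  have e3 : (fun w => (if L < fr (S.A q.s2 (P3 q w)) then (1 : ℝ) else 0)) =
      fun w : K4 (Pair n) → ℝ => if L < fr (S.A q.s2 (H712.lp (k3 q) w)) then 1 else 0 := by
    funext w
    rw [show P3 q w = H712.lp (k3 q) w from P3_lp w]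
  have g2 := eg_ind (eg_frA S q.s1 (k2 q)) L
  have g3 := eg_ind (eg_frA S q.s2 (k3 q)) L
  have hδ : 0 ≤ δ := le_trans (integral_nonneg fun w => mul_nonneg (D0 w) (by
    show (0 : ℝ) ≤ if _ then (1 : ℝ) else 0
    split_ifs <;> norm_num)) h2
  have hn2 : 1 ≤ (n : ℝ) ^ 2 / L := by rw [le_div_iff₀ hL]; linarith
  have hp2 : (0 : ℝ) < 3 / 2 ^ p := by positivity
  -- averaged indicators
  have av : ∀ (b : Fin n) (f : (K4 (Pair n) → ℝ) → ℝ), EG f → (∀ w, 0 ≤ f w) →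
      (∀ w, f w ≤ 1) → EwG q G S.F f ≤ δ →
      Im (densG q G S.F) (Av (lf (row b)) f) ≤ 2 * δ + 3 / 2 ^ p := by
    intro b f hf f0 f1 hfδ
    have hlf := lf_row_SG S hq hG hr b
    have hn : 0 ≤ 18 * q.x ^ 2 * k ^ 2 * n := by positivity
    have e : √(18 * q.x ^ 2 * k ^ 2 * n) ^ 2 = 18 * q.x ^ 2 * k ^ 2 * n := Real.sq_sqrt hn
    have h1 := lcA_le_Im hlf (EG.const 1) (fun _ _ => rfl) (fun _ => zero_le_one) p
      (by rw [e]; exact hp) hf f0 (K := 1) (fun w => by rw [one_mul]; exact f1 w)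
    rw [lcA_eq hlf (EG.const 1) (fun _ _ => rfl) hf] at h1
    have h4 : ∫ z, Real.exp (psiG q G S.F z) * (1 * Av (lf (row b)) f z) ∂(gI (K4 (Pair n))) =
        Im (densG q G S.F) (Av (lf (row b)) f) := by
      unfold Im
      refine integral_congr_ae (ae_of_all _ fun w => ?_)
      show Real.exp (psiG q G S.F w) * (1 * Av (lf (row b)) f w) = densG q G S.F w * _
      rw [one_mul, densG_eq]
    have h5 : lcM (psiG q G S.F) (fun z => (1 : ℝ) * f z) = EwG q G S.F f := by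
      unfold lcM EwG
      simp only [one_mul, densG_eq]
    have h6 : lcM (psiG q G S.F) (fun _ => (1 : ℝ)) = EwG q G S.F (fun _ => 1) := by
      unfold lcM EwG
      refine integral_congr_ae (ae_of_all _ fun w => ?_)
      show Real.exp (psiG q G S.F w) * 1 = densG q G S.F w * 1
      rw [densG_eq]
    rw [h4, h5, h6, hE] at h1
    linarith
  have i01 : ∀ (f : (K4 (Pair n) → ℝ) → ℝ) (w : K4 (Pair n) → ℝ),
      (0 : ℝ) ≤ (if L < f w then (1 : ℝ) else 0) := fun f w => by split_ifs <;> norm_num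
  have i11 : ∀ (f : (K4 (Pair n) → ℝ) → ℝ) (w : K4 (Pair n) → ℝ),
      (if L < f w then (1 : ℝ) else 0) ≤ 1 := fun f w => by split_ifs <;> norm_num
  have one : ∀ b, Im (densG q G S.F) (fun w => χ b w *
      if yL k β L < zz S β (Cb S q.s1 (k2 q) b) (Cb S q.s2 (k3 q) b) w then 1 else 0) ≤
      Kχ * ((n : ℝ) ^ 2 / L * (6 * δ + 2 * (3 / 2 ^ p))) := by
    intro b
    have a2 := av b _ g2 (i01 _) (i11 _) (by rw [← e2]; exact h2)
    have a3 := av b _ g3 (i01 _) (i11 _) (by rw [← e3]; exact h3)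
    have A2 := eg_Av (lf (row b)) g2
    have A3 := eg_Av (lf (row b)) g3
    have ez := eg_ind (eg_zz (S := S) (β := β) (hf b)) (yL k β L)
    have m1 : Im (densG q G S.F) (fun w => χ b w *
        if yL k β L < zz S β (Cb S q.s1 (k2 q) b) (Cb S q.s2 (k3 q) b) w then 1 else 0) ≤
        Im (densG q G S.F) (fun w => Kχ * (((if L < fr (S.A q.s1 (H712.lp (k2 q) w)) then 1 else 0)
          + (if L < fr (S.A q.s2 (H712.lp (k3 q) w)) then 1 else 0)) +
          (n : ℝ) ^ 2 / L * (Av (lf (row b)) (fun w =>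
              if L < fr (S.A q.s1 (H712.lp (k2 q) w)) then 1 else 0) w +
            Av (lf (row b)) (fun w =>
              if L < fr (S.A q.s2 (H712.lp (k3 q) w)) then 1 else 0) w))) := by
      refine H191.Im_mono D0 eD ((eχ b).mul ez)
        (((g2.add g3).add ((A2.add A3).const_mul _)).const_mul _) fun w => ?_
      have l1 := ind_zz_le S β b hL w
      have l2 := ind_Cb_le S q.s1 (k2 q) b hL w
      have l3 := ind_Cb_le S q.s2 (k3 q) b hL w
      rw [show P2 q w = H712.lp (k2 q) w from P2_lp w,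
        show P3 q w = H712.lp (k3 q) w from P3_lp w] at l1
      have l4 : (0 : ℝ) ≤ (if yL k β L < zz S β (Cb S q.s1 (k2 q) b) (Cb S q.s2 (k3 q) b) w
          then 1 else 0) := by split_ifs <;> norm_num
      refine (mul_le_mul_of_nonneg_right (hK b w) l4).trans
        (mul_le_mul_of_nonneg_left ?_ hK0)
      rw [mul_add]
      linarith
    refine m1.trans ?_
    rw [Im_const_mul, Im_add eD (g2.add g3) ((A2.add A3).const_mul _), Im_add eD g2 g3,
      Im_const_mul, Im_add eD A2 A3]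
    refine mul_le_mul_of_nonneg_left ?_ hK0
    have b2 : Im (densG q G S.F) (fun w : K4 (Pair n) → ℝ =>
        if L < fr (S.A q.s1 (H712.lp (k2 q) w)) then 1 else 0) ≤ δ := by
      rw [← e2]; exact h2
    have b3 : Im (densG q G S.F) (fun w : K4 (Pair n) → ℝ =>
        if L < fr (S.A q.s2 (H712.lp (k3 q) w)) then 1 else 0) ≤ δ := by
      rw [← e3]; exact h3
    have c1 := mul_le_mul_of_nonneg_left (add_le_add a2 a3)
      (show 0 ≤ (n : ℝ) ^ 2 / L by positivity)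
    have c2 : 2 * δ ≤ (n : ℝ) ^ 2 / L * (2 * δ) :=
      le_mul_of_one_le_left (by linarith) hn2
    refine (add_le_add (add_le_add b2 b3) c1).trans ?_
    have c3 : (n : ℝ) ^ 2 / L * (6 * δ + 2 * (3 / 2 ^ p)) =
      (n : ℝ) ^ 2 / L * (2 * δ) + (n : ℝ) ^ 2 / L * (2 * δ + 3 / 2 ^ p + (2 * δ + 3 / 2 ^ p)) := by
      ring
    rw [c3]
    linarith
  have s1 := Finset.sum_le_sum fun b (_ : b ∈ (Finset.univ : Finset (Fin n))) => one b
  rw [Finset.sum_const, Finset.card_univ, Fintype.card_fin, nsmul_eq_mul] at s1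
  refine key.trans ?_
  have s2 : 3 * (n * Kχ) / 2 ^ p ≤ n * Kχ * ((n : ℝ) ^ 2 / L) * (3 / 2 ^ p) := by
    have t1 : 0 ≤ n * Kχ * (3 / 2 ^ p) := by positivity
    have t2 := mul_le_mul_of_nonneg_left hn2 t1
    calc 3 * (n * Kχ) / 2 ^ p = n * Kχ * (3 / 2 ^ p) * 1 := by ring
      _ ≤ n * Kχ * (3 / 2 ^ p) * ((n : ℝ) ^ 2 / L) := t2
      _ = _ := by ring
  have s3 : n * Kχ * ((n : ℝ) ^ 2 / L) * (12 * δ + 15 / 2 ^ p) =
      2 * (n * (Kχ * ((n : ℝ) ^ 2 / L * (6 * δ + 2 * (3 / 2 ^ p))))) +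
        n * Kχ * ((n : ℝ) ^ 2 / L) * (3 / 2 ^ p) := by ring
  rw [s3]
  linarith

end Vale.Agent.P146.R1S
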