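import Vale.Agent.P146.H130.GBase
import Vale.Agent.P146.H784.GEn
import Vale.Agent.P146.H706.D4b

/-!
P146, plan B, [B8]: martingale properties of the law with the density
`exp (x u_{s2} (z3) + G (z0, z1))`: the position at the time `s1` or `s2` may be dropped, and the
tower property for the last step. Comparison of two such laws.
-/

set_option linter.all false

open MeasureTheory ProbabilityTheory Finset

namespace Vale.Agent.P146.R1C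

open Vale.Agent.P157.Lv Vale.Agent.P146.H425 Vale.Agent.P146.H712 Vale.Agent.P146.R1
  Vale.Agent.P146.H706
open Vale.Agent.P146.H785 (Ax)

variable {κ : Type} [Fintype κ] [DecidableEq κ] {F : (κ → ℝ) → ℝ} {D : κ → (κ → ℝ) → ℝ}
  {B L : ℝ} {q : Par} {G : GD κ}

/-- The mean (not normalized) of `Ψ (z0, z1, z)`, `z` the position at the time `s`. -/
noncomputable def EuG (q : Par) (G : GD κ) (F : (κ → ℝ) → ℝ) (s : ℝ)
    (Ψ : (κ → ℝ) → (κ → ℝ) → (κ → ℝ) → ℝ) : ℝ :=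
  ∫ w : K3 κ → ℝ, Real.exp (q.x * uu q.x s F (q2 q.t0 q.t1 s w) +
      G.f (R1.q0 q.t0 w) (R1.q1 q.t0 q.t1 w)) *
    Ψ (R1.q0 q.t0 w) (R1.q1 q.t0 q.t1 w) (q2 q.t0 q.t1 s w) ∂(gI (K3 κ))

lemma e3_dnG (h : C11 F D B L) (hx : 0 < q.x) (hG : G.Ok) (s : ℝ) :
    E3 fun z0 z1 z2 => Real.exp (q.x * uu q.x s F z2 + G.f z0 z1) := by
  have l2 : Lip fun w : K3 κ → ℝ => uu q.x s F (b2 w) :=
    lip_b ((c11_uu h hx s).lip.lip h.B0) zero_le_one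
      fun w w' => by rw [one_mul]; exact norm_b2 (w - w')
  have l1 : Lip fun w : K3 κ → ℝ => G.F (Sum.elim (b0 w) (b1 w)) := by
    refine lip_b (A := fun w : K3 κ → ℝ => (Sum.elim (b0 w) (b1 w) : κ ⊕ κ → ℝ)) hG.lip
      zero_le_one fun w w' => ?_
    rw [one_mul]
    refine (pi_norm_le_iff_of_nonneg (norm_nonneg _)).2 fun e => ?_
    rcases e with e | e
    · exact norm_le_pi_norm (w - w') (Sum.inl e)
    · exact norm_le_pi_norm (w - w') (Sum.inr (Sum.inl e))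
  have h1 := ((l2.const_mul q.x).add l1).exp_eg 1
  unfold E3
  refine (funext fun w => ?_ : (fun w : K3 κ → ℝ => Real.exp (1 * (q.x * uu q.x s F (b2 w) +
    G.F (Sum.elim (b0 w) (b1 w))))) = fun w => Real.exp (q.x * uu q.x s F (b2 w) +
      G.f (b0 w) (b1 w))) ▸ h1
  rw [one_mul]
  rfl

lemma eg_EuG (h : C11 F D B L) (hx : 0 < q.x) (hG : G.Ok) (s : ℝ)
    {Ψ : (κ → ℝ) → (κ → ℝ) → (κ → ℝ) → ℝ} (hΨ : E3 Ψ) :
    EG fun w : K3 κ → ℝ => Real.exp (q.x * uu q.x s F (q2 q.t0 q.t1 s w) +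
      G.f (R1.q0 q.t0 w) (R1.q1 q.t0 q.t1 w)) *
    Ψ (R1.q0 q.t0 w) (R1.q1 q.t0 q.t1 w) (q2 q.t0 q.t1 s w) :=
  ((e3_dnG h hx hG s).mul hΨ).eg_q q.t0 q.t1 s

/-- the iterated form -/
lemma EuG_iter (h : C11 F D B L) (hx : 0 < q.x) (hG : G.Ok) (s : ℝ)
    {Ψ : (κ → ℝ) → (κ → ℝ) → (κ → ℝ) → ℝ} (hΨ : E3 Ψ) :
    EuG q G F s Ψ = ∫ y0, (∫ y1, (∫ y2,
      Real.exp (q.x * uu q.x s F (√q.t0 • y0 + √(q.t1 - q.t0) • y1 + √(s - q.t1) • y2) +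
        G.f (√q.t0 • y0) (√q.t0 • y0 + √(q.t1 - q.t0) • y1)) *
      Ψ (√q.t0 • y0) (√q.t0 • y0 + √(q.t1 - q.t0) • y1)
        (√q.t0 • y0 + √(q.t1 - q.t0) • y1 + √(s - q.t1) • y2)
        ∂(gI κ)) ∂(gI κ)) ∂(gI κ) :=
  int_K3 (eg_EuG h hx hG s hΨ)

lemma EuG_one_pos (h : C11 F D B L) (hx : 0 < q.x) (hG : G.Ok) (s : ℝ) :
    0 < EuG q G F s (fun _ _ _ => 1) := by
  unfold EuG
  simp only [mul_one]
  exact integral_exp_pos ((e3_dnG h hx hG s).eg_q q.t0 q.t1 s).integrable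

/-- `densG` for functions of the four positions, iterated -/
lemma EwG_iter (h : C11 F D B L) (hx : 0 < q.x) (hG : G.Ok) {Ψ : Fn4 κ} (hΨ : E4 Ψ) :
    EwG q G F (fun w => Ψ (P0 q w) (P1 q w) (P2 q w) (P3 q w)) =
      ∫ y0, (∫ y1, (∫ y2, (∫ y3,
      Real.exp (q.x * uu q.x q.s2 F
        (√q.t0 • y0 + √(q.t1 - q.t0) • y1 + √(q.s1 - q.t1) • y2 + √(q.s2 - q.s1) • y3) +
        G.f (√q.t0 • y0) (√q.t0 • y0 + √(q.t1 - q.t0) • y1)) *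
      Ψ (√q.t0 • y0) (√q.t0 • y0 + √(q.t1 - q.t0) • y1)
        (√q.t0 • y0 + √(q.t1 - q.t0) • y1 + √(q.s1 - q.t1) • y2)
        (√q.t0 • y0 + √(q.t1 - q.t0) • y1 + √(q.s1 - q.t1) • y2 + √(q.s2 - q.s1) • y3)
        ∂(gI κ)) ∂(gI κ)) ∂(gI κ)) ∂(gI κ) := by
  have hg : EG fun w => densG q G F w * Ψ (P0 q w) (P1 q w) (P2 q w) (P3 q w) :=
    (eg_densG h hx hG).mul (hΨ.eg_p q.t0 q.t1 q.s1 q.s2)
  unfold EwG
  rw [int_sum hg]
  refine integral_congr_ae (Filter.Eventually.of_forall fun y0 => ?_)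
  exact int_K3 (eg_elim hg y0)

/-- functions of the first three positions: the time `s2` drops out -/
theorem EwG_123 (h : C11 F D B L) (hx : 0 < q.x) (hG : G.Ok)
    {Ψ : (κ → ℝ) → (κ → ℝ) → (κ → ℝ) → ℝ} (hΨ : E3 Ψ) (h1 : q.s1 ≤ q.s2) (h2 : q.s2 ≤ 1) :
    EwG q G F (fun w => Ψ (P0 q w) (P1 q w) (P2 q w)) = EuG q G F q.s1 Ψ := by
  rw [EwG_iter (Ψ := fun z0 z1 z2 _ => Ψ z0 z1 z2) h hx hG (E4.of_E3 hΨ),
    EuG_iter h hx hG q.s1 hΨ]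
  refine integral_congr_ae (Filter.Eventually.of_forall fun y0 => ?_)
  refine integral_congr_ae (Filter.Eventually.of_forall fun y1 => ?_)
  refine integral_congr_ae (Filter.Eventually.of_forall fun y2 => ?_)
  simp only
  rw [integral_mul_const]
  congr 1
  rw [Real.exp_add, ← uu_step h hx h1 h2
    (√q.t0 • y0 + √(q.t1 - q.t0) • y1 + √(q.s1 - q.t1) • y2), ← integral_mul_const]
  refine integral_congr_ae (Filter.Eventually.of_forall fun y3 => ?_)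
  simp only
  rw [Real.exp_add]

/-- functions of the positions 1, 2, 4: the time `s1` drops out -/
theorem EwG_124 (h : C11 F D B L) (hx : 0 < q.x) (hG : G.Ok)
    {Ψ : (κ → ℝ) → (κ → ℝ) → (κ → ℝ) → ℝ} (hΨ : E3 Ψ) (h0 : q.t1 ≤ q.s1)
    (h1 : q.s1 ≤ q.s2) :
    EwG q G F (fun w => Ψ (P0 q w) (P1 q w) (P3 q w)) = EuG q G F q.s2 Ψ := by
  rw [EwG_iter (Ψ := fun z0 z1 _ z3 => Ψ z0 z1 z3) h hx hG (E4.of_E3' hΨ),
    EuG_iter h hx hG q.s2 hΨ]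
  refine integral_congr_ae (Filter.Eventually.of_forall fun y0 => ?_)
  refine integral_congr_ae (Filter.Eventually.of_forall fun y1 => ?_)
  have hf : EG fun z : κ → ℝ => Real.exp (q.x * uu q.x q.s2 F z +
      G.f (√q.t0 • y0) (√q.t0 • y0 + √(q.t1 - q.t0) • y1)) *
      Ψ (√q.t0 • y0) (√q.t0 • y0 + √(q.t1 - q.t0) • y1) z :=
    eg_elim (eg_elim ((e3_dnG h hx hG q.s2).mul hΨ) (√q.t0 • y0))
      (√q.t0 • y0 + √(q.t1 - q.t0) • y1)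
  exact gI_rot hf (a := √(q.s1 - q.t1)) (b := √(q.s2 - q.s1)) (c := √(q.s2 - q.t1)) (by
    rw [Real.sq_sqrt (by linarith), Real.sq_sqrt (by linarith), Real.sq_sqrt (by linarith)]
    ring) (√q.t0 • y0 + √(q.t1 - q.t0) • y1)

/-- the conditional expectation at a later time -/
lemma Ax_mul_t (h : C11 F D B L) {x s t : ℝ} (hx : 0 < x) (hs : s ≤ t) (ht : t ≤ 1)
    (φ : (κ → ℝ) → ℝ) (z : κ → ℝ) :
    Real.exp (x * uu x s F z) * Ax x (√(t - s)) (uu x t F) φ z =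
      ∫ y, Real.exp (x * uu x t F (z + √(t - s) • y)) * φ (z + √(t - s) • y) ∂(gI κ) := by
  rw [← uu_step h hx hs ht z]
  unfold Ax
  exact mul_div_cancel₀ _ (R1.C11.posx (c11_uu h hx t) _ _ z).ne'

/-- **tower property, last step**: `z3` given `(z0, z1, z2)` -/
theorem EwG_tower (h : C11 F D B L) (hx : 0 < q.x) (hG : G.Ok)
    {Ψ : (κ → ℝ) → (κ → ℝ) → (κ → ℝ) → ℝ} (hΨ : E3 Ψ) {φ : (κ → ℝ) → ℝ} (hφ : EG φ)
    (h1 : q.s1 ≤ q.s2) (h2 : q.s2 ≤ 1) :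
    EwG q G F (fun w => Ψ (P0 q w) (P1 q w) (P2 q w) * φ (P3 q w)) =
      EwG q G F (fun w => Ψ (P0 q w) (P1 q w) (P2 q w) *
        Ax q.x (√(q.s2 - q.s1)) (uu q.x q.s2 F) φ (P2 q w)) := by
  have hA : EG (Ax q.x (√(q.s2 - q.s1)) (uu q.x q.s2 F) φ) := eg_Ax (c11_uu h hx q.s2) hφ _ _
  rw [EwG_iter (Ψ := fun z0 z1 z2 z3 => Ψ z0 z1 z2 * φ z3) h hx hG
      ((E4.of_E3 hΨ).mul (E4.of3 hφ)),
    EwG_123 (Ψ := fun z0 z1 z2 => Ψ z0 z1 z2 *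
      Ax q.x (√(q.s2 - q.s1)) (uu q.x q.s2 F) φ z2) h hx hG (hΨ.mul (E3.of2 hA)) h1 h2,
    EuG_iter h hx hG q.s1 (hΨ.mul (E3.of2 hA))]
  refine integral_congr_ae (Filter.Eventually.of_forall fun y0 => ?_)
  refine integral_congr_ae (Filter.Eventually.of_forall fun y1 => ?_)
  refine integral_congr_ae (Filter.Eventually.of_forall fun y2 => ?_)
  simp only
  set z0 := √q.t0 • y0
  set z1 := z0 + √(q.t1 - q.t0) • y1
  set z2 := z1 + √(q.s1 - q.t1) • y2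
  have e : Real.exp (q.x * uu q.x q.s1 F z2 + G.f z0 z1) * (Ψ z0 z1 z2 *
      Ax q.x (√(q.s2 - q.s1)) (uu q.x q.s2 F) φ z2) =
      Real.exp (G.f z0 z1) * Ψ z0 z1 z2 * (Real.exp (q.x * uu q.x q.s1 F z2) *
        Ax q.x (√(q.s2 - q.s1)) (uu q.x q.s2 F) φ z2) := by
    rw [Real.exp_add]; ring
  rw [e, Ax_mul_t h hx h1 h2, ← integral_const_mul]
  refine integral_congr_ae (Filter.Eventually.of_forall fun y3 => ?_)
  simp only
  rw [Real.exp_add]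
  ring

/-- **tower property between two times**, weights which are functions of `(z0, z1)` -/
theorem EuG_tower (h : C11 F D B L) (hx : 0 < q.x) (hG : G.Ok)
    {a : (κ → ℝ) → (κ → ℝ) → ℝ} (ha : E3 fun z0 z1 _ => a z0 z1) {φ : (κ → ℝ) → ℝ}
    (hφ : EG φ) {s t : ℝ} (h0 : q.t1 ≤ s) (hs : s ≤ t) (ht : t ≤ 1) :
    EuG q G F s (fun z0 z1 z => a z0 z1 * Ax q.x (√(t - s)) (uu q.x t F) φ z) =
      EuG q G F t (fun z0 z1 z => a z0 z1 * φ z) := by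
  have hA : EG (Ax q.x (√(t - s)) (uu q.x t F) φ) := eg_Ax (c11_uu h hx t) hφ _ _
  rw [EuG_iter h hx hG s (ha.mul (E3.of2 hA)), EuG_iter h hx hG t (ha.mul (E3.of2 hφ))]
  refine integral_congr_ae (Filter.Eventually.of_forall fun y0 => ?_)
  refine integral_congr_ae (Filter.Eventually.of_forall fun y1 => ?_)
  simp only
  set z0 := √q.t0 • y0 with hz0
  set z1 := z0 + √(q.t1 - q.t0) • y1 with hz1
  have hf : EG fun z : κ → ℝ => Real.exp (q.x * uu q.x t F z + G.f z0 z1) *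
      (a z0 z1 * φ z) :=
    eg_elim (eg_elim ((e3_dnG h hx hG t).mul (ha.mul (E3.of2 hφ))) z0) z1
  have key := gI_rot hf (a := √(s - q.t1)) (b := √(t - s)) (c := √(t - q.t1)) (by
    rw [Real.sq_sqrt (by linarith), Real.sq_sqrt (by linarith), Real.sq_sqrt (by linarith)]
    ring) z1
  refine Eq.trans ?_ key
  refine integral_congr_ae (Filter.Eventually.of_forall fun y2 => ?_)
  simp only
  set z2 := z1 + √(s - q.t1) • y2
  have e : Real.exp (q.x * uu q.x s F z2 + G.f z0 z1) *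
      (a z0 z1 * Ax q.x (√(t - s)) (uu q.x t F) φ z2) =
      Real.exp (G.f z0 z1) * a z0 z1 * (Real.exp (q.x * uu q.x s F z2) *
        Ax q.x (√(t - s)) (uu q.x t F) φ z2) := by
    rw [Real.exp_add]; ring
  rw [e, Ax_mul_t h hx hs ht, ← integral_const_mul]
  refine integral_congr_ae (Filter.Eventually.of_forall fun y3 => ?_)
  simp only
  rw [Real.exp_add]
  ring

lemma uu_one_fn {x : ℝ} (hx : 0 < x) : uu x 1 F = F := funext fun z => uu_one hx z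

/-- the endpoint -/
theorem EuG_end (h : C11 F D B L) (hx : 0 < q.x) (hG : G.Ok)
    {a : (κ → ℝ) → (κ → ℝ) → ℝ} (ha : E3 fun z0 z1 _ => a z0 z1) {φ : (κ → ℝ) → ℝ}
    (hφ : EG φ) {s : ℝ} (h0 : q.t1 ≤ s) (hs : s ≤ 1) :
    EuG q G F s (fun z0 z1 z => a z0 z1 * Ax q.x (√(1 - s)) F φ z) =
      EuG q G F 1 (fun z0 z1 z => a z0 z1 * φ z) := by
  have := EuG_tower h hx hG ha hφ h0 hs le_rfl
  rwa [uu_one_fn hx] at this

lemma EuG_one_eq (h : C11 F D B L) (hx : 0 < q.x) (hG : G.Ok) {s t : ℝ} (h0 : q.t1 ≤ s)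
    (hs : s ≤ t) (ht : t ≤ 1) :
    EuG q G F s (fun _ _ _ => 1) = EuG q G F t (fun _ _ _ => 1) := by
  have h1 := EuG_tower (a := fun _ _ => 1) (φ := fun _ => 1) h hx hG (E3.const 1) (EG.const 1)
    h0 hs ht
  have e : ∀ z, Ax q.x (√(t - s)) (uu q.x t F) (fun _ => 1) z = 1 := fun z => by
    unfold Ax
    simp only [mul_one]
    exact div_self (R1.C11.posx (c11_uu h hx t) _ _ z).ne'
  simp only [e, mul_one] at h1
  exact h1

/-- The mean of `Ψ (z0, z1, z)`, `z` the position at the time `s`. -/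
noncomputable def EtG (q : Par) (G : GD κ) (F : (κ → ℝ) → ℝ) (s : ℝ)
    (Ψ : (κ → ℝ) → (κ → ℝ) → (κ → ℝ) → ℝ) : ℝ :=
  EuG q G F s Ψ / EuG q G F s (fun _ _ _ => 1)

theorem EnG_123 (h : C11 F D B L) (hx : 0 < q.x) (hG : G.Ok)
    {Ψ : (κ → ℝ) → (κ → ℝ) → (κ → ℝ) → ℝ} (hΨ : E3 Ψ) (h1 : q.s1 ≤ q.s2) (h2 : q.s2 ≤ 1) :
    EnG q G F (fun w => Ψ (P0 q w) (P1 q w) (P2 q w)) = EtG q G F q.s1 Ψ := by
  unfold EnG EtG
  rw [EwG_123 h hx hG hΨ h1 h2,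
    EwG_123 (Ψ := fun _ _ _ => 1) h hx hG (E3.const 1) h1 h2]

theorem EnG_124 (h : C11 F D B L) (hx : 0 < q.x) (hG : G.Ok)
    {Ψ : (κ → ℝ) → (κ → ℝ) → (κ → ℝ) → ℝ} (hΨ : E3 Ψ) (h0 : q.t1 ≤ q.s1)
    (h1 : q.s1 ≤ q.s2) :
    EnG q G F (fun w => Ψ (P0 q w) (P1 q w) (P3 q w)) = EtG q G F q.s2 Ψ := by
  unfold EnG EtG
  rw [EwG_124 h hx hG hΨ h0 h1,
    EwG_124 (Ψ := fun _ _ _ => 1) h hx hG (E3.const 1) h0 h1]

theorem EnG_tower (h : C11 F D B L) (hx : 0 < q.x) (hG : G.Ok)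
    {Ψ : (κ → ℝ) → (κ → ℝ) → (κ → ℝ) → ℝ} (hΨ : E3 Ψ) {φ : (κ → ℝ) → ℝ} (hφ : EG φ)
    (h1 : q.s1 ≤ q.s2) (h2 : q.s2 ≤ 1) :
    EnG q G F (fun w => Ψ (P0 q w) (P1 q w) (P2 q w) * φ (P3 q w)) =
      EnG q G F (fun w => Ψ (P0 q w) (P1 q w) (P2 q w) *
        Ax q.x (√(q.s2 - q.s1)) (uu q.x q.s2 F) φ (P2 q w)) := by
  unfold EnG
  rw [EwG_tower h hx hG hΨ hφ h1 h2]

theorem EtG_tower (h : C11 F D B L) (hx : 0 < q.x) (hG : G.Ok)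
    {a : (κ → ℝ) → (κ → ℝ) → ℝ} (ha : E3 fun z0 z1 _ => a z0 z1) {φ : (κ → ℝ) → ℝ}
    (hφ : EG φ) {s t : ℝ} (h0 : q.t1 ≤ s) (hs : s ≤ t) (ht : t ≤ 1) :
    EtG q G F s (fun z0 z1 z => a z0 z1 * Ax q.x (√(t - s)) (uu q.x t F) φ z) =
      EtG q G F t (fun z0 z1 z => a z0 z1 * φ z) := by
  unfold EtG
  rw [EuG_tower h hx hG ha hφ h0 hs ht, EuG_one_eq h hx hG h0 hs ht]

theorem EtG_end (h : C11 F D B L) (hx : 0 < q.x) (hG : G.Ok)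
    {a : (κ → ℝ) → (κ → ℝ) → ℝ} (ha : E3 fun z0 z1 _ => a z0 z1) {φ : (κ → ℝ) → ℝ}
    (hφ : EG φ) {s : ℝ} (h0 : q.t1 ≤ s) (hs : s ≤ 1) :
    EtG q G F s (fun z0 z1 z => a z0 z1 * Ax q.x (√(1 - s)) F φ z) =
      EtG q G F 1 (fun z0 z1 z => a z0 z1 * φ z) := by
  unfold EtG
  rw [EuG_end h hx hG ha hφ h0 hs, EuG_one_eq h hx hG h0 hs le_rfl]

/-- the endpoint seen from the time `s1`, with a weight `a (z0, z1)` -/
theorem EnG_end2 (h : C11 F D B L) (hx : 0 < q.x) (hG : G.Ok)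
    {a : (κ → ℝ) → (κ → ℝ) → ℝ} (ha : E3 fun z0 z1 _ => a z0 z1) {φ : (κ → ℝ) → ℝ}
    (hφ : EG φ) (h0 : q.t1 ≤ q.s1) (h1 : q.s1 ≤ q.s2) (h2 : q.s2 ≤ 1) :
    EnG q G F (fun w => a (P0 q w) (P1 q w) * Ax q.x (√(1 - q.s1)) F φ (P2 q w)) =
      EtG q G F 1 (fun z0 z1 z => a z0 z1 * φ z) := by
  rw [EnG_123 (Ψ := fun z0 z1 z => a z0 z1 * Ax q.x (√(1 - q.s1)) F φ z) h hx hG
    (ha.mul (E3.of2 (eg_Ax h hφ _ _))) h1 h2, EtG_end h hx hG ha hφ h0 (h1.trans h2)]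

/-- the endpoint seen from the time `s2`, with a weight `a (z0, z1)` -/
theorem EnG_end3 (h : C11 F D B L) (hx : 0 < q.x) (hG : G.Ok)
    {a : (κ → ℝ) → (κ → ℝ) → ℝ} (ha : E3 fun z0 z1 _ => a z0 z1) {φ : (κ → ℝ) → ℝ}
    (hφ : EG φ) (h0 : q.t1 ≤ q.s1) (h1 : q.s1 ≤ q.s2) (h2 : q.s2 ≤ 1) :
    EnG q G F (fun w => a (P0 q w) (P1 q w) * Ax q.x (√(1 - q.s2)) F φ (P3 q w)) =
      EtG q G F 1 (fun z0 z1 z => a z0 z1 * φ z) := by
  rw [EnG_124 (Ψ := fun z0 z1 z => a z0 z1 * Ax q.x (√(1 - q.s2)) F φ z) h hx hG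
    (ha.mul (E3.of2 (eg_Ax h hφ _ _))) h0 h1, EtG_end h hx hG ha hφ (h0.trans h1) h2]

/-- **Comparison of two laws.** -/
theorem EnG_comp {F' : (κ → ℝ) → ℝ} {D' : κ → (κ → ℝ) → ℝ} {B' L' c : ℝ} {G' : GD κ}
    (h : C11 F D B L) (h' : C11 F' D' B' L') (hx : 0 < q.x) (hG : G.Ok) (hG' : G'.Ok)
    (h0 : ∀ w, psiG q G F w ≤ psiG q G' F' w) (h1 : ∀ w, psiG q G' F' w ≤ psiG q G F w + c)
    {Φ : (K4 κ → ℝ) → ℝ} (hΦ : EG Φ) (hΦ0 : ∀ w, 0 ≤ Φ w) :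
    EnG q G' F' Φ ≤ Real.exp c * EnG q G F Φ := by
  have k1 : EwG q G' F' Φ ≤ Real.exp c * EwG q G F Φ := by
    unfold EwG
    rw [← integral_const_mul]
    refine integral_mono ((eg_densG h' hx hG').mul hΦ).integrable
      (((eg_densG h hx hG).mul hΦ).const_mul _).integrable fun w => ?_
    simp only
    rw [← mul_assoc]
    refine mul_le_mul_of_nonneg_right ?_ (hΦ0 w)
    unfold densG
    rw [← Real.exp_add]
    exact Real.exp_le_exp.2 (by linarith [h1 w])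
  have k2 : EwG q G F (fun _ => 1) ≤ EwG q G' F' (fun _ => 1) := by
    unfold EwG
    simp only [mul_one]
    refine integral_mono (eg_densG h hx hG).integrable (eg_densG h' hx hG').integrable fun w => ?_
    unfold densG
    exact Real.exp_le_exp.2 (h0 w)
  have p1 := EwG_one_pos h hx hG
  have p3 : 0 ≤ EwG q G F Φ := integral_nonneg fun w => mul_nonneg (densG_nonneg w) (hΦ0 w)
  unfold EnG
  rw [div_le_iff₀ (p1.trans_le k2)]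
  calc EwG q G' F' Φ ≤ Real.exp c * EwG q G F Φ := k1
    _ = Real.exp c * (EwG q G F Φ / EwG q G F (fun _ => 1)) * EwG q G F (fun _ => 1) := by
        rw [mul_assoc, div_mul_cancel₀ _ p1.ne']
    _ ≤ _ := mul_le_mul_of_nonneg_left k2 (by positivity)

end Vale.Agent.P146.R1C
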