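import Vale.Agent.P146.H706G.F2HLs

/-!
P146, plan R2, row (F2), one-site form: the mean of the square of the rest at a fixed bulk, exact,
and the number `Σ_b lcA χ_b xr_b`.
-/

set_option linter.all false

open MeasureTheory ProbabilityTheory Finset Matrix

namespace Vale.Agent.P146.R1S

open Vale.Agent.P157.Lv Vale.Agent.P146.H425 Vale.Agent.P146.H325 Vale.Agent.P146.H332
  Vale.Agent.P146.H712 Vale.Agent.P146.R1 Vale.Agent.P146.R1C Vale.Agent.P146.H706
  Vale.Agent.P146.H191 Vale.Agent.P146.H633 Vale.Agent.P146.H522 Vale.Agent.P146.Cum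
open Vale.Agent.P146.H364 (Cb Pb Mb Cb_T Cb_self Cb_col eg_Cb ind_Cb Cb_comm)
open Vale.Agent.P146.H45 (linb eg_linb f2lin f2lin_ge' res nz nz_put)

section split

variable {ι : Type} [Fintype ι] [DecidableEq ι] {a : ι → (ι → ℝ) → ℝ}
  {H : ι → ι → (ι → ℝ) → ℝ}

/-- **`∫ |a - L y|² = |E H - L|² + ∫ |a^nl|²`** for every matrix `L`. -/
theorem res_split (ha : H329.GF a H) (L : Matrix ι ι ℝ) :
    ∫ z, ∑ i, res a L i z ^ 2 ∂(gI ι) = ∑ i, ∑ j, (H329.MH H i j - L i j) ^ 2 +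
      ∫ z, ∑ i, H329.nl a H i z ^ 2 ∂(gI ι) := by
  have er : ∀ i, EG (res a L i) := fun i => H45.eg_res ha.eg L i
  have key : ∀ i, ∫ z, res a L i z ^ 2 ∂(gI ι) = ∑ j, (H329.MH H i j - L i j) ^ 2 +
      ∫ z, H329.nl a H i z ^ 2 ∂(gI ι) := by
    intro i
    set c : ι → ℝ := fun j => H329.MH H i j - L i j with hc
    have el : EG fun z : ι → ℝ => ∑ j, c j * z j := H329.eg_lin _
    have en := ha.eg_nl i
    have h0 : ∫ z, (∑ j, c j * z j) * H329.nl a H i z ∂(gI ι) = 0 := by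
      have e1 : (fun z => (∑ j, c j * z j) * H329.nl a H i z) =
          fun z => ∑ j, c j * (z j * H329.nl a H i z) := by
        funext z
        rw [Finset.sum_mul]
        exact Finset.sum_congr rfl fun j _ => by ring
      rw [e1, integral_finsetSum _ fun j _ => (((EG.coord j).mul en).const_mul _).integrable]
      simp [integral_const_mul, H329.stein_nl ha]
    have h1 : ∫ z : ι → ℝ, (∑ j, c j * z j) ^ 2 ∂(gI ι) = ∑ j, c j ^ 2 := by
      have e1 : (fun z : ι → ℝ => (∑ j, c j * z j) ^ 2) =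
          fun z => ∑ j, c j * (z j * ∑ k, c k * z k) := by
        funext z
        rw [_root_.sq, Finset.sum_mul]
        exact Finset.sum_congr rfl fun j _ => by ring
      rw [e1, integral_finsetSum _ fun j _ => (((EG.coord j).mul el).const_mul _).integrable]
      refine Finset.sum_congr rfl fun j _ => ?_
      rw [integral_const_mul, H329.int_z_lin]; ring
    have e5 : ∀ z, res a L i z ^ 2 = (∑ j, c j * z j) ^ 2 + (H329.nl a H i z ^ 2 +
        2 * ((∑ j, c j * z j) * H329.nl a H i z)) := by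
      intro z
      have e6 : res a L i z = (∑ j, c j * z j) + H329.nl a H i z := by
        unfold res H329.nl
        simp only [hc, sub_mul, Finset.sum_sub_distrib]
        ring
      rw [e6]
      ring
    simp only [e5]
    rw [integral_add (el.pow 2).integrable ((en.pow 2).add ((el.mul en).const_mul 2)).integrable,
      integral_add (en.pow 2).integrable ((el.mul en).const_mul 2).integrable,
      integral_const_mul, h0, h1]
    ring
  rw [integral_finsetSum _ fun i _ => ((er i).pow 2).integrable,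
    integral_finsetSum _ fun i _ => ((ha.eg_nl i).pow 2).integrable,
    Finset.sum_congr rfl fun i _ => key i, Finset.sum_add_distrib]

end split

variable {n : ℕ} {k x β : ℝ} {q : Par} {b : Fin n}

/-- **the mean of `|N_b|²` over the row at a fixed bulk**, at a position `z` -/
theorem AvP_Nsq (S : CS n k x) {s : ℝ} (hs : 0 < s) (β : ℝ) (b : Fin n)
    (M : Fin n → Fin n → ℝ) (hM : ∀ i, M i b = 0) (z : Pair n → ℝ) :
    AvP s (row b) (fun u => ∑ i, nz S s β b M u i ^ 2) z =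
      H45.Na k (S.A s) (S.H s) s b z +
        k ^ 2 * s * ∑ i, ∑ j, (H329.mhr S s b z i j - M i j / β) ^ 2 := by
  have eg : EG fun u => ∑ i, nz S s β b M u i ^ 2 :=
    EG.sum _ fun i _ => (H45.eg_nz S s β b M i).pow 2
  rw [AvP_row eg]
  have e1 : ∀ y : Fin n → ℝ, ∑ i, nz S s β b M (put b (√s • y) z) i ^ 2 =
      ∑ i, res (H45.fa1 (S.A s) s b z) ((k * √s / β) • Matrix.of M) i y ^ 2 := fun y =>
    Finset.sum_congr rfl fun i _ => by rw [nz_put S s β hM z y i]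
  simp only [e1]
  rw [res_split (H45.gf_a1 (rowIn_S S hs) s b z)]
  rw [add_comm]
  congr 1
  rw [Finset.mul_sum]
  refine Finset.sum_congr rfl fun i _ => ?_
  rw [Finset.mul_sum]
  refine Finset.sum_congr rfl fun j _ => ?_
  rw [H45.fh1_js S hs, H329.MH_js S hs]
  simp only [Matrix.smul_apply, Matrix.of_apply, smul_eq_mul]
  have e2 := Real.sq_sqrt hs.le
  calc (√s * (k * H329.mhr S s b z i j) - k * √s / β * M i j) ^ 2 =
      √s ^ 2 * (k ^ 2 * (H329.mhr S s b z i j - M i j / β) ^ 2) := by ring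
    _ = _ := by rw [e2]; ring

/-- the linear residual in 364's letters, first position -/
lemma mhr_Pb2 (S : CS n k x) (hq : q.OkS) (h1 : 0 < q.s1) (hβ : β ≠ 0) (b : Fin n)
    (w : K4 (Pair n) → ℝ) :
    ∑ i, ∑ j, (H329.mhr S q.s1 b (P2 q w) i j - Cb S q.s1 (k2 q) b w i j / β) ^ 2 =
      1 / β ^ 2 * fr (Matrix.of (Pb S q.s1 (k2 q) b β w)) := by
  unfold fr
  rw [Finset.mul_sum]
  refine Finset.sum_congr rfl fun i _ => ?_
  rw [Finset.mul_sum]
  refine Finset.sum_congr rfl fun j _ => ?_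
  have e1 : Mb S q.s1 (k2 q) b w i j = H329.mhr S q.s1 b (P2 q w) i j := by
    unfold Mb H329.mhr
    have e : (fun w : K4 (Pair n) → ℝ => S.H q.s1 b (H712.lp (k2 q) w) i j) =
        fun w => S.H q.s1 b (P2 q w) i j := by
      funext w
      rw [show P2 q w = H712.lp (k2 q) w from P2_lp w]
    rw [e, Av_lf_P2_s hq (f := fun z => S.H q.s1 b z i j) (S.eg_H h1 b i j) (row b) w]
  simp only [Matrix.of_apply, Pb]
  rw [e1]
  field_simp
  ring

/-- the linear residual in 364's letters, second position -/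
lemma mhr_Pb3 (S : CS n k x) (hq : q.OkS) (h2 : 0 < q.s2) (hβ : β ≠ 0) (b : Fin n)
    (w : K4 (Pair n) → ℝ) :
    ∑ i, ∑ j, (H329.mhr S q.s2 b (P3 q w) i j - Cb S q.s2 (k3 q) b w i j / β) ^ 2 =
      1 / β ^ 2 * fr (Matrix.of (Pb S q.s2 (k3 q) b β w)) := by
  unfold fr
  rw [Finset.mul_sum]
  refine Finset.sum_congr rfl fun i _ => ?_
  rw [Finset.mul_sum]
  refine Finset.sum_congr rfl fun j _ => ?_
  have e1 : Mb S q.s2 (k3 q) b w i j = H329.mhr S q.s2 b (P3 q w) i j := by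
    unfold Mb H329.mhr
    have e : (fun w : K4 (Pair n) → ℝ => S.H q.s2 b (H712.lp (k3 q) w) i j) =
        fun w => S.H q.s2 b (P3 q w) i j := by
      funext w
      rw [show P3 q w = H712.lp (k3 q) w from P3_lp w]
    rw [e, Av_lf_P3_s hq (f := fun z => S.H q.s2 b z i j) (S.eg_H h2 b i j) (row b) w]
  simp only [Matrix.of_apply, Pb]
  rw [e1]
  field_simp
  ring

/-- **the chaos identity at the bulk, first position** -/
theorem Av_Nsq2 (S : CS n k x) (hq : q.OkS) (h1 : 0 < q.s1) (hβ : β ≠ 0) (b : Fin n)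
    (w : K4 (Pair n) → ℝ) :
    Av (lf (row b)) (fun w => ∑ i, H350.Nv S q.s1 (k2 q) β b (Cb S q.s1 (k2 q) b) w i ^ 2) w =
      H45.Na k (S.A q.s1) (S.H q.s1) q.s1 b (P2 q w) +
        k ^ 2 * q.s1 / β ^ 2 * fr (Matrix.of (Pb S q.s1 (k2 q) b β w)) := by
  set m := Cb S q.s1 (k2 q) b w with hm
  have e1 : Av (lf (row b)) (fun w => ∑ i, H350.Nv S q.s1 (k2 q) β b (Cb S q.s1 (k2 q) b) w i ^ 2)
      w = Av (lf (row b)) (fun w' => ∑ i, nz S q.s1 β b m (P2 q w') i ^ 2) w := by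
    unfold Av
    refine integral_congr_ae (Filter.Eventually.of_forall fun u => ?_)
    have j1 : Cb S q.s1 (k2 q) b (sw (lf (row b)) w u) = m := by
      funext i j; exact ind_Cb i j w u
    simp only
    rw [H45.Nv_nz, j1, ← show P2 q (sw (lf (row b)) w u) = H712.lp (k2 q) (sw (lf (row b)) w u)
      from P2_lp _]
  rw [e1, Av_lf_P2_s hq (f := fun z => ∑ i, nz S q.s1 β b m z i ^ 2)
    (EG.sum _ fun i _ => (H45.eg_nz S q.s1 β b m i).pow 2) (row b) w,
    AvP_Nsq S h1 β b m (fun i => Cb_col w i) (P2 q w), hm, mhr_Pb2 S hq h1 hβ b w]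
  congr 1
  ring

/-- **the chaos identity at the bulk, second position** -/
theorem Av_Nsq3 (S : CS n k x) (hq : q.OkS) (h2 : 0 < q.s2) (hβ : β ≠ 0) (b : Fin n)
    (w : K4 (Pair n) → ℝ) :
    Av (lf (row b)) (fun w => ∑ i, H350.Nv S q.s2 (k3 q) β b (Cb S q.s2 (k3 q) b) w i ^ 2) w =
      H45.Na k (S.A q.s2) (S.H q.s2) q.s2 b (P3 q w) +
        k ^ 2 * q.s2 / β ^ 2 * fr (Matrix.of (Pb S q.s2 (k3 q) b β w)) := by
  set m := Cb S q.s2 (k3 q) b w with hm
  have e1 : Av (lf (row b)) (fun w => ∑ i, H350.Nv S q.s2 (k3 q) β b (Cb S q.s2 (k3 q) b) w i ^ 2)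
      w = Av (lf (row b)) (fun w' => ∑ i, nz S q.s2 β b m (P3 q w') i ^ 2) w := by
    unfold Av
    refine integral_congr_ae (Filter.Eventually.of_forall fun u => ?_)
    have j1 : Cb S q.s2 (k3 q) b (sw (lf (row b)) w u) = m := by
      funext i j; exact ind_Cb i j w u
    simp only
    rw [H45.Nv_nz, j1, ← show P3 q (sw (lf (row b)) w u) = H712.lp (k3 q) (sw (lf (row b)) w u)
      from P3_lp _]
  rw [e1, Av_lf_P3_s hq (f := fun z => ∑ i, nz S q.s2 β b m z i ^ 2)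
    (EG.sum _ fun i _ => (H45.eg_nz S q.s2 β b m i).pow 2) (row b) w,
    AvP_Nsq S h2 β b m (fun i => Cb_col w i) (P3 q w), hm, mhr_Pb3 S hq h2 hβ b w]
  congr 1
  ring


/-- the row average of the dominating function, exact -/
theorem Av_xr (S : CS n k q.x) (hq : q.OkS) (h1 : 0 < q.s1) (hβ : β ≠ 0) (b : Fin n)
    (w : K4 (Pair n) → ℝ) :
    Av (lf (row b)) (xr S β b (Cb S q.s1 (k2 q) b) (Cb S q.s2 (k3 q) b)) w =
      2 * (fr (Matrix.of (Cb S q.s2 (k3 q) b w)) *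
          (H45.Na k (S.A q.s1) (S.H q.s1) q.s1 b (P2 q w) +
            k ^ 2 * q.s1 / β ^ 2 * fr (Matrix.of (Pb S q.s1 (k2 q) b β w))) +
        fr (Matrix.of (Cb S q.s1 (k2 q) b w)) *
          (H45.Na k (S.A q.s2) (S.H q.s2) q.s2 b (P3 q w) +
            k ^ 2 * q.s2 / β ^ 2 * fr (Matrix.of (Pb S q.s2 (k3 q) b β w)))) := by
  have h2 : 0 < q.s2 := h1.trans_le hq.h12
  have n1 : EG fun w => ∑ i, H350.Nv S q.s1 (k2 q) β b (Cb S q.s1 (k2 q) b) w i ^ 2 :=
    EG.sum _ fun i _ => (eg_Nv S (fun i l => eg_Cb i l) i).pow 2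
  have n2 : EG fun w => ∑ i, H350.Nv S q.s2 (k3 q) β b (Cb S q.s2 (k3 q) b) w i ^ 2 :=
    EG.sum _ fun i _ => (eg_Nv S (fun i l => eg_Cb i l) i).pow 2
  have i1 : Ind (lf (row b)) fun w => fr (Matrix.of (Cb S q.s1 (k2 q) b w)) := fun z w => by
    simp only [fr, Matrix.of_apply]
    refine Finset.sum_congr rfl fun i _ => Finset.sum_congr rfl fun l _ => ?_
    have := ind_Cb (S := S) (s := q.s1) (a := k2 q) (b := b) i l z w
    simp only at this
    rw [this]
  have i2 : Ind (lf (row b)) fun w => fr (Matrix.of (Cb S q.s2 (k3 q) b w)) := fun z w => by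
    simp only [fr, Matrix.of_apply]
    refine Finset.sum_congr rfl fun i _ => Finset.sum_congr rfl fun l _ => ?_
    have := ind_Cb (S := S) (s := q.s2) (a := k3 q) (b := b) i l z w
    simp only at this
    rw [this]
  have e0 : xr S β b (Cb S q.s1 (k2 q) b) (Cb S q.s2 (k3 q) b) = fun w =>
      2 * (fr (Matrix.of (Cb S q.s2 (k3 q) b w)) *
          (∑ i, H350.Nv S q.s1 (k2 q) β b (Cb S q.s1 (k2 q) b) w i ^ 2) +
        fr (Matrix.of (Cb S q.s1 (k2 q) b w)) *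
          ∑ i, H350.Nv S q.s2 (k3 q) β b (Cb S q.s2 (k3 q) b) w i ^ 2) := rfl
  rw [e0]
  have e1 : Av (lf (row b)) (fun w => 2 * (fr (Matrix.of (Cb S q.s2 (k3 q) b w)) *
          (∑ i, H350.Nv S q.s1 (k2 q) β b (Cb S q.s1 (k2 q) b) w i ^ 2) +
        fr (Matrix.of (Cb S q.s1 (k2 q) b w)) *
          ∑ i, H350.Nv S q.s2 (k3 q) β b (Cb S q.s2 (k3 q) b) w i ^ 2)) w =
      2 * (Av (lf (row b)) (fun w => fr (Matrix.of (Cb S q.s2 (k3 q) b w)) *
          (∑ i, H350.Nv S q.s1 (k2 q) β b (Cb S q.s1 (k2 q) b) w i ^ 2)) w +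
        Av (lf (row b)) (fun w => fr (Matrix.of (Cb S q.s1 (k2 q) b w)) *
          ∑ i, H350.Nv S q.s2 (k3 q) β b (Cb S q.s2 (k3 q) b) w i ^ 2) w) := by
    rw [Av_const_mul, Av_add ((eg_frCb S q.s2 (k3 q) b).mul n1)
      ((eg_frCb S q.s1 (k2 q) b).mul n2)]
  rw [e1, Av_mul i2, Av_mul i1, Av_Nsq2 S hq h1 hβ b w, Av_Nsq3 S hq h2 hβ b w]

/-- **the number `Σ_b lcA χ_b xr_b`** -/
theorem xr_num {G : GD (Pair n)} (S : CS n k q.x) (hq : q.OkS) (hG : G.Ok) (hr : GRow k q G)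
    (h1 : 0 < q.s1) (hβ : β ≠ 0) {χ : Fin n → (K4 (Pair n) → ℝ) → ℝ} (eχ : ∀ b, EG (χ b))
    (iχ : ∀ b, Ind (lf (row b)) (χ b)) (χ0 : ∀ b w, 0 ≤ χ b w) :
    ∑ b, lcA (lf (row b)) (psiG q G S.F) (χ b)
        (xr S β b (Cb S q.s1 (k2 q) b) (Cb S q.s2 (k3 q) b)) =
      2 * ∑ b, Im (densG q G S.F) (fun w => χ b w *
        (fr (Matrix.of (Cb S q.s2 (k3 q) b w)) *
          (H45.Na k (S.A q.s1) (S.H q.s1) q.s1 b (P2 q w) +
            k ^ 2 * q.s1 / β ^ 2 * fr (Matrix.of (Pb S q.s1 (k2 q) b β w))) +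
        fr (Matrix.of (Cb S q.s1 (k2 q) b w)) *
          (H45.Na k (S.A q.s2) (S.H q.s2) q.s2 b (P3 q w) +
            k ^ 2 * q.s2 / β ^ 2 * fr (Matrix.of (Pb S q.s2 (k3 q) b β w))))) := by
  rw [Finset.mul_sum]
  refine Finset.sum_congr rfl fun b _ => ?_
  have hlf := lf_row_SG S hq hG hr b
  rw [lcA_eq hlf (eχ b) (iχ b) (eg_xr (fzn_Cb (eχ b) (iχ b) (χ0 b)))]
  rw [← Im_const_mul]
  unfold Im
  refine integral_congr_ae (ae_of_all _ fun w => ?_)
  show Real.exp (psiG q G S.F w) * (χ b w * Av (lf (row b))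
    (xr S β b (Cb S q.s1 (k2 q) b) (Cb S q.s2 (k3 q) b)) w) = _
  rw [Av_xr S hq h1 hβ b w]
  simp only [densG_eq]
  ring

end Vale.Agent.P146.R1S
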